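import Mathlib

set_option autoImplicit false

namespace Crest.Agent.R120.BC

open scoped ComplexOrder

variable {M : Type*} [CStarAlgebra M]

/-- `P` a projection, `G` a self-adjoint unitary, `G = P G + G P`. -/
structure FreeInv (P G : M) : Prop where
  P_sa : star P = P
  P_idem : P * P = P
  G_sa : star G = G
  G_sq : G * G = 1
  split : G = P * G + G * P

namespace FreeInv

variable {P G : M}

lemma PGP (h : FreeInv P G) : P * G * P = 0 := by
  have h1 : P * G = P * G + P * G * P := by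
    conv_lhs => rw [h.split]
    rw [mul_add, ← mul_assoc, ← mul_assoc, h.P_idem]
  have h2 := congrArg (fun z => z - P * G) h1
  simpa using h2.symm

lemma norm_G_le (h : FreeInv P G) : ‖G‖ ≤ 1 := by
  have h1 : ‖G‖ * ‖G‖ = ‖(1 : M)‖ := by
    rw [← CStarRing.norm_star_mul_self, h.G_sa, h.G_sq]
  rcases subsingleton_or_nontrivial M with hM | hM
  · rw [Subsingleton.elim G 0]; simp
  · rw [CStarRing.norm_one] at h1
    nlinarith [norm_nonneg G]

end FreeInv

lemma norm_proj_le {P : M} (h1 : star P = P) (h2 : P * P = P) : ‖P‖ ≤ 1 := by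
  have h3 : ‖P‖ * ‖P‖ = ‖P‖ := by
    rw [← CStarRing.norm_star_mul_self, h1, h2]
  nlinarith [norm_nonneg P]

/-- Compressing a free conjugate by a projection almost orthogonal to `P`. -/
lemma core_diag {P G p x : M} {δ : ℝ} (h : FreeInv P G) (hp : star p = p) (hp2 : p * p = p)
    (hδ : ‖p * P‖ ≤ δ) (hx : P * x * P = 0) : ‖p * G * x * G * p‖ ≤ 2 * δ * ‖x‖ := by
  have hG := h.norm_G_le
  have hpn := norm_proj_le hp hp2
  have hδ0 : 0 ≤ δ := (norm_nonneg _).trans hδ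
  have hPp : ‖P * p‖ ≤ δ := by
    rw [← norm_star, star_mul, hp, h.P_sa]; exact hδ
  have e : p * G * x * G * p = (p * P) * (G * x * G * p) + (p * (G * P) * x * G) * (P * p) := by
    have e1 : p * G * x * G * p = p * (P * G + G * P) * x * (P * G + G * P) * p := by
      rw [← h.split]
    have e2 : (p * P) * (G * x * G * p) = p * P * G * x * (P * G + G * P) * p := by
      rw [← h.split]; simp only [mul_assoc]
    have e3 : p * G * P * x * P * G * p = 0 := by
      have : p * G * P * x * P * G * p = p * G * (P * x * P) * G * p := by simp only [mul_assoc]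
      rw [this, hx]; simp
    rw [e1, e2]
    simp only [mul_add, add_mul, ← mul_assoc]
    rw [e3]
    abel
  rw [e]
  refine (norm_add_le _ _).trans ?_
  have b1 : ‖(p * P) * (G * x * G * p)‖ ≤ δ * ‖x‖ := by
    refine (norm_mul_le _ _).trans ?_
    refine mul_le_mul hδ ?_ (norm_nonneg _) hδ0
    calc ‖G * x * G * p‖ ≤ ‖G‖ * ‖x‖ * ‖G‖ * ‖p‖ := by
          refine (norm_mul_le _ _).trans ?_
          gcongr
          refine (norm_mul_le _ _).trans ?_
          gcongr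
          exact norm_mul_le _ _
      _ ≤ 1 * ‖x‖ * 1 * 1 := by gcongr
      _ = ‖x‖ := by ring
  have b2 : ‖(p * (G * P) * x * G) * (P * p)‖ ≤ δ * ‖x‖ := by
    refine (norm_mul_le _ _).trans ?_
    rw [mul_comm δ]
    refine mul_le_mul ?_ hPp (norm_nonneg _) (norm_nonneg _)
    have hP := norm_proj_le h.P_sa h.P_idem
    calc ‖p * (G * P) * x * G‖ ≤ ‖p‖ * (‖G‖ * ‖P‖) * ‖x‖ * ‖G‖ := by
          refine (norm_mul_le _ _).trans ?_
          gcongr
          refine (norm_mul_le _ _).trans ?_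
          gcongr
          refine (norm_mul_le _ _).trans ?_
          gcongr
          exact norm_mul_le _ _
      _ ≤ 1 * (1 * 1) * ‖x‖ * 1 := by gcongr
      _ = ‖x‖ := by ring
  linarith

/-- Compressing a mixed product. -/
lemma core_off {P₁ G₁ P₂ G₂ p x : M} {δ β : ℝ} (h₁ : FreeInv P₁ G₁) (h₂ : FreeInv P₂ G₂)
    (hp : star p = p) (hp2 : p * p = p) (hδ₁ : ‖p * P₁‖ ≤ δ) (hδ₂ : ‖p * P₂‖ ≤ δ)
    (hx : P₁ * x * P₂ = 0) (hx1 : ‖x‖ ≤ 1) (hl : ‖P₁ * x‖ ≤ β) (hr : ‖x * P₂‖ ≤ β) :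
    ‖p * G₁ * x * G₂ * p‖ ≤ 2 * δ * β + δ ^ 2 := by
  have hG1 := h₁.norm_G_le
  have hG2 := h₂.norm_G_le
  have hpn := norm_proj_le hp hp2
  have hδ0 : 0 ≤ δ := (norm_nonneg _).trans hδ₁
  have hβ0 : 0 ≤ β := (norm_nonneg _).trans hl
  have hPp : ‖P₂ * p‖ ≤ δ := by
    rw [← norm_star, star_mul, hp, h₂.P_sa]; exact hδ₂
  have e : p * G₁ * x * G₂ * p = (p * P₁) * G₁ * (x * P₂) * (G₂ * p)
      + (p * P₁) * G₁ * x * G₂ * (P₂ * p) + (p * G₁) * (P₁ * x) * G₂ * (P₂ * p) := by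
    have e1 : p * G₁ * x * G₂ * p = p * (P₁ * G₁ + G₁ * P₁) * x * (P₂ * G₂ + G₂ * P₂) * p := by
      rw [← h₁.split, ← h₂.split]
    have e3 : p * G₁ * P₁ * x * P₂ * G₂ * p = 0 := by
      have : p * G₁ * P₁ * x * P₂ * G₂ * p = p * G₁ * (P₁ * x * P₂) * G₂ * p := by
        simp only [mul_assoc]
      rw [this, hx]; simp
    rw [e1]
    simp only [mul_add, add_mul, ← mul_assoc]
    rw [e3]
    abel
  rw [e]
  have b1 : ‖(p * P₁) * G₁ * (x * P₂) * (G₂ * p)‖ ≤ δ * β := by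
    calc ‖(p * P₁) * G₁ * (x * P₂) * (G₂ * p)‖ ≤ ‖p * P₁‖ * ‖G₁‖ * ‖x * P₂‖ * (‖G₂‖ * ‖p‖) := by
          refine (norm_mul_le _ _).trans ?_
          gcongr
          · refine (norm_mul_le _ _).trans ?_
            gcongr
            exact norm_mul_le _ _
          · exact norm_mul_le _ _
      _ ≤ δ * 1 * β * (1 * 1) := by gcongr
      _ = δ * β := by ring
  have b2 : ‖(p * P₁) * G₁ * x * G₂ * (P₂ * p)‖ ≤ δ ^ 2 := by
    calc ‖(p * P₁) * G₁ * x * G₂ * (P₂ * p)‖ ≤ ‖p * P₁‖ * ‖G₁‖ * ‖x‖ * ‖G₂‖ * ‖P₂ * p‖ := by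
          refine (norm_mul_le _ _).trans ?_
          gcongr
          refine (norm_mul_le _ _).trans ?_
          gcongr
          refine (norm_mul_le _ _).trans ?_
          gcongr
          exact norm_mul_le _ _
      _ ≤ δ * 1 * 1 * 1 * δ := by gcongr
      _ = δ ^ 2 := by ring
  have b3 : ‖(p * G₁) * (P₁ * x) * G₂ * (P₂ * p)‖ ≤ δ * β := by
    calc ‖(p * G₁) * (P₁ * x) * G₂ * (P₂ * p)‖ ≤ (‖p‖ * ‖G₁‖) * ‖P₁ * x‖ * ‖G₂‖ * ‖P₂ * p‖ := by
          refine (norm_mul_le _ _).trans ?_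
          gcongr
          refine (norm_mul_le _ _).trans ?_
          gcongr
          refine (norm_mul_le _ _).trans ?_
          gcongr
          exact norm_mul_le _ _
      _ ≤ (1 * 1) * β * 1 * δ := by gcongr
      _ = δ * β := by ring
  refine (norm_add₃_le).trans ?_
  linarith

end Crest.Agent.R120.BC
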