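import Mathlib
import Crest.Agent.R120.BasicCore

set_option autoImplicit false

namespace Crest.Agent.R120.BC

open scoped ComplexOrder

variable {M : Type*} [CStarAlgebra M] [PartialOrder M] [StarOrderedRing M]

lemma neg_norm_smul_le_conj {p w : M} (hp : star p = p) (hp2 : p * p = p) (hw : star w = w)
    (hpw : p * w * p = w) {r : ℝ} (hr : ‖w‖ ≤ r) : -(r • p) ≤ w := by
  have h1 : star p * (-w) * p ≤ ‖-w‖ • (star p * p) :=
    CStarAlgebra.star_left_conjugate_le_norm_smul (a := p) (b := -w)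
      (hb := by rw [isSelfAdjoint_iff, star_neg, hw])
  rw [hp, hp2, norm_neg, mul_neg, neg_mul, hpw] at h1
  have h2 : ‖w‖ • p ≤ r • p := by
    have hp0 : 0 ≤ p := by
      have := star_mul_self_nonneg p
      rwa [hp, hp2] at this
    exact smul_le_smul_of_nonneg_right hr hp0
  exact neg_le.mp (h1.trans h2)

/-- The lower bound `T* T ≥ (c₁/2) p`. -/
lemma core_lower {P₁ G₁ P₂ G₂ p A₁ b₂ : M} {δ β c₁ m : ℝ} (h₁ : FreeInv P₁ G₁)
    (h₂ : FreeInv P₂ G₂)
    (hp : star p = p) (hp2 : p * p = p) (hδ₁ : ‖p * P₁‖ ≤ δ) (hδ₂ : ‖p * P₂‖ ≤ δ)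
    (hA : star A₁ = A₁) (hA1 : ‖A₁‖ ≤ 1) (hb1 : ‖b₂‖ ≤ 1)
    (hx : P₁ * (A₁ * A₁ * b₂) * P₂ = 0) (hl : ‖P₁ * (A₁ * A₁ * b₂)‖ ≤ β)
    (hr : ‖(A₁ * A₁ * b₂) * P₂‖ ≤ β) (hm : 0 ≤ m) (hc₀ : 0 ≤ c₁) (hc₁ : c₁ ≤ 1)
    (hdiag : P₁ * (A₁ * A₁ - c₁ • (1 : M)) * P₁ = 0)
    (hsmall : 4 * δ + 2 * m * (2 * δ * β + δ ^ 2) ≤ c₁ / 2) :
    (c₁ / 2) • p ≤ star (A₁ * G₁ * p + m • (A₁ * b₂ * G₂ * p)) *
      (A₁ * G₁ * p + m • (A₁ * b₂ * G₂ * p)) := by
  set Y := A₁ * b₂ * G₂ * p with hY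
  set Z := p * G₁ * (A₁ * A₁ * b₂) * G₂ * p with hZ
  set D := p * G₁ * (A₁ * A₁ - c₁ • (1 : M)) * G₁ * p with hD
  have hδ0 : 0 ≤ δ := (norm_nonneg _).trans hδ₁
  have hβ0 : 0 ≤ β := (norm_nonneg _).trans hl
  have e : star (A₁ * G₁ * p + m • Y) * (A₁ * G₁ * p + m • Y) =
      c₁ • p + (m ^ 2) • (star Y * Y) + (D + m • (Z + star Z)) := by
    have e1 : star (A₁ * G₁ * p) * (A₁ * G₁ * p) = c₁ • p + D := by
      have : p * G₁ * (c₁ • (1 : M)) * G₁ * p = c₁ • p := by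
        rw [mul_smul_comm, mul_one, smul_mul_assoc, smul_mul_assoc, mul_assoc p G₁ G₁, h₁.G_sq,
          mul_one, hp2]
      rw [hD, mul_sub, sub_mul, sub_mul, this]
      simp only [star_mul, hp, hA, h₁.G_sa, mul_assoc]
      abel
    have e2 : star (A₁ * G₁ * p) * Y = Z := by
      simp only [hY, hZ, star_mul, hp, hA, h₁.G_sa, mul_assoc]
    have e3 : star Y * (A₁ * G₁ * p) = star Z := by
      rw [← e2, star_mul (star (A₁ * G₁ * p)) Y, star_star]
    rw [star_add, star_smul, star_trivial m, add_mul, mul_add, mul_add, e1]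
    simp only [smul_mul_assoc, mul_smul_comm, smul_smul, e2, e3]
    rw [smul_add, ← pow_two]
    abel
  rw [e]
  have nA : ‖A₁ * A₁‖ ≤ 1 := (norm_mul_le _ _).trans (mul_le_one₀ hA1 (norm_nonneg _) hA1)
  have nx : ‖A₁ * A₁ * b₂‖ ≤ 1 := (norm_mul_le _ _).trans (mul_le_one₀ nA (norm_nonneg _) hb1)
  have nD : ‖D‖ ≤ 4 * δ := by
    have h := core_diag h₁ hp hp2 hδ₁ hdiag
    have hn : ‖A₁ * A₁ - c₁ • (1 : M)‖ ≤ 2 := by
      refine (norm_sub_le _ _).trans ?_
      have : ‖c₁ • (1 : M)‖ ≤ 1 := by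
        rw [norm_smul, Real.norm_of_nonneg hc₀]
        rcases subsingleton_or_nontrivial M with hM | hM
        · rw [Subsingleton.elim (1 : M) 0]; simp
        · rw [CStarRing.norm_one]; linarith
      linarith
    nlinarith
  have nZ : ‖Z‖ ≤ 2 * δ * β + δ ^ 2 := core_off h₁ h₂ hp hp2 hδ₁ hδ₂ hx nx hl hr
  have nW : ‖D + m • (Z + star Z)‖ ≤ c₁ / 2 := by
    refine (norm_add_le _ _).trans ?_
    rw [norm_smul, Real.norm_of_nonneg hm]
    have : ‖Z + star Z‖ ≤ 2 * (2 * δ * β + δ ^ 2) := by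
      refine (norm_add_le _ _).trans ?_
      rw [norm_star]; linarith
    nlinarith
  have hWsa : star (D + m • (Z + star Z)) = D + m • (Z + star Z) := by
    have : star D = D := by
      simp only [hD, star_mul, hp, h₁.G_sa, star_sub, hA, star_smul, star_one, star_trivial,
        mul_assoc]
    rw [star_add, this, star_smul, star_trivial m, star_add, star_star, add_comm (star Z) Z]
  have hpW : p * (D + m • (Z + star Z)) * p = D + m • (Z + star Z) := by
    have a1 : p * D * p = D := by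
      have : p * D * p = (p * p) * G₁ * (A₁ * A₁ - c₁ • (1 : M)) * G₁ * (p * p) := by
        simp only [hD, mul_assoc]
      rw [this, hp2]
    have a2 : p * Z * p = Z := by
      have : p * Z * p = (p * p) * G₁ * (A₁ * A₁ * b₂) * G₂ * (p * p) := by
        simp only [hZ, mul_assoc]
      rw [this, hp2]
    have a3 : p * star Z * p = star Z := by
      have := congrArg star a2
      rw [star_mul, star_mul, hp, ← mul_assoc] at this
      exact this
    rw [mul_add, add_mul, a1, mul_smul_comm, smul_mul_assoc, mul_add, add_mul, a2, a3]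
  have key := neg_norm_smul_le_conj hp hp2 hWsa hpW nW
  have hYY : 0 ≤ (m ^ 2) • (star Y * Y) := smul_nonneg (sq_nonneg m) (star_mul_self_nonneg Y)
  calc (c₁ / 2) • p = c₁ • p + 0 + -((c₁ / 2) • p) := by
        rw [add_zero, ← sub_eq_add_neg, ← sub_smul]
        congr 1; ring
    _ ≤ c₁ • p + (m ^ 2) • (star Y * Y) + (D + m • (Z + star Z)) := by
        gcongr

end Crest.Agent.R120.BC
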