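import Mathlib
import Crest.Agent.R120.BasicCore2

set_option autoImplicit false

namespace Crest.Agent.R120.BC

open scoped ComplexOrder

variable {M : Type*} [CStarAlgebra M] [PartialOrder M] [StarOrderedRing M]

/-- inverse square root of an element bounded below -/
lemma exists_inv_sqrt {R : M} {c : ℝ} (hR : IsSelfAdjoint R) (hc : 0 < c)
    (hcR : c • (1 : M) ≤ R) {S : StarSubalgebra ℂ M} (hS : IsClosed (S : Set M)) (hRS : R ∈ S) :
    ∃ r ∈ S, star r = r ∧ r * r * R = 1 ∧ ∀ x : M, Commute R x → Commute r x := by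
  have hsp : ∀ x ∈ spectrum ℝ R, c ≤ x := by
    rw [← algebraMap_le_iff_le_spectrum (a := R) (ha := hR), Algebra.algebraMap_eq_smul_one]
    exact hcR
  have hcont : ContinuousOn (fun x : ℝ => (√x)⁻¹) (spectrum ℝ R) := by
    apply ContinuousOn.inv₀
    · exact Real.continuous_sqrt.continuousOn
    · intro x hx
      exact (Real.sqrt_pos.mpr (hc.trans_le (hsp x hx))).ne'
  refine ⟨cfc (fun x : ℝ => (√x)⁻¹) R, ?_, ?_, ?_, ?_⟩
  · have : IsClosed (S : Set M) := hS
    exact cfc_mem (fun x : ℝ => (√x)⁻¹) hRS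
  · exact (cfc_predicate (fun x : ℝ => (√x)⁻¹) R).star_eq
  · rw [← cfc_mul _ _ R hcont hcont]
    nth_rewrite 2 [← cfc_id' ℝ R]
    rw [← cfc_mul (fun x : ℝ => (√x)⁻¹ * (√x)⁻¹) (fun x : ℝ => x) R (hcont.mul hcont)
      continuousOn_id]
    rw [← cfc_const_one ℝ R]
    apply cfc_congr
    intro x hx
    have hx0 : 0 < x := hc.trans_le (hsp x hx)
    have h2 : √x ≠ 0 := (Real.sqrt_pos.mpr hx0).ne'
    have h3 : √x * √x = x := Real.mul_self_sqrt hx0.le
    show (√x)⁻¹ * (√x)⁻¹ * x = 1
    nth_rewrite 3 [← h3]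
    field_simp
  · intro x hx
    exact hx.cfc_real _

lemma core_polar {p T : M} {c : ℝ} (hp : star p = p) (hp2 : p * p = p) (hTp : T * p = T)
    (hc : 0 < c) (hc1 : c ≤ 1) (hT : c • p ≤ star T * T) {S : StarSubalgebra ℂ M}
    (hS : IsClosed (S : Set M)) (hpS : p ∈ S) (hTS : T ∈ S) :
    ∃ r ∈ S, star (T * r) * (T * r) = p ∧ (T * r) * star (T * r) * T = T := by
  set R := star T * T + (1 - p) with hR
  have hpT : p * star T = star T := by
    have := congrArg star hTp
    rwa [star_mul, hp] at this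
  have hRsa : IsSelfAdjoint R := by
    rw [isSelfAdjoint_iff, hR, star_add, star_mul, star_star, star_sub, star_one, hp]
  have hpp : (1 - p) * (1 - p) = 1 - p := IsIdempotentElem.one_sub hp2
  have h1p : 0 ≤ (1 - p) := by
    have : star (1 - p) * (1 - p) = 1 - p := by
      rw [star_sub, star_one, hp, hpp]
    rw [← this]; exact star_mul_self_nonneg _
  have hcR : c • (1 : M) ≤ R := by
    have h2 : c • (1 - p) ≤ (1 : ℝ) • (1 - p) := smul_le_smul_of_nonneg_right hc1 h1p
    rw [one_smul, smul_sub] at h2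
    calc c • (1 : M) = c • p + (c • (1 : M) - c • p) := by abel
      _ ≤ R := add_le_add hT h2
  have hRS : R ∈ S := add_mem (mul_mem (star_mem hTS) hTS) (sub_mem (one_mem S) hpS)
  obtain ⟨r, hrS, hrsa, hrR, hrc⟩ := exists_inv_sqrt hRsa hc hcR hS hRS
  have hRp : (1 - p) * R = 1 - p := by
    rw [hR, mul_add, ← mul_assoc, sub_mul, one_mul, hpT, sub_self, zero_mul, zero_add, hpp]
  have hRp' : R * (1 - p) = 1 - p := by
    have := congrArg star hRp
    rwa [star_mul, star_sub, star_one, hp, hRsa.star_eq] at this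
  have hcomm : Commute R (1 - p) := by
    rw [commute_iff_eq, hRp, hRp']
  have hrcomm : Commute r (1 - p) := hrc _ hcomm
  have hrRc : Commute r R := hrc _ (Commute.refl R)
  have hr2p : r * r * (1 - p) = 1 - p := by
    calc r * r * (1 - p) = r * r * (R * (1 - p)) := by rw [hRp']
      _ = r * r * R * (1 - p) := by rw [mul_assoc (r * r)]
      _ = 1 - p := by rw [hrR, one_mul]
  have hTT : star T * T = R - (1 - p) := by rw [hR]; abel
  refine ⟨r, hrS, ?_, ?_⟩
  · rw [star_mul, hrsa]
    calc r * star T * (T * r) = r * (star T * T) * r := by simp only [mul_assoc]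
      _ = r * R * r - r * (1 - p) * r := by rw [hTT, mul_sub, sub_mul]
      _ = r * r * R - r * r * (1 - p) := by
          rw [mul_assoc r R r, ← hrRc.eq, ← mul_assoc, mul_assoc r (1 - p) r, ← hrcomm.eq,
            ← mul_assoc]
      _ = p := by rw [hrR, hr2p]; abel
  · rw [star_mul, hrsa]
    calc T * r * (r * star T) * T = T * (r * r * (star T * T)) := by simp only [mul_assoc]
      _ = T * (r * r * R - r * r * (1 - p)) := by rw [hTT, mul_sub]
      _ = T * p := by rw [hrR, hr2p]; congr 1; abel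
      _ = T := hTp

end Crest.Agent.R120.BC
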