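import Mathlib
import Crest.Agent.R120.BasicCore3

set_option autoImplicit false

namespace Crest.Agent.R120.BC

open scoped ComplexOrder

variable {M : Type*} [CStarAlgebra M]

/-- A seminorm compatible with left multiplication (for instance `Z ↦ ψ((Zs)*(Zs))^{1/2}`). -/
structure LSN (N : M → ℝ) : Prop where
  nonneg : ∀ x, 0 ≤ N x
  add : ∀ x y, N (x + y) ≤ N x + N y
  mul : ∀ x y, N (x * y) ≤ ‖x‖ * N y

namespace LSN

variable {N : M → ℝ}

lemma zero (h : LSN N) : N 0 = 0 := by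
  have h1 := h.mul 0 0
  rw [norm_zero, zero_mul, zero_mul] at h1
  exact le_antisymm h1 (h.nonneg 0)

lemma smul_le (h : LSN N) (r : ℝ) (x : M) : N (r • x) ≤ |r| * N x := by
  have h1 := h.mul (r • (1 : M)) x
  rw [smul_mul_assoc, one_mul] at h1
  refine h1.trans ?_
  have h2 : ‖r • (1 : M)‖ ≤ |r| := by
    rw [norm_smul, Real.norm_eq_abs]
    rcases subsingleton_or_nontrivial M with hM | hM
    · rw [Subsingleton.elim (1 : M) 0]; simp
    · rw [CStarRing.norm_one, mul_one]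
  exact mul_le_mul_of_nonneg_right h2 (h.nonneg x)

lemma neg_le (h : LSN N) (x : M) : N (-x) ≤ N x := by
  have := h.smul_le (-1) x
  simpa using this

lemma sub_le (h : LSN N) (x y : M) : N (x - y) ≤ N x + N y := by
  rw [sub_eq_add_neg]
  exact (h.add _ _).trans (by linarith [h.neg_le y])

lemma mul_le' (h : LSN N) (x y : M) {c : ℝ} (hx : ‖x‖ ≤ c) : N (x * y) ≤ c * N y :=
  (h.mul x y).trans (mul_le_mul_of_nonneg_right hx (h.nonneg y))

lemma mul_zero' (h : LSN N) (x : M) {y : M} (hy : N y = 0) : N (x * y) = 0 := by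
  have := h.mul x y
  rw [hy, mul_zero] at this
  exact le_antisymm this (h.nonneg _)

end LSN

lemma conj_expand {P G x : M} (h : FreeInv P G) (hx : P * x * P = 0) :
    G * x * G = P * G * x * G + G * P * x * G * P := by
  have e3 : G * P * x * P * G = 0 := by
    have : G * P * x * P * G = G * (P * x * P) * G := by simp only [mul_assoc]
    rw [this, hx]; simp
  calc G * x * G = (P * G + G * P) * x * G := by rw [← h.split]
    _ = P * G * x * G + G * P * x * G := by rw [add_mul, add_mul]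
    _ = P * G * x * G + G * P * x * (P * G + G * P) := by rw [← h.split]
    _ = P * G * x * G + (G * P * x * P * G + G * P * x * G * P) := by
        rw [mul_add]; simp only [mul_assoc]
    _ = _ := by rw [e3, zero_add]

/-- The estimate of `1 - v v*` in the seminorm of the state. -/
lemma core_est {P₂ G₁ G₂ p A₁ b₂ E : M} {δ β t m : ℝ} {N : M → ℝ} (hN : LSN N)
    (h₂ : FreeInv P₂ G₂) (hG₁ : ‖G₁‖ ≤ 1)
    (hp2 : p * p = p) (hδ₂ : ‖p * P₂‖ ≤ δ)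
    (hA1 : ‖A₁‖ ≤ 1) (hb : ‖A₁ * b₂ * P₂‖ ≤ β)
    (ht : 0 < t) (hm : 0 < m) (hp0 : P₂ * (p - t • (1 : M)) * P₂ = 0)
    (hE : ‖E‖ ≤ 1) (hET : E * (A₁ * G₁ * p + m • (A₁ * b₂ * G₂ * p)) = 0)
    (hN1 : N 1 ≤ 1) (hNP : N P₂ = 0) :
    N E ≤ N (1 - A₁) + N (1 - b₂) + (m * t)⁻¹ * δ + t⁻¹ * (β * (δ + t)) := by
  set T := A₁ * G₁ * p + m • (A₁ * b₂ * G₂ * p) with hT
  set p0 := p - t • (1 : M) with hp0d
  have hδ0 : 0 ≤ δ := (norm_nonneg _).trans hδ₂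
  have hβ0 : 0 ≤ β := (norm_nonneg _).trans hb
  have hG2 := h₂.norm_G_le
  have hNG : N G₂ ≤ 1 := by
    have := hN.mul_le' G₂ 1 hG2
    rw [mul_one, one_mul] at this
    exact this.trans hN1
  have hNpG : N (p * G₂) ≤ δ := by
    have e : p * G₂ = (p * P₂) * G₂ + (p * G₂) * P₂ := by
      nth_rewrite 1 [h₂.split]
      rw [mul_add]; simp only [mul_assoc]
    rw [e]
    refine (hN.add _ _).trans ?_
    rw [hN.mul_zero' _ hNP, add_zero]
    refine (hN.mul_le' _ _ hδ₂).trans ?_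
    nlinarith
  have hNp0G : N (p0 * G₂) ≤ δ + t := by
    rw [hp0d, sub_mul, smul_mul_assoc, one_mul]
    refine (hN.sub_le _ _).trans ?_
    have := hN.smul_le t G₂
    rw [abs_of_pos ht] at this
    nlinarith
  have hmt : 0 < m * t := mul_pos hm ht
  have eGpG : G₂ * p * G₂ = t • (1 : M) + (P₂ * G₂ * p0 * G₂ + G₂ * P₂ * p0 * G₂ * P₂) := by
    rw [← conj_expand h₂ hp0, hp0d, mul_sub, sub_mul, mul_smul_comm, mul_one, smul_mul_assoc,
      h₂.G_sq]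
    abel
  have key : E = E * ((1 - A₁) + A₁ * (1 - b₂) - (m * t)⁻¹ • (A₁ * G₁ * (p * G₂))
      - t⁻¹ • ((A₁ * b₂ * P₂) * (G₂ * (p0 * G₂)))
      - t⁻¹ • ((A₁ * b₂ * G₂ * P₂ * p0 * G₂) * P₂)) := by
    have e1 : T * ((m * t)⁻¹ • (p * G₂)) = (m * t)⁻¹ • (A₁ * G₁ * (p * G₂)) +
        t⁻¹ • (A₁ * b₂ * (G₂ * p * G₂)) := by
      rw [hT, add_mul, mul_smul_comm]
      congr 1
      · congr 1
        calc A₁ * G₁ * p * (p * G₂) = A₁ * G₁ * (p * p) * G₂ := by simp only [mul_assoc]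
          _ = _ := by rw [hp2]; simp only [mul_assoc]
      · rw [smul_mul_assoc, mul_smul_comm, smul_smul]
        have : m * (m * t)⁻¹ = t⁻¹ := by field_simp
        rw [this]
        congr 1
        calc A₁ * b₂ * G₂ * p * (p * G₂) = A₁ * b₂ * G₂ * (p * p) * G₂ := by
              simp only [mul_assoc]
          _ = _ := by rw [hp2]; simp only [mul_assoc]
    have e2 : (1 - A₁) + A₁ * (1 - b₂) - (m * t)⁻¹ • (A₁ * G₁ * (p * G₂))
      - t⁻¹ • ((A₁ * b₂ * P₂) * (G₂ * (p0 * G₂)))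
      - t⁻¹ • ((A₁ * b₂ * G₂ * P₂ * p0 * G₂) * P₂) = 1 - T * ((m * t)⁻¹ • (p * G₂)) := by
      rw [e1, eGpG, mul_add, mul_smul_comm, mul_one, smul_add, smul_smul, inv_mul_cancel₀ ht.ne',
        one_smul, mul_add, smul_add, mul_sub, mul_one]
      simp only [mul_assoc]
      abel
    rw [e2, mul_sub, mul_one, ← mul_assoc, hET, zero_mul, sub_zero]
  rw [key]
  refine (hN.mul_le' _ _ hE).trans ?_
  rw [one_mul]
  have b1 : N (A₁ * (1 - b₂)) ≤ N (1 - b₂) := by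
    have := hN.mul_le' A₁ (1 - b₂) hA1
    rwa [one_mul] at this
  have b2 : N ((m * t)⁻¹ • (A₁ * G₁ * (p * G₂))) ≤ (m * t)⁻¹ * δ := by
    refine (hN.smul_le _ _).trans ?_
    rw [abs_of_pos (inv_pos.mpr hmt)]
    refine mul_le_mul_of_nonneg_left ?_ (inv_pos.mpr hmt).le
    have hAG : ‖A₁ * G₁‖ ≤ 1 := (norm_mul_le _ _).trans (mul_le_one₀ hA1 (norm_nonneg _) hG₁)
    refine (hN.mul_le' _ _ hAG).trans ?_
    rw [one_mul]; exact hNpG
  have b3 : N (t⁻¹ • ((A₁ * b₂ * P₂) * (G₂ * (p0 * G₂)))) ≤ t⁻¹ * (β * (δ + t)) := by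
    refine (hN.smul_le _ _).trans ?_
    rw [abs_of_pos (inv_pos.mpr ht)]
    refine mul_le_mul_of_nonneg_left ?_ (inv_pos.mpr ht).le
    refine (hN.mul_le' _ _ hb).trans ?_
    refine mul_le_mul_of_nonneg_left ?_ hβ0
    refine (hN.mul_le' _ _ hG2).trans ?_
    rw [one_mul]; exact hNp0G
  have b4 : N (t⁻¹ • ((A₁ * b₂ * G₂ * P₂ * p0 * G₂) * P₂)) ≤ 0 := by
    refine (hN.smul_le _ _).trans ?_
    rw [hN.mul_zero' _ hNP, mul_zero]
  calc N ((1 - A₁) + A₁ * (1 - b₂) - (m * t)⁻¹ • (A₁ * G₁ * (p * G₂))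
      - t⁻¹ • ((A₁ * b₂ * P₂) * (G₂ * (p0 * G₂)))
      - t⁻¹ • ((A₁ * b₂ * G₂ * P₂ * p0 * G₂) * P₂))
      ≤ N ((1 - A₁) + A₁ * (1 - b₂) - (m * t)⁻¹ • (A₁ * G₁ * (p * G₂))
      - t⁻¹ • ((A₁ * b₂ * P₂) * (G₂ * (p0 * G₂)))) +
        N (t⁻¹ • ((A₁ * b₂ * G₂ * P₂ * p0 * G₂) * P₂)) := hN.sub_le _ _
    _ ≤ N ((1 - A₁) + A₁ * (1 - b₂) - (m * t)⁻¹ • (A₁ * G₁ * (p * G₂)))
        + N (t⁻¹ • ((A₁ * b₂ * P₂) * (G₂ * (p0 * G₂)))) + 0 := by
        gcongr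
        exact hN.sub_le _ _
    _ ≤ N ((1 - A₁) + A₁ * (1 - b₂)) + N ((m * t)⁻¹ • (A₁ * G₁ * (p * G₂)))
        + t⁻¹ * (β * (δ + t)) + 0 := by
        gcongr
        exact hN.sub_le _ _
    _ ≤ N (1 - A₁) + N (A₁ * (1 - b₂)) + (m * t)⁻¹ * δ + t⁻¹ * (β * (δ + t)) + 0 := by
        gcongr
        exact hN.add _ _
    _ ≤ _ := by linarith

end Crest.Agent.R120.BC
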