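import Mathlib
import Crest.Agent.R120.BasicCore4

set_option autoImplicit false

namespace Crest.Agent.R120.BC

open scoped ComplexOrder

variable {M : Type*} [CStarAlgebra M] [PartialOrder M] [StarOrderedRing M]

/-- functional calculus cut-off of a positive contraction. -/
lemma exists_cut {c : M} (h0 : 0 ≤ c) (h1 : c ≤ 1) {B : StarSubalgebra ℂ M}
    (hB : IsClosed (B : Set M)) (hc : c ∈ B) :
    ∃ A ∈ B, ∃ g : M, star A = A ∧ 0 ≤ A ∧ A ≤ 1 ∧ star g = g ∧ ‖g‖ ≤ 2 ∧ c * g * A = A ∧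
      1 - A ≤ (2 : ℝ) • (1 - c) := by
  have hcsa : IsSelfAdjoint c := .of_nonneg h0
  have hsp1 : ∀ x ∈ spectrum ℝ c, x ≤ 1 := (CFC.le_one_iff c hcsa).mp h1
  have hsp0 : ∀ x ∈ spectrum ℝ c, 0 ≤ x := fun x hx => spectrum_nonneg_of_nonneg h0 hx
  have hf : Continuous (fun t : ℝ => max 0 (2 * t - 1)) := by fun_prop
  have hg : Continuous (fun t : ℝ => (max t (1 / 2))⁻¹) := by
    refine Continuous.inv₀ (by fun_prop) (fun t => ?_)
    have : (1 / 2 : ℝ) ≤ max t (1 / 2) := le_max_right _ _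
    exact (by linarith : (0 : ℝ) < max t (1 / 2)).ne'
  have : IsClosed (B : Set M) := hB
  refine ⟨cfc (fun t : ℝ => max 0 (2 * t - 1)) c, cfc_mem _ hc,
    cfc (fun t : ℝ => (max t (1 / 2))⁻¹) c, ?_, ?_, ?_, ?_, ?_, ?_, ?_⟩
  · exact (cfc_predicate (fun t : ℝ => max 0 (2 * t - 1)) c).star_eq
  · exact cfc_nonneg (fun x _ => le_max_left _ _)
  · rw [cfc_le_one_iff _ c hf.continuousOn hcsa]
    intro x hx
    have := hsp1 x hx
    exact max_le (by norm_num) (by linarith)
  · exact (cfc_predicate (fun t : ℝ => (max t (1 / 2))⁻¹) c).star_eq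
  · refine norm_cfc_le (by norm_num) (fun x hx => ?_)
    have h2 : (1 / 2 : ℝ) ≤ max x (1 / 2) := le_max_right _ _
    have h3 : (0 : ℝ) < max x (1 / 2) := by linarith
    rw [Real.norm_of_nonneg (inv_pos.mpr h3).le]
    rw [inv_le_comm₀ h3 (by norm_num)]
    linarith
  · nth_rewrite 1 [← cfc_id' ℝ c]
    rw [← cfc_mul (fun t : ℝ => t) _ c continuousOn_id hg.continuousOn,
      ← cfc_mul (fun t : ℝ => t * (max t (1 / 2))⁻¹) _ c (continuousOn_id.mul hg.continuousOn)
        hf.continuousOn]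
    apply cfc_congr
    intro x hx
    show x * (max x (1 / 2))⁻¹ * max 0 (2 * x - 1) = max 0 (2 * x - 1)
    rcases le_total x (1 / 2) with h | h
    · rw [max_eq_left (by linarith : 2 * x - 1 ≤ 0), mul_zero]
    · rw [max_eq_left h, mul_inv_cancel₀ (by linarith), one_mul]
  · have e1 : 1 - cfc (fun t : ℝ => max 0 (2 * t - 1)) c =
        cfc (fun t : ℝ => 1 - max 0 (2 * t - 1)) c := by
      rw [cfc_sub (fun _ => (1 : ℝ)) _ c continuousOn_const hf.continuousOn, cfc_const_one ℝ c]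
    have e2 : (2 : ℝ) • (1 - c) = cfc (fun t : ℝ => 2 * (1 - t)) c := by
      rw [cfc_const_mul 2 (fun t : ℝ => 1 - t) c (by fun_prop),
        cfc_sub (fun _ => (1 : ℝ)) (fun t : ℝ => t) c continuousOn_const continuousOn_id,
        cfc_const_one ℝ c, cfc_id' ℝ c]
    rw [e1, e2]
    refine cfc_mono (fun x hx => ?_) (by fun_prop) (by fun_prop)
    have := hsp1 x hx
    rcases le_total (2 * x - 1) 0 with h | h
    · rw [max_eq_left h]; linarith
    · rw [max_eq_right h]; linarith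

end Crest.Agent.R120.BC
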