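import Crest.Agent.R120.TypeI
import Crest.Agent.R120.BasicCut

/-!
# The basic lemma (blueprint section 4)
-/

set_option autoImplicit false

namespace Crest.Agent.R120

open scoped ComplexOrder
open Filter Topology

variable {𝔹 : Type} [CStarAlgebra 𝔹] [PartialOrder 𝔹] [StarOrderedRing 𝔹] {X : Type}
variable (M : PP 𝔹 X)

namespace BC

lemma freeInv (x : X) : FreeInv (M.P x) (M.G x) where
  P_sa := (M.P_proj x).isSelfAdjoint.star_eq
  P_idem := (M.P_proj x).isIdempotentElem.eq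
  G_sa := M.G_sa x
  G_sq := M.G_sq x
  split := M.G_eq x

lemma sn_lsn (ψ : 𝔹 →ₚ[ℂ] ℂ) : LSN (sn ψ) := ⟨sn_nonneg ψ, sn_add_le ψ, sn_mul_le ψ⟩

lemma apply_real (ψ : 𝔹 →ₚ[ℂ] ℂ) {x : 𝔹} (hx : star x = x) : ψ x = ((ψ x).re : ℂ) := by
  have h1 := apply_star ψ x
  rw [hx] at h1
  exact (Complex.conj_eq_iff_re.mp h1.symm).symm

omit [StarOrderedRing 𝔹] in
lemma re_mono (ψ : 𝔹 →ₚ[ℂ] ℂ) {x y : 𝔹} (h : x ≤ y) : (ψ x).re ≤ (ψ y).re :=
  (Complex.le_def.1 (OrderHomClass.mono ψ h)).1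

omit [StarOrderedRing 𝔹] in
lemma re_nonneg (ψ : 𝔹 →ₚ[ℂ] ℂ) {x : 𝔹} (h : 0 ≤ x) : 0 ≤ (ψ x).re := by
  have := re_mono ψ h
  simpa using this

/-- The part of the basic lemma after the choice of all parameters. -/
lemma basic_final {Y : Set X} {x₁ x₂ : X} (hx₁ : x₁ ∉ Y) (hx₂ : x₂ ∉ Y) (hne : x₁ ≠ x₂)
    {B S : StarSubalgebra ℂ 𝔹} (hBU : B ≤ M.U Y) (hS : IsClosed (S : Set 𝔹)) (hBS : B ≤ S)
    (hG₁ : M.G x₁ ∈ S) (hG₂ : M.G x₂ ∈ S) {m : ℕ} (hpB : M.p m ∈ B)
    {A b : 𝔹} (hA : A ∈ B) (hb : b ∈ B) (hAsa : star A = A) (hA1 : ‖A‖ ≤ 1)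
    (hb1 : ‖b‖ ≤ 1) {c₁ K : ℝ} (hc₁ : 0 < c₁) (hc₁' : c₁ ≤ 1)
    (hτ : M.τ (A * A) = (c₁ : ℂ)) (hK : 0 < K)
    (hsm : (4 + 2 * K) * √((1 / 2 : ℝ) ^ m) + 4 * K * sn M.τ b ≤ c₁ / 2)
    {ρ : 𝔹 →ₚ[ℂ] ℂ} (hρ : ρ 1 = 1) (hρP : sn ρ (M.P x₂) = 0) :
    ∃ v ∈ S, star v * v = M.p m ∧ (∀ z : 𝔹, z * A = A → z * v = v) ∧
      sn ρ (1 - v * star v) ≤ sn ρ (1 - A) + sn ρ (1 - b) + K⁻¹ +
        sn M.τ b * ((√((1 / 2 : ℝ) ^ m))⁻¹ + 1) := by
  set t : ℝ := (1 / 2 : ℝ) ^ m with ht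
  have ht0 : 0 < t := by positivity
  set δ : ℝ := √t with hδ
  have hδ0 : 0 < δ := Real.sqrt_pos.mpr ht0
  have hδ2 : δ ^ 2 = t := Real.sq_sqrt ht0.le
  set β : ℝ := sn M.τ b with hβ
  have hβ0 : 0 ≤ β := sn_nonneg _ _
  set mm : ℝ := K / δ with hmm
  have hmm0 : 0 < mm := by positivity
  have hp : star (M.p m) = M.p m := (M.p_dec.proj m).isSelfAdjoint.star_eq
  have hp2 : M.p m * M.p m = M.p m := (M.p_dec.proj m).isIdempotentElem.eq
  have hBuniv : B ≤ M.U Set.univ := hBU.trans (M.U_mono _ _ (Set.subset_univ _))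
  have hpP : ∀ x, x ∉ Y → ‖M.p m * M.P x‖ ≤ δ := by
    intro x hx
    rw [M.norm_mul_P hx (hBU hpB)]
    have h1 := sn_proj_sq M.τ (M.p_dec.proj m)
    have h2 : (M.τ (M.p m)).re = t := by
      rw [M.τ_p, ht]
      have : ((1 / 2 : ℂ)) ^ m = (((1 / 2 : ℝ) ^ m : ℝ) : ℂ) := by push_cast; rfl
      rw [this, Complex.ofReal_re]
    rw [h2] at h1
    rw [hδ]
    exact Real.le_sqrt_of_sq_le h1.le
  have hAA : A * A ∈ B := mul_mem hA hA
  have hAAn : ‖A * A‖ ≤ 1 := (norm_mul_le _ _).trans (mul_le_one₀ hA1 (norm_nonneg _) hA1)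
  have hX : A * A * b ∈ B := mul_mem hAA hb
  have hsnX : sn M.τ (A * A * b) ≤ β := by
    refine (sn_mul_le M.τ _ _).trans ?_
    have := mul_le_mul_of_nonneg_right hAAn hβ0
    rwa [one_mul] at this
  have hsnY : sn M.τ (A * b) ≤ β := by
    refine (sn_mul_le M.τ _ _).trans ?_
    have := mul_le_mul_of_nonneg_right hA1 hβ0
    rwa [one_mul] at this
  have f₁ := freeInv M x₁
  have f₂ := freeInv M x₂
  set T : 𝔹 := A * M.G x₁ * M.p m + mm • (A * b * M.G x₂ * M.p m) with hT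
  have hlow : (c₁ / 2) • M.p m ≤ star T * T := by
    refine core_lower (β := β) (δ := δ) f₁ f₂ hp hp2 (hpP x₁ hx₁) (hpP x₂ hx₂) hAsa hA1 hb1
      ?_ ?_ ?_ hmm0.le hc₁.le hc₁' ?_ ?_
    · exact M.PTP_ne Y x₁ x₂ _ hx₁ hx₂ hne (hBU hX)
    · rw [M.norm_P_mul hx₁ (hBU hX)]; exact hsnX
    · rw [M.norm_mul_P hx₂ (hBU hX)]; exact hsnX
    · rw [mul_sub, sub_mul, M.PTP_same Y x₁ _ hx₁ (hBU hAA), hτ, mul_smul_comm, mul_one,
        smul_mul_assoc, f₁.P_idem, Complex.coe_smul, sub_self]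
    · have e : 4 * δ + 2 * mm * (2 * δ * β + δ ^ 2) = (4 + 2 * K) * δ + 4 * K * β := by
        rw [hmm]; field_simp; ring
      rw [e]; exact hsm
  have hTp : T * M.p m = T := by
    rw [hT, add_mul, smul_mul_assoc, mul_assoc _ (M.p m) (M.p m), hp2,
      mul_assoc _ (M.p m) (M.p m), hp2]
  have hTS : T ∈ S := by
    have h1 : A * M.G x₁ * M.p m ∈ S := mul_mem (mul_mem (hBS hA) hG₁) (hBS hpB)
    have h2 : A * b * M.G x₂ * M.p m ∈ S :=
      mul_mem (mul_mem (mul_mem (hBS hA) (hBS hb)) hG₂) (hBS hpB)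
    refine add_mem h1 ?_
    rw [← Complex.coe_smul]
    exact S.smul_mem h2 _
  obtain ⟨r, hrS, hv1, hv2⟩ := core_polar hp hp2 hTp (by positivity) (by linarith) hlow hS
    (hBS hpB) hTS
  have hsub : IsStarProjection (1 - T * r * star (T * r)) := by
    have h1 : IsStarProjection (T * r * star (T * r)) := by
      refine ⟨?_, ?_⟩
      · rw [IsIdempotentElem]
        have hpv : T * r * M.p m = T * r := by
          have h3 : star (T * r * (1 - M.p m)) * (T * r * (1 - M.p m)) = 0 := by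
            rw [star_mul, star_sub, star_one, hp]
            calc (1 - M.p m) * star (T * r) * (T * r * (1 - M.p m))
                = (1 - M.p m) * (star (T * r) * (T * r)) * (1 - M.p m) := by
                  simp only [mul_assoc]
              _ = 0 := by rw [hv1, sub_mul, one_mul, hp2, sub_self, zero_mul]
          have h4 := CStarRing.star_mul_self_eq_zero_iff _ |>.mp h3
          rw [mul_sub, mul_one, sub_eq_zero] at h4
          exact h4.symm
        calc T * r * star (T * r) * (T * r * star (T * r))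
            = T * r * (star (T * r) * (T * r)) * star (T * r) := by simp only [mul_assoc]
          _ = T * r * star (T * r) := by rw [hv1, hpv]
      · rw [isSelfAdjoint_iff, star_mul, star_star]
    exact h1.one_sub
  refine ⟨T * r, mul_mem hTS hrS, hv1, ?_, ?_⟩
  · intro z hz
    rw [← mul_assoc]
    congr 1
    rw [hT, mul_add, mul_smul_comm]
    simp only [← mul_assoc]
    rw [hz]
  · have hE1 : ‖1 - T * r * star (T * r)‖ ≤ 1 :=
      norm_proj_le hsub.isSelfAdjoint.star_eq hsub.isIdempotentElem.eq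
    have hET : (1 - T * r * star (T * r)) * T = 0 := by
      rw [sub_mul, one_mul, hv2, sub_self]
    have key := core_est (β := β) (δ := δ) (t := t) (m := mm) (sn_lsn ρ) f₂ f₁.norm_G_le hp2
      (hpP x₂ hx₂) hA1 (by rw [M.norm_mul_P hx₂ (hBU (mul_mem hA hb))]; exact hsnY) ht0 hmm0
      ?_ hE1 hET (sn_one ρ hρ).le hρP
    · have e1 : (mm * t)⁻¹ * δ = K⁻¹ := by
        rw [hmm, ← hδ2]; field_simp
      have e2 : t⁻¹ * (β * (δ + t)) = β * (δ⁻¹ + 1) := by
        rw [← hδ2]; field_simp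
      rw [e1, e2] at key
      exact key
    · rw [mul_sub, sub_mul, M.PTP_same Y x₂ _ hx₂ (hBU hpB), M.τ_p, mul_smul_comm, mul_one,
        smul_mul_assoc, f₂.P_idem, ht]
      have : ((1 / 2 : ℂ)) ^ m = (((1 / 2 : ℝ) ^ m : ℝ) : ℂ) := by push_cast; rfl
      rw [this, Complex.coe_smul, sub_self]

end BC

theorem PP.basic {Y : Set X} {x₁ x₂ : X} (hx₁ : x₁ ∉ Y) (hx₂ : x₂ ∉ Y) (hne : x₁ ≠ x₂)
    {B : StarSubalgebra ℂ 𝔹} (hB : IsClosed (B : Set 𝔹)) (hBU : B ≤ M.U Y)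
    (hbase : cs M.base ≤ B) {ψ : 𝔹 →ₚ[ℂ] ℂ} {a : ℕ → 𝔹} (h : Exc B ψ a)
    (hperp : ∀ c ∈ B, Tendsto (fun n => sn ψ (M.p n * c)) atTop (𝓝 0))
    {k : ℕ} (hk : 1 / 2 ≤ (ψ (M.p k)).re) (F : Finset 𝔹) (hF : ∀ b ∈ F, b ∈ B)
    {ε : ℝ} (hε : 0 < ε) :
    ∃ m > k, ∃ v ∈ cs ((B : Set 𝔹) ∪ {M.G x₁, M.G x₂}),
      star v * v = M.p m ∧ (M.p k - M.p m) * v = v ∧
      (ψ (M.p k)).re - ε ≤ (ψ (v * star v)).re ∧
      ∀ b ∈ F, ∃ μ : ℂ, ‖star v * (b - μ • 1) * v‖ ≤ ε := by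
  have hBuniv : B ≤ M.U Set.univ := hBU.trans (M.U_mono _ _ (Set.subset_univ _))
  have hpB : ∀ n, M.p n ∈ B := fun n => hbase (M.p_mem n)
  have hpsa : ∀ n, star (M.p n) = M.p n := fun n => (M.p_dec.proj n).isSelfAdjoint.star_eq
  have hpid : ∀ n, M.p n * M.p n = M.p n := fun n => (M.p_dec.proj n).isIdempotentElem.eq
  have hmul : ∀ n m, n ≤ m → M.p n * M.p m = M.p m := M.p_dec.mul
  have hmul' : ∀ n m, n ≤ m → M.p m * M.p n = M.p m := by
    intro n m hnm
    have := congrArg star (hmul n m hnm)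
    rwa [star_mul, hpsa, hpsa] at this
  -- choice of `m₀`
  have hsn0 : Tendsto (fun n => (ψ (M.p n)).re) atTop (𝓝 0) := by
    have h1 := (hperp 1 (one_mem B)).pow 2
    simp only [mul_one] at h1
    have h2 : (fun n => sn ψ (M.p n) ^ 2) = fun n => (ψ (M.p n)).re := by
      funext n; exact sn_proj_sq ψ (M.p_dec.proj n)
    rw [h2] at h1
    simpa using h1
  obtain ⟨m₀, hm₀k, hm₀⟩ : ∃ m₀, k < m₀ ∧ (ψ (M.p m₀)).re ≤ min (ε / 2) (1 / 4) := by
    have h1 : ∀ᶠ n in atTop, (ψ (M.p n)).re < min (ε / 2) (1 / 4) :=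
      hsn0.eventually_lt_const (by positivity)
    obtain ⟨n, hn1, hn2⟩ := (h1.and (eventually_gt_atTop k)).exists
    exact ⟨n, hn2, hn1.le⟩
  have hm₀a : (ψ (M.p m₀)).re ≤ ε / 2 := hm₀.trans (min_le_left _ _)
  have hm₀b : (ψ (M.p m₀)).re ≤ 1 / 4 := hm₀.trans (min_le_right _ _)
  set s : 𝔹 := M.p k - M.p m₀ with hs
  have hssa : star s = s := by rw [hs, star_sub, hpsa, hpsa]
  have hsid : s * s = s := by
    rw [hs, sub_mul, mul_sub, mul_sub, hpid, hpid, hmul _ _ hm₀k.le, hmul' _ _ hm₀k.le]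
    abel
  have hsB : s ∈ B := sub_mem (hpB _) (hpB _)
  set σ : ℝ := (ψ s).re with hσ
  have hσe : σ = (ψ (M.p k)).re - (ψ (M.p m₀)).re := by
    rw [hσ, hs, map_sub, Complex.sub_re]
  have hσ4 : 1 / 4 ≤ σ := by rw [hσe]; linarith
  have hσ0 : 0 < σ := by linarith
  have hψs : ψ s = (σ : ℂ) := BC.apply_real ψ hssa
  have hσ1 : σ ≤ 1 := by
    have h1 := norm_apply_le ψ h.one s
    have h2 : ‖s‖ ≤ 1 := BC.norm_proj_le hssa hsid
    rw [hψs, Complex.norm_real, Real.norm_of_nonneg hσ0.le] at h1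
    linarith
  set d : 𝔹 := (((√σ)⁻¹ : ℝ) : ℂ) • s with hd
  have hdB : d ∈ B := B.smul_mem hsB _
  have hdsa : star d = d := by
    rw [hd, star_smul, hssa]
    congr 1
    simp
  have hdd : ∀ z : 𝔹, ψ (star d * z * d) = ((σ⁻¹ : ℝ) : ℂ) * ψ (s * z * s) := by
    intro z
    rw [hdsa, hd]
    simp only [smul_mul_assoc, mul_smul_comm, smul_smul, map_smul, smul_eq_mul]
    congr 1
    rw [← Complex.ofReal_mul, ← mul_inv, Real.mul_self_sqrt hσ0.le]
  have hd1 : ψ (star d * d) = 1 := by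
    have := hdd 1
    rw [mul_one, mul_one, hsid, hψs, ← Complex.ofReal_mul, inv_mul_cancel₀ hσ0.ne'] at this
    rw [this]; simp
  obtain ⟨a', ha', hsa'⟩ : ∃ a' : ℕ → 𝔹, Exc B (conj ψ d) a' ∧ ∀ j, s * a' j = a' j := by
    refine ⟨_, h.conj hdB hd1, fun j => ?_⟩
    have hsd : s * d = d := by rw [hd, mul_smul_comm, hsid]
    simp only [mul_smul_comm, ← mul_assoc, hsd]
  set ρ := conj ψ d with hρdef
  have hρ : ρ 1 = 1 := by
    rw [hρdef, conj_apply, mul_one, hd1]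
  have hρP : sn ρ (M.P x₂) = 0 := by
    rw [hρdef, sn_conj]
    have := M.sn_mul_P_mul hx₂ hBU hbase h hdB 1
    rwa [one_mul] at this
  -- choice of `c`
  set η : ℝ := min (1 / 4) (ε / 128) with hη
  have hη0 : 0 < η := by positivity
  obtain ⟨j₁, hj1, hj2⟩ : ∃ j, 1 - (ρ (a' j)).re ≤ η ∧
      ∀ b ∈ F, ‖a' j * b * a' j - ρ b • (a' j * a' j)‖ ≤ ε / 4 := by
    have h1 : ∀ᶠ j in atTop, 1 - (ρ (a' j)).re < η := by
      have h2 : Tendsto (fun j => 1 - (ρ (a' j)).re) atTop (𝓝 (1 - (1 : ℂ).re)) :=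
        (Complex.continuous_re.continuousAt.tendsto.comp ha'.tend).const_sub 1
      rw [Complex.one_re, sub_self] at h2
      exact h2.eventually_lt_const hη0
    have h3 : ∀ᶠ j in atTop, ∀ b ∈ F, ‖a' j * b * a' j - ρ b • (a' j * a' j)‖ < ε / 4 := by
      rw [Filter.eventually_all_finset]
      intro b hb
      exact (ha'.exc b (hF b hb)).eventually_lt_const (by positivity)
    obtain ⟨j, hj, hj'⟩ := (h1.and h3).exists
    exact ⟨j, hj.le, fun b hb => (hj' b hb).le⟩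
  set c := a' j₁ with hc
  have hcsa : star c = c := (IsSelfAdjoint.of_nonneg (ha'.nonneg j₁)).star_eq
  obtain ⟨A, hAB, g, hAsa, hA0, hAle, hgsa, hg2, hcgA, hcut⟩ :=
    BC.exists_cut (ha'.nonneg j₁) (ha'.le_one j₁) hB (ha'.mem j₁)
  have hA1 : ‖A‖ ≤ 1 := (CStarAlgebra.norm_le_one_iff_of_nonneg A).2 hAle
  have hρA : 1 - (ρ A).re ≤ 2 * η := by
    have h1 := BC.re_mono ρ hcut
    rw [← Complex.coe_smul, map_smul, smul_eq_mul, map_sub, map_sub, hρ, Complex.re_ofReal_mul,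
      Complex.sub_re, Complex.sub_re, Complex.one_re] at h1
    linarith
  have hAne : A ≠ 0 := by
    intro h0
    rw [h0, map_zero, Complex.zero_re] at hρA
    have : η ≤ 1 / 4 := min_le_left _ _
    linarith
  set c₁ : ℝ := (M.τ (A * A)).re with hc₁
  have hAAsa : star (A * A) = A * A := by rw [star_mul, hAsa]
  have hτA : M.τ (A * A) = (c₁ : ℂ) := BC.apply_real M.τ hAAsa
  have hc₁0 : 0 < c₁ := by
    have h1 : 0 ≤ c₁ := by
      have := BC.re_nonneg M.τ (star_mul_self_nonneg A)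
      rwa [hAsa] at this
    refine lt_of_le_of_ne h1 (fun h2 => hAne ?_)
    refine M.τ_faithful A (hBuniv hAB) ?_
    rw [hAsa, hτA, ← h2, Complex.ofReal_zero]
  have hc₁1 : c₁ ≤ 1 := by
    have h1 := norm_apply_le M.τ M.τ_one (A * A)
    rw [hτA, Complex.norm_real, Real.norm_of_nonneg hc₁0.le] at h1
    exact h1.trans ((norm_mul_le _ _).trans (mul_le_one₀ hA1 (norm_nonneg _) hA1))
  -- choice of `K` and `m`
  set θ : ℝ := √ε / 8 with hθ
  have hθ0 : 0 < θ := by positivity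
  set K : ℝ := θ⁻¹ with hK
  have hK0 : 0 < K := by positivity
  obtain ⟨m, hmm₀, hmsm⟩ : ∃ m, m₀ ≤ m ∧ (4 + 2 * K) * √((1 / 2 : ℝ) ^ m) ≤ c₁ / 4 := by
    have h1 : Tendsto (fun m : ℕ => (4 + 2 * K) * √((1 / 2 : ℝ) ^ m)) atTop
        (𝓝 ((4 + 2 * K) * √0)) := by
      refine Tendsto.const_mul _ ?_
      exact (Real.continuous_sqrt.tendsto 0).comp
        (tendsto_pow_atTop_nhds_zero_of_lt_one (by norm_num) (by norm_num))
    rw [Real.sqrt_zero, mul_zero] at h1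
    have h2 := h1.eventually_lt_const (show (0 : ℝ) < c₁ / 4 by positivity)
    obtain ⟨n, hn1, hn2⟩ := (h2.and (eventually_ge_atTop m₀)).exists
    exact ⟨n, hn2, hn1.le⟩
  -- choice of `b`
  obtain ⟨j₂, hj3, hj4, hj5⟩ : ∃ j, 1 - (ρ (a' j)).re ≤ η ∧ 4 * K * sn M.τ (a' j) ≤ c₁ / 4 ∧
      sn M.τ (a' j) * ((√((1 / 2 : ℝ) ^ m))⁻¹ + 1) ≤ θ := by
    have h1 : ∀ᶠ j in atTop, 1 - (ρ (a' j)).re < η := by
      have h2 : Tendsto (fun j => 1 - (ρ (a' j)).re) atTop (𝓝 (1 - (1 : ℂ).re)) :=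
        (Complex.continuous_re.continuousAt.tendsto.comp ha'.tend).const_sub 1
      rw [Complex.one_re, sub_self] at h2
      exact h2.eventually_lt_const hη0
    have h2 := M.diffuse hBuniv hbase ha'
    have h3 := h2.const_mul (4 * K)
    rw [mul_zero] at h3
    have h4 := h2.mul_const ((√((1 / 2 : ℝ) ^ m))⁻¹ + 1)
    rw [zero_mul] at h4
    obtain ⟨j, ⟨h5, h6⟩, h7⟩ := ((h1.and (h3.eventually_lt_const
      (show (0 : ℝ) < c₁ / 4 by positivity))).and (h4.eventually_lt_const hθ0)).exists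
    exact ⟨j, h5.le, h6.le, h7.le⟩
  set S := cs ((B : Set 𝔹) ∪ {M.G x₁, M.G x₂}) with hS
  have hBS : B ≤ S := fun z hz => subset_cs _ (Or.inl hz)
  have hG₁ : M.G x₁ ∈ S := subset_cs _ (Or.inr (Or.inl rfl))
  have hG₂ : M.G x₂ ∈ S := subset_cs _ (Or.inr (Or.inr rfl))
  obtain ⟨v, hvS, hvv, hzv, hest⟩ := BC.basic_final M hx₁ hx₂ hne hBU (cs_isClosed _) hBS hG₁ hG₂
    (hpB m) hAB (ha'.mem j₂) hAsa hA1 (ha'.norm_le_one j₂) hc₁0 hc₁1 hτA hK0
    (by linarith) hρ hρP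
  have hsA : s * A = A := by
    rw [← hcgA, ← mul_assoc, ← mul_assoc, hsa' j₁]
  have hsv : s * v = v := hzv s hsA
  have hcgv : c * g * v = v := hzv (c * g) hcgA
  have hvn : ‖v‖ ≤ 1 := by
    have h1 : ‖v‖ * ‖v‖ ≤ 1 := by
      rw [← CStarRing.norm_star_mul_self, hvv]
      exact BC.norm_proj_le (hpsa m) (hpid m)
    nlinarith [norm_nonneg v]
  refine ⟨m, lt_of_lt_of_le hm₀k hmm₀, v, hvS, hvv, ?_, ?_, ?_⟩
  · -- `(p k - p m) v = v`
    have h1 : (M.p k - M.p m) * s = s := by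
      rw [hs, sub_mul, mul_sub, mul_sub, hpid, hmul _ _ hm₀k.le, hmul' _ _ (hm₀k.le.trans hmm₀),
        hmul' _ _ hmm₀]
      abel
    calc (M.p k - M.p m) * v = (M.p k - M.p m) * (s * v) := by rw [hsv]
      _ = (M.p k - M.p m) * s * v := by rw [mul_assoc]
      _ = v := by rw [h1, hsv]
  · -- the estimate
    have hN : sn ρ (1 - v * star v) ≤ √ε / 2 := by
      refine hest.trans ?_
      have n1 : sn ρ (1 - A) ≤ √ε / 8 := by
        have h1 := sn_one_sub_sq_le ρ hρ hA0 hAle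
        have h2 : η ≤ ε / 128 := min_le_right _ _
        refine abs_le_of_sq_le_sq' ?_ (by positivity) |>.2
        rw [div_pow, Real.sq_sqrt hε.le]
        linarith
      have n2 : sn ρ (1 - a' j₂) ≤ √ε / 8 := by
        have h1 := sn_one_sub_sq_le ρ hρ (ha'.nonneg j₂) (ha'.le_one j₂)
        have h2 : η ≤ ε / 128 := min_le_right _ _
        refine abs_le_of_sq_le_sq' ?_ (by positivity) |>.2
        rw [div_pow, Real.sq_sqrt hε.le]
        linarith
      have n3 : K⁻¹ = √ε / 8 := by rw [hK, inv_inv]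
      rw [n3]
      linarith
    have hvsv : star v * s = star v := by
      have := congrArg star hsv
      rwa [star_mul, hssa] at this
    have hEproj : star (1 - v * star v) * (1 - v * star v) = 1 - v * star v := by
      have hpv : v * M.p m = v := by
        have h3 : star (v * (1 - M.p m)) * (v * (1 - M.p m)) = 0 := by
          rw [star_mul, star_sub, star_one, hpsa]
          calc (1 - M.p m) * star v * (v * (1 - M.p m))
              = (1 - M.p m) * (star v * v) * (1 - M.p m) := by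
                simp only [mul_assoc]
            _ = 0 := by rw [hvv, sub_mul, one_mul, hpid, sub_self, zero_mul]
        have h4 := CStarRing.star_mul_self_eq_zero_iff _ |>.mp h3
        rw [mul_sub, mul_one, sub_eq_zero] at h4
        exact h4.symm
      have hq : v * star v * (v * star v) = v * star v := by
        calc v * star v * (v * star v) = v * (star v * v) * star v := by simp only [mul_assoc]
          _ = v * star v := by rw [hvv, hpv]
      rw [star_sub, star_one, star_mul, star_star, sub_mul, one_mul, mul_sub, mul_one, hq]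
      abel
    have h1 : (sn ρ (1 - v * star v)) ^ 2 = 1 - σ⁻¹ * (ψ (v * star v)).re := by
      rw [sn_sq, hEproj, map_sub, hρ, Complex.sub_re, Complex.one_re, hρdef, conj_apply, hdd,
        Complex.re_ofReal_mul]
      congr 4
      calc s * (v * star v) * s = (s * v) * (star v * s) := by simp only [mul_assoc]
        _ = v * star v := by rw [hsv, hvsv]
    have h2 : (sn ρ (1 - v * star v)) ^ 2 ≤ ε / 4 := by
      have := pow_le_pow_left₀ (sn_nonneg _ _) hN 2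
      rw [div_pow, Real.sq_sqrt hε.le] at this
      linarith
    rw [h1] at h2
    have h3 : (ψ (v * star v)).re = σ * (σ⁻¹ * (ψ (v * star v)).re) := by
      rw [← mul_assoc, mul_inv_cancel₀ hσ0.ne', one_mul]
    rw [h3]
    have h4 : 1 - ε / 4 ≤ σ⁻¹ * (ψ (v * star v)).re := by linarith
    have h5 : σ * (1 - ε / 4) ≤ σ * (σ⁻¹ * (ψ (v * star v)).re) :=
      mul_le_mul_of_nonneg_left h4 hσ0.le
    refine le_trans ?_ h5
    have h6 : σ * (ε / 4) ≤ ε / 4 := by nlinarith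
    rw [mul_sub, mul_one]
    linarith
  · intro b hb
    refine ⟨ρ b, ?_⟩
    have e : star v * (b - ρ b • 1) * v = (star v * g) * (c * b * c - ρ b • (c * c)) * (g * v) := by
      have h1 : star v = star v * g * c := by
        have := congrArg star hcgv
        rw [star_mul, star_mul, hgsa, hcsa, ← mul_assoc] at this
        exact this.symm
      calc star v * (b - ρ b • 1) * v = (star v * g * c) * (b - ρ b • 1) * (c * g * v) := by
            rw [← h1, hcgv]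
        _ = (star v * g) * (c * (b - ρ b • 1) * c) * (g * v) := by simp only [mul_assoc]
        _ = _ := by
            congr 2
            rw [mul_sub, sub_mul, mul_smul_comm, mul_one, smul_mul_assoc]
    rw [e]
    calc ‖(star v * g) * (c * b * c - ρ b • (c * c)) * (g * v)‖
        ≤ (‖star v‖ * ‖g‖) * ‖c * b * c - ρ b • (c * c)‖ * (‖g‖ * ‖v‖) := by
          refine (norm_mul_le _ _).trans ?_
          gcongr
          · refine (norm_mul_le _ _).trans ?_
            gcongr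
            exact norm_mul_le _ _
          · exact norm_mul_le _ _
      _ ≤ (1 * 2) * (ε / 4) * (2 * 1) := by
          rw [norm_star]
          gcongr
          exact hj2 b hb
      _ = ε := by ring

end Crest.Agent.R120
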