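import Mathlib

/-!
# Row 120 (S0160): basic definitions

All algebras are norm closed unital star-subalgebras of an ambient unital C⋆-algebra `𝔹`
(in the end `𝔹 = H →L[ℂ] H`), all states are states of `𝔹`.
-/

set_option autoImplicit false

namespace Crest.Agent.R120

open scoped ComplexOrder
open Filter Topology

section Basic

variable {𝔹 : Type} [CStarAlgebra 𝔹]

/-- The norm closed unital star-subalgebra generated by a set. -/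
noncomputable def cs (S : Set 𝔹) : StarSubalgebra ℂ 𝔹 :=
  (StarAlgebra.adjoin ℂ S).topologicalClosure

/-- A decreasing sequence of projections. -/
structure DecProj (p : ℕ → 𝔹) : Prop where
  proj : ∀ n, IsStarProjection (p n)
  mul : ∀ n m, n ≤ m → p n * p m = p m

/-- `T` is compressed to zero by the sequence `p`. -/
def C0 (p : ℕ → 𝔹) : Set 𝔹 :=
  {T | Tendsto (fun n => ‖p n * T * p n‖) atTop (𝓝 0)}

variable [PartialOrder 𝔹] [StarOrderedRing 𝔹]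

/-- The seminorm `T ↦ ψ(T⋆T)^{1/2}` of a positive functional. -/
noncomputable def sn (ψ : 𝔹 →ₚ[ℂ] ℂ) (T : 𝔹) : ℝ := ‖ψ.toPreGNS T‖

/-- `T` is compressed to the scalar `φ T` by the sequence `p`. -/
def N0 (p : ℕ → 𝔹) (φ : 𝔹 →ₚ[ℂ] ℂ) : Set 𝔹 :=
  {T | Tendsto (fun n => ‖p n * T * p n - φ T • p n‖) atTop (𝓝 0)}

/-- `a` is a sequence of positive contractions in `B` excising the state `ψ` on `B`. -/
structure Exc (B : StarSubalgebra ℂ 𝔹) (ψ : 𝔹 →ₚ[ℂ] ℂ) (a : ℕ → 𝔹) : Prop where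
  one : ψ 1 = 1
  mem : ∀ j, a j ∈ B
  nonneg : ∀ j, 0 ≤ a j
  le_one : ∀ j, a j ≤ 1
  tend : Tendsto (fun j => ψ (a j)) atTop (𝓝 1)
  exc : ∀ b ∈ B, Tendsto (fun j => ‖a j * b * a j - ψ b • (a j * a j)‖) atTop (𝓝 0)

/-- Data of a type II extension of `B` by a unitary `y`. -/
structure TII (B : StarSubalgebra ℂ 𝔹) (p : ℕ → 𝔹) (φ : 𝔹 →ₚ[ℂ] ℂ) (y : 𝔹) : Prop where
  closed : IsClosed (B : Set 𝔹)
  dec : DecProj p
  pmem : ∀ n, p n ∈ B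
  φ_one : φ 1 = 1
  φ_p : ∀ n, φ (p n) = 1
  uni : y ∈ unitary 𝔹
  ymem : ∀ n, y * (1 - p n) ∈ B
  h0 : ∀ b ∈ B, b ∈ N0 p φ
  hb : ∀ b ∈ B, star y * b * y ∈ N0 p φ
  hc : ∀ b ∈ B, b * y ∈ C0 p

end Basic

/-- The "ping-pong" ambient structure: the properties of the concrete model
`𝔹 = B(ℓ²(Γ))`, `Γ = (∏ ℤ/2) * (*_X ℤ/2)`, that the construction uses. -/
structure PP (𝔹 : Type) [CStarAlgebra 𝔹] [PartialOrder 𝔹] [StarOrderedRing 𝔹] (X : Type) where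
  /-- the base involutions `λ(k_n)` -/
  base : Set 𝔹
  /-- the decreasing projections `∏_{i<n} (1+λ(k_i))/2` -/
  p : ℕ → 𝔹
  /-- the free involutions `λ(g_x)` -/
  G : X → 𝔹
  /-- projection on the reduced words starting with `g_x` -/
  P : X → 𝔹
  /-- operators commuting with right translations and with the projection on `ℓ²(Λ_Y)` -/
  U : Set X → StarSubalgebra ℂ 𝔹
  /-- the trace (vector state at `δ_e`) -/
  τ : 𝔹 →ₚ[ℂ] ℂ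
  /-- a state with `φ (p n) = 1` for all `n` -/
  φ : 𝔹 →ₚ[ℂ] ℂ
  U_closed : ∀ Y, IsClosed (U Y : Set 𝔹)
  U_mono : ∀ Y Z, Y ⊆ Z → U Y ≤ U Z
  base_mem : base ⊆ (U ∅ : Set 𝔹)
  G_mem : ∀ x Y, x ∈ Y → G x ∈ U Y
  G_sa : ∀ x, star (G x) = G x
  G_sq : ∀ x, G x * G x = 1
  P_proj : ∀ x, IsStarProjection (P x)
  P_ne : ∀ x, P x ≠ 0
  P_orth : ∀ x x', x ≠ x' → P x * P x' = 0
  G_eq : ∀ x, G x = P x * G x + G x * P x
  PTP_same : ∀ (Y : Set X) (x : X) (T : 𝔹), x ∉ Y → T ∈ U Y → P x * T * P x = τ T • P x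
  PTP_ne : ∀ (Y : Set X) (x x' : X) (T : 𝔹), x ∉ Y → x' ∉ Y → x ≠ x' → T ∈ U Y →
    P x * T * P x' = 0
  τ_one : τ 1 = 1
  τ_comm : ∀ S T, S ∈ U Set.univ → T ∈ U Set.univ → τ (S * T) = τ (T * S)
  τ_faithful : ∀ T, T ∈ U Set.univ → τ (star T * T) = 0 → T = 0
  base_countable : base.Countable
  p_dec : DecProj p
  p_zero : p 0 = 1
  p_mem : ∀ n, p n ∈ cs base
  τ_p : ∀ n, τ (p n) = (1 / 2 : ℂ) ^ n
  φ_one : φ 1 = 1
  φ_p : ∀ n, φ (p n) = 1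
  base_N0 : ∀ b ∈ cs base, b ∈ N0 p φ
  halving : ∀ ψ : 𝔹 →ₚ[ℂ] ℂ, ψ 1 = 1 → ∀ n : ℕ, ∃ z ∈ cs base, IsStarProjection z ∧
    ψ z ≠ 0 ∧ τ z = (1 / 2 : ℂ) ^ n
  lim : ∀ (V : ℕ → 𝔹) (k : ℕ → ℕ), StrictMono k → (∀ n, V n ∈ unitary 𝔹) →
    (∀ n, V n ∈ U Set.univ) → (∀ n, V (n + 1) * (1 - p (k n)) = V n * (1 - p (k n))) →
    ∃ y ∈ unitary 𝔹, ∀ n, y * (1 - p (k n)) = V n * (1 - p (k n))
  sc : ∀ (Y : Set X) (y : 𝔹), (∀ n, y * (1 - p n) ∈ U Y) → y ∈ U Y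

end Crest.Agent.R120
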