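import Mathlib
import Crest.Prelude.Def_CStarRep

/-! Module E of row 120: irreducible representations.  Part 1: unitality, cyclicity, trivial
commutant, unitary equivalence from equal vector states. -/

set_option autoImplicit false

namespace Crest.Agent.R120.Irr

open Crest.OpAlg

section

variable {A : Type*} [CStarAlgebra A]
variable {H : Type*} [NormedAddCommGroup H] [InnerProductSpace ℂ H] [CompleteSpace H]

/-- An irreducible representation of a unital algebra is unital. -/
theorem irr_map_one {π : A →⋆ₙₐ[ℂ] (H →L[ℂ] H)} (hπ : IsIrreducibleRep π) : π 1 = 1 := by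
  have hid : ∀ v, π 1 (π 1 v) = π 1 v := fun v => by
    have : π 1 * π 1 = π 1 := by rw [← map_mul, one_mul]
    exact congrArg (fun T : H →L[ℂ] H => T v) this
  let V : Submodule ℂ H := LinearMap.ker ((π 1 - 1 : H →L[ℂ] H) : H →ₗ[ℂ] H)
  have hVmem : ∀ v, v ∈ V ↔ π 1 v = v := fun v => by
    simp [V, LinearMap.mem_ker, sub_eq_zero]
  have hVc : IsClosed (V : Set H) := by
    have : (V : Set H) = {v | π 1 v = v} := by ext v; exact hVmem v
    rw [this]
    exact isClosed_eq (π 1).continuous continuous_id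
  have hinv : ∀ a : A, ∀ v ∈ V, π a v ∈ V := fun a v _ => by
    rw [hVmem]
    have : π 1 * π a = π a := by rw [← map_mul, one_mul]
    exact congrArg (fun T : H →L[ℂ] H => T v) this
  rcases hπ.2 V hVc hinv with h | h
  · exfalso
    apply hπ.1
    ext a v
    have h1 : π 1 (π a v) = 0 := by
      have : π 1 (π a v) ∈ V := (hVmem _).2 (hid _)
      rw [h] at this
      simpa using this
    have h2 : π 1 * π a = π a := by rw [← map_mul, one_mul]
    have h3 : π 1 (π a v) = π a v := congrArg (fun T : H →L[ℂ] H => T v) h2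
    rw [← h3, h1]; rfl
  · ext v
    have : v ∈ V := by rw [h]; trivial
    exact (hVmem v).1 this

/-- The orbit map `a ↦ π a ξ`. -/
noncomputable def orb (π : A →⋆ₙₐ[ℂ] (H →L[ℂ] H)) (ξ : H) : A →ₗ[ℂ] H where
  toFun a := π a ξ
  map_add' a b := by simp
  map_smul' c a := by simp

@[simp] theorem orb_apply (π : A →⋆ₙₐ[ℂ] (H →L[ℂ] H)) (ξ : H) (a : A) : orb π ξ a = π a ξ := rfl

/-- Every nonzero vector of an irreducible representation is cyclic. -/
theorem irr_dense {π : A →⋆ₙₐ[ℂ] (H →L[ℂ] H)} (hπ : IsIrreducibleRep π) {ξ : H} (hξ : ξ ≠ 0) :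
    DenseRange (orb π ξ) := by
  let V : Submodule ℂ H := (LinearMap.range (orb π ξ)).topologicalClosure
  have hVc : IsClosed (V : Set H) := Submodule.isClosed_topologicalClosure _
  have hinv : ∀ a : A, ∀ v ∈ V, π a v ∈ V := fun a v hv => by
    have h1 : Set.MapsTo (π a) (LinearMap.range (orb π ξ) : Set H)
        (LinearMap.range (orb π ξ) : Set H) := by
      rintro _ ⟨b, rfl⟩
      exact ⟨a * b, by simp⟩
    exact h1.closure (π a).continuous hv
  rcases hπ.2 V hVc hinv with h | h
  · exfalso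
    apply hξ
    have : ξ ∈ V := subset_closure ⟨1, by simp [irr_map_one hπ]⟩
    rw [h] at this
    simpa using this
  · intro v
    have : v ∈ V := by rw [h]; trivial
    exact this

theorem irr_nontrivial {π : A →⋆ₙₐ[ℂ] (H →L[ℂ] H)} (hπ : IsIrreducibleRep π) : Nontrivial H := by
  by_contra hn
  rw [not_nontrivial_iff_subsingleton] at hn
  exact hπ.1 (by ext a v; exact Subsingleton.elim _ _)

/-- The commutant of an irreducible representation is trivial (self-adjoint version). -/
theorem irr_commutant {π : A →⋆ₙₐ[ℂ] (H →L[ℂ] H)} (hπ : IsIrreducibleRep π) {T : H →L[ℂ] H}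
    (hT : IsSelfAdjoint T) (hc : ∀ a, Commute T (π a)) : ∃ s : ℝ, T = (s : ℂ) • (1 : H →L[ℂ] H) := by
  have := irr_nontrivial hπ
  have hne : (spectrum ℝ T).Nonempty := ContinuousFunctionalCalculus.spectrum_nonempty T hT
  obtain ⟨s, hs⟩ := hne
  refine ⟨s, ?_⟩
  have key : ∀ t ∈ spectrum ℝ T, t = s := by
    intro t ht
    by_contra hts
    let f : ℝ → ℝ := fun x => max 0 (|t - s| / 2 - |x - s|)
    let g : ℝ → ℝ := fun x => max 0 (|t - s| / 2 - |x - t|)
    have hpos : 0 < |t - s| := abs_pos.2 (sub_ne_zero.2 hts)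
    have hfc : Continuous f := by fun_prop
    have hgc : Continuous g := by fun_prop
    have hfg : ∀ x, f x * g x = 0 := by
      intro x
      by_contra hx
      obtain ⟨h1, h2⟩ := mul_ne_zero_iff.1 hx
      have h1' : |x - s| < |t - s| / 2 := by
        by_contra hh
        exact h1 (max_eq_left (by linarith [not_lt.1 hh]))
      have h2' : |x - t| < |t - s| / 2 := by
        by_contra hh
        exact h2 (max_eq_left (by linarith [not_lt.1 hh]))
      have : |t - s| ≤ |x - s| + |x - t| := by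
        have := abs_sub (x - s) (x - t)
        have e : (x - s) - (x - t) = t - s := by ring
        rw [e] at this
        exact this
      linarith
    have hmul : cfc f T * cfc g T = 0 := by
      rw [← cfc_mul f g T hfc.continuousOn hgc.continuousOn]
      have : (fun x => f x * g x) = fun _ => (0 : ℝ) := funext hfg
      rw [this]
      simp
    have hf0 : cfc f T ≠ 0 := by
      intro h0
      have : f s ∈ spectrum ℝ (cfc f T) := by
        rw [cfc_map_spectrum (R := ℝ) f T (hf := hfc.continuousOn) (ha := hT)]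
        exact ⟨s, hs, rfl⟩
      rw [h0, spectrum.zero_eq] at this
      have : f s = 0 := this
      simp only [f, sub_self, abs_zero, sub_zero] at this
      have h3 : |t - s| / 2 ≤ 0 := by rw [← this]; exact le_max_right _ _
      linarith
    have hg0 : cfc g T ≠ 0 := by
      intro h0
      have : g t ∈ spectrum ℝ (cfc g T) := by
        rw [cfc_map_spectrum (R := ℝ) g T (hf := hgc.continuousOn) (ha := hT)]
        exact ⟨t, ht, rfl⟩
      rw [h0, spectrum.zero_eq] at this
      have : g t = 0 := this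
      simp only [g, sub_self, abs_zero, sub_zero] at this
      have h3 : |t - s| / 2 ≤ 0 := by rw [← this]; exact le_max_right _ _
      linarith
    let V : Submodule ℂ H := LinearMap.ker ((cfc f T : H →L[ℂ] H) : H →ₗ[ℂ] H)
    have hVmem : ∀ v, v ∈ V ↔ cfc f T v = 0 := fun v => by simp [V, LinearMap.mem_ker]
    have hVc : IsClosed (V : Set H) := by
      have : (V : Set H) = {v | cfc f T v = 0} := by ext v; exact hVmem v
      rw [this]
      exact isClosed_eq (cfc f T).continuous continuous_const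
    have hinv : ∀ a : A, ∀ v ∈ V, π a v ∈ V := fun a v hv => by
      rw [hVmem] at hv ⊢
      have hcomm : Commute (cfc f T) (π a) := (hc a).cfc_real f
      have : cfc f T (π a v) = π a (cfc f T v) :=
        congrArg (fun S : H →L[ℂ] H => S v) hcomm.eq
      rw [this, hv, map_zero]
    rcases hπ.2 V hVc hinv with h | h
    · apply hg0
      ext v
      have : cfc g T v ∈ V := by
        rw [hVmem]
        exact congrArg (fun S : H →L[ℂ] H => S v) hmul
      rw [h] at this
      simpa using this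
    · apply hf0
      ext v
      have : v ∈ V := by rw [h]; trivial
      simpa using (hVmem v).1 this
  have h1 : cfc (id : ℝ → ℝ) T = cfc (fun _ : ℝ => s) T := cfc_congr (fun t ht => key t ht)
  rw [cfc_id ℝ T hT, cfc_const s T hT] at h1
  rw [h1, Algebra.algebraMap_eq_smul_one]
  ext v
  simp

end

section

variable {A : Type*} [CStarAlgebra A]
variable {H₁ : Type*} [NormedAddCommGroup H₁] [InnerProductSpace ℂ H₁] [CompleteSpace H₁]
variable {H₂ : Type*} [NormedAddCommGroup H₂] [InnerProductSpace ℂ H₂] [CompleteSpace H₂]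

/-- (E5) Two irreducible representations having nonzero vectors with the same vector functional
are unitarily equivalent. -/
theorem areUnitarilyEquivalent_of_state_eq {π₁ : A →⋆ₙₐ[ℂ] (H₁ →L[ℂ] H₁)}
    {π₂ : A →⋆ₙₐ[ℂ] (H₂ →L[ℂ] H₂)} (h₁ : IsIrreducibleRep π₁) (h₂ : IsIrreducibleRep π₂)
    {ζ₁ : H₁} {ζ₂ : H₂} (hζ₁ : ζ₁ ≠ 0) (hζ₂ : ζ₂ ≠ 0)
    (h : ∀ a, inner ℂ ζ₁ (π₁ a ζ₁) = inner ℂ ζ₂ (π₂ a ζ₂)) :
    AreUnitarilyEquivalent π₁ π₂ := by
  have hn : ∀ a, ‖orb π₂ ζ₂ a‖ = ‖orb π₁ ζ₁ a‖ := by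
    intro a
    have e1 : inner ℂ (π₁ a ζ₁) (π₁ a ζ₁) = inner ℂ ζ₁ (π₁ (star a * a) ζ₁) := by
      rw [map_mul, map_star, ContinuousLinearMap.mul_def, ContinuousLinearMap.comp_apply, ContinuousLinearMap.star_eq_adjoint,
        ContinuousLinearMap.adjoint_inner_right]
    have e2 : inner ℂ (π₂ a ζ₂) (π₂ a ζ₂) = inner ℂ ζ₂ (π₂ (star a * a) ζ₂) := by
      rw [map_mul, map_star, ContinuousLinearMap.mul_def, ContinuousLinearMap.comp_apply, ContinuousLinearMap.star_eq_adjoint,
        ContinuousLinearMap.adjoint_inner_right]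
    have e3 : inner ℂ (π₂ a ζ₂) (π₂ a ζ₂) = inner ℂ (π₁ a ζ₁) (π₁ a ζ₁) := by
      rw [e1, e2, h]
    rw [inner_self_eq_norm_sq_to_K, inner_self_eq_norm_sq_to_K] at e3
    have e4 : ‖π₂ a ζ₂‖ ^ 2 = ‖π₁ a ζ₁‖ ^ 2 := by exact_mod_cast e3
    have e5 := (sq_eq_sq₀ (norm_nonneg _) (norm_nonneg _)).1 e4
    simpa using e5
  let U : H₁ ≃ₗᵢ[ℂ] H₂ := (LinearEquiv.refl ℂ A).extendOfIsometry (orb π₁ ζ₁) (orb π₂ ζ₂)
    (irr_dense h₁ hζ₁) (irr_dense h₂ hζ₂) (fun a => by simpa using hn a)
  have hU : ∀ a, U (π₁ a ζ₁) = π₂ a ζ₂ := fun a =>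
    LinearEquiv.extendOfIsometry_eq (LinearEquiv.refl ℂ A) (orb π₁ ζ₁) (orb π₂ ζ₂)
      (irr_dense h₁ hζ₁) (irr_dense h₂ hζ₂) (fun a => by simpa using hn a) a
  refine ⟨U, fun a v => ?_⟩
  refine (irr_dense h₁ hζ₁).induction_on (p := fun v => U (π₁ a v) = π₂ a (U v)) v ?_ ?_
  · exact isClosed_eq (U.continuous.comp (π₁ a).continuous) ((π₂ a).continuous.comp U.continuous)
  · intro b
    have e1 : π₁ a (π₁ b ζ₁) = π₁ (a * b) ζ₁ := by simp
    have e2 : π₂ a (π₂ b ζ₂) = π₂ (a * b) ζ₂ := by simp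
    rw [orb_apply, e1, hU, hU, e2]

end

end Crest.Agent.R120.Irr
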