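import Mathlib
import Crest.Prelude.Def_CStarRep
import Crest.Agent.R120.E1

/-! Module E of row 120: purity of vector states of irreducible representations and the
Hahn-Banach argument (E1, E2). -/

set_option autoImplicit false

namespace Crest.Agent.R120.Irr

open Crest.OpAlg Filter Topology
open scoped ComplexOrder InnerProductSpace

section

variable {A : Type*} [CStarAlgebra A] [PartialOrder A] [StarOrderedRing A]
variable {H : Type*} [NormedAddCommGroup H] [InnerProductSpace ℂ H] [CompleteSpace H]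

/-- Cauchy-Schwarz for positive functionals. -/
theorem pos_cauchy_schwarz (f : A →ₚ[ℂ] ℂ) (a b : A) :
    ‖f (star a * b)‖ ≤ √((f (star a * a)).re) * √((f (star b * b)).re) := by
  have h := norm_inner_le_norm (𝕜 := ℂ) (f.toPreGNS a) (f.toPreGNS b)
  rw [f.preGNS_inner_def, f.preGNS_norm_def, f.preGNS_norm_def] at h
  simpa using h

omit [PartialOrder A] [StarOrderedRing A] in
theorem inner_rep_star (π : A →⋆ₙₐ[ℂ] (H →L[ℂ] H)) (a : A) (v w : H) :
    inner ℂ (π a v) w = inner ℂ v (π (star a) w) := by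
  rw [map_star, ContinuousLinearMap.star_eq_adjoint, ContinuousLinearMap.adjoint_inner_right]

/-- (E1) A positive functional dominated by a vector functional of an irreducible representation
is a multiple of it. -/
theorem irr_pure {π : A →⋆ₙₐ[ℂ] (H →L[ℂ] H)} (hπ : IsIrreducibleRep π) {ξ : H} (hξ : ξ ≠ 0)
    (f : A →ₚ[ℂ] ℂ) (h1 : ∀ a, (f (star a * a)).re ≤ ‖π a ξ‖ ^ 2) :
    ∃ s : ℝ, 0 ≤ s ∧ s ≤ 1 ∧ ∀ a, f a = s * inner ℂ ξ (π a ξ) := by
  have hsq : ∀ a, √((f (star a * a)).re) ≤ ‖π a ξ‖ := fun a =>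
    (Real.sqrt_le_sqrt (h1 a)).trans (by rw [Real.sqrt_sq (norm_nonneg _)])
  have hcs : ∀ a b, ‖f (star a * b)‖ ≤ ‖π a ξ‖ * ‖π b ξ‖ := fun a b =>
    (pos_cauchy_schwarz f a b).trans
      (mul_le_mul (hsq a) (hsq b) (Real.sqrt_nonneg _) (norm_nonneg _))
  have hd := irr_dense hπ hξ
  -- the functionals `b ↦ f (a* b)`
  let g : A → (A →ₗ[ℂ] ℂ) := fun a => (f.toLinearMap).comp (LinearMap.mulLeft ℂ (star a))
  have hg : ∀ a b, g a b = f (star a * b) := fun a b => rfl
  let G : A → (H →L[ℂ] ℂ) := fun a => (g a).extendOfNorm (orb π ξ)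
  have hG : ∀ a b, G a (π b ξ) = f (star a * b) := fun a b =>
    LinearMap.extendOfNorm_eq hd ⟨‖π a ξ‖, fun b => hcs a b⟩ b
  have hGn : ∀ a, ‖G a‖ ≤ ‖π a ξ‖ := fun a =>
    LinearMap.opNorm_extendOfNorm_le hd (norm_nonneg _) (fun b => hcs a b)
  let η : A → H := fun a => (InnerProductSpace.toDual ℂ H).symm (G a)
  have hη : ∀ a b, inner ℂ (η a) (π b ξ) = f (star a * b) := fun a b => by
    rw [← hG a b]; exact InnerProductSpace.toDual_symm_apply
  have hηn : ∀ a, ‖η a‖ ≤ ‖π a ξ‖ := fun a => by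
    simp only [η, LinearIsometryEquiv.norm_map]; exact hGn a
  have hext : ∀ v w : H, (∀ b, inner ℂ v (π b ξ) = inner ℂ w (π b ξ)) → v = w := by
    intro v w h
    refine ext_inner_right ℂ (fun z => ?_)
    refine hd.induction_on (p := fun z => inner ℂ v z = inner ℂ w z) z ?_ (fun b => h b)
    exact isClosed_eq (by fun_prop) (by fun_prop)
  let ηl : A →ₗ[ℂ] H :=
    { toFun := η
      map_add' := fun a a' => hext _ _ fun b => by
        rw [inner_add_left, hη, hη, hη, star_add, add_mul, map_add]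
      map_smul' := fun c a => hext _ _ fun b => by
        rw [RingHom.id_apply, inner_smul_left, hη, hη, star_smul, smul_mul_assoc, map_smul,
          smul_eq_mul]
        rfl }
  let T : H →L[ℂ] H := ηl.extendOfNorm (orb π ξ)
  have hT : ∀ a, T (π a ξ) = η a := fun a =>
    LinearMap.extendOfNorm_eq hd ⟨1, fun b => by rw [one_mul]; exact hηn b⟩ a
  have hTin : ∀ a b, inner ℂ (T (π a ξ)) (π b ξ) = f (star a * b) := fun a b => by
    rw [hT, hη]
  have hfstar : ∀ x, f (star x) = star (f x) := fun x => map_star f x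
  have hTsa : IsSelfAdjoint T := by
    rw [ContinuousLinearMap.isSelfAdjoint_iff_isSymmetric]
    intro v w
    refine hd.induction_on (p := fun v => inner ℂ (T v) w = inner ℂ v (T w)) v ?_ (fun a => ?_)
    · exact isClosed_eq (by fun_prop) (by fun_prop)
    · refine hd.induction_on (p := fun w => inner ℂ (T (π a ξ)) w = inner ℂ (π a ξ) (T w)) w ?_
        (fun b => ?_)
      · exact isClosed_eq (by fun_prop) (by fun_prop)
      · rw [orb_apply, hTin, ← inner_conj_symm, hTin]
        have : star a * b = star (star b * a) := by simp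
        rw [this, hfstar]
        rfl
  have hTc : ∀ c, Commute T (π c) := by
    intro c
    ext v
    refine hd.induction_on (p := fun v => (T * π c) v = (π c * T) v) v ?_ (fun a => ?_)
    · exact isClosed_eq (by fun_prop) (by fun_prop)
    · refine hext _ _ fun b => ?_
      have e1 : (T * π c) (orb π ξ a) = T (π (c * a) ξ) := by simp
      have e2 : (π c * T) (orb π ξ a) = π c (T (π a ξ)) := rfl
      rw [e1, e2, hTin, inner_rep_star]
      have e3 : π (star c) (π b ξ) = π (star c * b) ξ := by simp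
      rw [e3, hTin, star_mul, mul_assoc]
  obtain ⟨s, hs⟩ := irr_commutant hπ hTsa hTc
  have hfa : ∀ a, f a = s * inner ℂ ξ (π a ξ) := by
    intro a
    have h2 := hTin 1 a
    rw [star_one, one_mul, irr_map_one hπ] at h2
    rw [← h2, hs]
    have : ((s : ℂ) • (1 : H →L[ℂ] H)) ((1 : H →L[ℂ] H) ξ) = (s : ℂ) • ξ := by simp
    rw [this, inner_smul_left]
    simp
  have h3 := hfa 1
  have hξn : 0 < ‖ξ‖ ^ 2 := by positivity
  have hinner : inner ℂ ξ (π 1 ξ) = ((‖ξ‖ ^ 2 : ℝ) : ℂ) := by
    rw [irr_map_one hπ]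
    have : (1 : H →L[ℂ] H) ξ = ξ := rfl
    rw [this, inner_self_eq_norm_sq_to_K]
    push_cast; rfl
  rw [hinner] at h3
  have h4 : (f 1).re = s * ‖ξ‖ ^ 2 := by
    rw [h3, ← Complex.ofReal_mul, Complex.ofReal_re]
  have h5 : 0 ≤ (f 1).re := by
    have : 0 ≤ f 1 := f.map_nonneg zero_le_one
    exact (Complex.nonneg_iff.1 this).1
  have h6 : (f 1).re ≤ ‖ξ‖ ^ 2 := by
    have := h1 1
    rw [irr_map_one hπ] at this
    simpa using this
  refine ⟨s, ?_, ?_, hfa⟩
  · by_contra hneg
    rw [not_le] at hneg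
    have := mul_neg_of_neg_of_pos hneg hξn
    linarith
  · by_contra hgt
    rw [not_le] at hgt
    have := mul_lt_mul_of_pos_right hgt hξn
    linarith

end

end Crest.Agent.R120.Irr
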