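import Mathlib
import Crest.Prelude.Def_CStarRep
import Crest.Agent.R120.E2

/-! Module E of row 120: Hahn-Banach for pure functionals (E2) and excision (E3). -/

set_option autoImplicit false

namespace Crest.Agent.R120.Irr

open Crest.OpAlg Filter Topology
open scoped ComplexOrder InnerProductSpace

section

variable {A : Type*} [CStarAlgebra A] [PartialOrder A] [StarOrderedRing A]

/-- purity of a positive functional, in the form given by `irr_pure`. -/
def IsPureFun (φ : A →ₚ[ℂ] ℂ) : Prop :=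
  ∀ f : A →ₚ[ℂ] ℂ, (∀ a, 0 ≤ a → (f a).re ≤ (φ a).re) →
    ∃ s : ℝ, 0 ≤ s ∧ s ≤ 1 ∧ ∀ a, f a = s * φ a

/-- the sublinear functional `d ↦ inf {φ k | 0 ≤ k, d ≤ k}`. -/
noncomputable def domInf (φ : A →ₚ[ℂ] ℂ) (d : A) : ℝ :=
  sInf {r : ℝ | ∃ k : A, 0 ≤ k ∧ d ≤ k ∧ r = (φ k).re}

theorem domSet_nonempty (φ : A →ₚ[ℂ] ℂ) {d : A} (hd : IsSelfAdjoint d) :
    {r : ℝ | ∃ k : A, 0 ≤ k ∧ d ≤ k ∧ r = (φ k).re}.Nonempty :=
  ⟨_, (algebraMap ℝ A ‖d‖), by
    have : (0 : A) = algebraMap ℝ A 0 := by simp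
    rw [this]
    exact algebraMap_mono A (norm_nonneg d), hd.le_algebraMap_norm_self, rfl⟩

omit [StarOrderedRing A] in
theorem re_nonneg_of_pos (φ : A →ₚ[ℂ] ℂ) {k : A} (hk : 0 ≤ k) : 0 ≤ (φ k).re :=
  (Complex.nonneg_iff.1 (φ.map_nonneg hk)).1

theorem domSet_bdd (φ : A →ₚ[ℂ] ℂ) (d : A) :
    BddBelow {r : ℝ | ∃ k : A, 0 ≤ k ∧ d ≤ k ∧ r = (φ k).re} :=
  ⟨0, by rintro r ⟨k, hk, -, rfl⟩; exact re_nonneg_of_pos φ hk⟩

theorem domInf_le (φ : A →ₚ[ℂ] ℂ) {d k : A} (hk : 0 ≤ k) (hdk : d ≤ k) :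
    domInf φ d ≤ (φ k).re :=
  csInf_le (domSet_bdd φ d) ⟨k, hk, hdk, rfl⟩

theorem domInf_nonneg (φ : A →ₚ[ℂ] ℂ) (d : A) : 0 ≤ domInf φ d := by
  apply Real.sInf_nonneg
  rintro r ⟨k, hk, -, rfl⟩
  exact re_nonneg_of_pos φ hk

theorem exists_lt_of_domInf (φ : A →ₚ[ℂ] ℂ) {d : A} (hd : IsSelfAdjoint d) {ε : ℝ} (hε : 0 < ε) :
    ∃ k : A, 0 ≤ k ∧ d ≤ k ∧ (φ k).re < domInf φ d + ε := by
  obtain ⟨r, ⟨k, hk, hdk, rfl⟩, hr⟩ := exists_lt_of_csInf_lt (domSet_nonempty φ hd)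
    (show domInf φ d < domInf φ d + ε by linarith)
  exact ⟨k, hk, hdk, hr⟩

theorem domInf_add (φ : A →ₚ[ℂ] ℂ) {x y : A} (hx : IsSelfAdjoint x) (hy : IsSelfAdjoint y) :
    domInf φ (x + y) ≤ domInf φ x + domInf φ y := by
  refine le_of_forall_pos_le_add fun ε hε => ?_
  obtain ⟨k, hk, hxk, h1⟩ := exists_lt_of_domInf φ hx (half_pos hε)
  obtain ⟨l, hl, hyl, h2⟩ := exists_lt_of_domInf φ hy (half_pos hε)
  have := domInf_le φ (d := x + y) (k := k + l) (add_nonneg hk hl) (add_le_add hxk hyl)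
  rw [map_add, Complex.add_re] at this
  linarith

theorem domInf_smul_le (φ : A →ₚ[ℂ] ℂ) {x : A} (hx : IsSelfAdjoint x) {c : ℝ} (hc : 0 < c) :
    domInf φ (c • x) ≤ c * domInf φ x := by
  refine le_of_forall_pos_le_add fun ε hε => ?_
  obtain ⟨k, hk, hxk, h1⟩ := exists_lt_of_domInf φ hx (div_pos hε hc)
  have := domInf_le φ (d := c • x) (k := c • k) (smul_nonneg hc.le hk)
    (smul_le_smul_of_nonneg_left hxk hc.le)
  have e : φ (c • k) = c • φ k := φ.map_smul_of_tower c k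
  rw [e, Complex.smul_re, smul_eq_mul] at this
  have h2 : c * (φ k).re < c * (domInf φ x + ε / c) := mul_lt_mul_of_pos_left h1 hc
  have h3 : c * (domInf φ x + ε / c) = c * domInf φ x + ε := by field_simp
  linarith

theorem domInf_smul (φ : A →ₚ[ℂ] ℂ) {x : A} (hx : IsSelfAdjoint x) {c : ℝ} (hc : 0 < c) :
    domInf φ (c • x) = c * domInf φ x := by
  refine le_antisymm (domInf_smul_le φ hx hc) ?_
  have h := domInf_smul_le φ (x := c • x) ((IsSelfAdjoint.all c).smul hx) (inv_pos.2 hc)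
  rw [smul_smul, inv_mul_cancel₀ hc.ne', one_smul] at h
  have := mul_le_mul_of_nonneg_left h hc.le
  rwa [← mul_assoc, mul_inv_cancel₀ hc.ne', one_mul] at this

/-- (E2) -/
theorem pure_dom {φ : A →ₚ[ℂ] ℂ} (hφ : IsPureFun φ) {d : A} (hd : IsSelfAdjoint d) {ε : ℝ}
    (hε : 0 < ε) : ∃ k : A, 0 ≤ k ∧ d ≤ k ∧ (φ k).re < max 0 (φ d).re + ε := by
  rcases eq_or_ne d 0 with rfl | hd0
  · refine ⟨0, le_rfl, le_rfl, by simp [hε]⟩
  suffices h : domInf φ d ≤ max 0 (φ d).re by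
    obtain ⟨k, hk, hdk, h1⟩ := exists_lt_of_domInf φ hd hε
    exact ⟨k, hk, hdk, by linarith⟩
  let d' : selfAdjoint A := ⟨d, hd⟩
  have hd0' : d' ≠ 0 := fun h => hd0 (congrArg Subtype.val h)
  let f₀ : selfAdjoint A →ₗ.[ℝ] ℝ := LinearPMap.mkSpanSingleton d' (domInf φ d) hd0'
  obtain ⟨g, hg1, hg2⟩ := exists_extension_of_le_sublinear f₀ (fun x => domInf φ (x : A))
    (fun c hc x => by
      rw [selfAdjoint.val_smul]
      exact domInf_smul φ x.2 hc)
    (fun x y => by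
      rw [AddSubgroup.coe_add]
      exact domInf_add φ x.2 y.2)
    (by
      rintro ⟨x, hx⟩
      obtain ⟨t, rfl⟩ := Submodule.mem_span_singleton.1 hx
      have e : f₀ ⟨t • d', hx⟩ = t • domInf φ d :=
        LinearPMap.mkSpanSingleton'_apply (σ := RingHom.id ℝ) _ _ _ _ _
      rw [e]
      show t • domInf φ d ≤ domInf φ ((t • d' : selfAdjoint A) : A)
      rw [selfAdjoint.val_smul]
      rcases lt_or_ge 0 t with ht | ht
      · exact (domInf_smul φ hd ht).ge
      · exact (mul_nonpos_of_nonpos_of_nonneg ht (domInf_nonneg φ d)).trans (domInf_nonneg φ _))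
  have hgd : g d' = domInf φ d := by
    have hmem : d' ∈ Submodule.span ℝ {d'} := Submodule.mem_span_singleton_self d'
    have h := hg1 ⟨d', hmem⟩
    have h' : f₀ ⟨d', hmem⟩ = domInf φ d :=
      LinearPMap.mkSpanSingleton'_apply_self _ _ _ _
    rw [← h', ← h]
  have hgpos : ∀ x : selfAdjoint A, 0 ≤ (x : A) → 0 ≤ g x := by
    intro x hx
    have h := hg2 (-x)
    have h2 : domInf φ ((-x : selfAdjoint A) : A) ≤ (φ 0).re := domInf_le φ le_rfl (by
      rw [AddSubgroup.coe_neg]; simpa using hx)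
    rw [map_neg] at h
    simp only [map_zero, Complex.zero_re] at h2
    have h3 := h.trans h2
    linarith
  have hgle : ∀ x : selfAdjoint A, 0 ≤ (x : A) → g x ≤ (φ (x : A)).re := fun x hx =>
    (hg2 x).trans (domInf_le φ hx le_rfl)
  -- complexification
  let F₀ : A →ₗ[ℂ] ℂ :=
    { toFun := fun a => (g (realPart a) : ℂ) + Complex.I * (g (imaginaryPart a) : ℂ)
      map_add' := fun a b => by
        simp only [map_add, Complex.ofReal_add]; ring
      map_smul' := fun c a => by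
        have h1 : realPart (c • a) = c.re • realPart a - c.im • imaginaryPart a :=
          realPart_smul c a
        have h2 : imaginaryPart (c • a) = c.re • imaginaryPart a + c.im • realPart a :=
          imaginaryPart_smul c a
        rw [h1, h2]
        simp only [map_sub, map_add, map_smul, smul_eq_mul, RingHom.id_apply]
        apply Complex.ext
        · simp
        · simp }
  have hF₀ : ∀ x : selfAdjoint A, F₀ (x : A) = (g x : ℂ) := by
    intro x
    show (g (realPart (x : A)) : ℂ) + Complex.I * (g (imaginaryPart (x : A)) : ℂ) = _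
    have h1 : realPart (x : A) = x := by
      apply Subtype.ext
      exact IsSelfAdjoint.coe_realPart x.2
    have h2 : imaginaryPart (x : A) = 0 := IsSelfAdjoint.imaginaryPart x.2
    rw [h1, h2]; simp
  let F : A →ₚ[ℂ] ℂ := PositiveLinearMap.mk₀ F₀ (fun x hx => by
    have h := hF₀ ⟨x, IsSelfAdjoint.of_nonneg hx⟩
    rw [show ((⟨x, IsSelfAdjoint.of_nonneg hx⟩ : selfAdjoint A) : A) = x from rfl] at h
    rw [h]
    exact_mod_cast hgpos ⟨x, _⟩ hx)
  have hF : ∀ x : selfAdjoint A, F (x : A) = (g x : ℂ) := hF₀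
  obtain ⟨s, hs0, hs1, hs⟩ := hφ F (fun a ha => by
    have h := hF ⟨a, IsSelfAdjoint.of_nonneg ha⟩
    rw [show ((⟨a, IsSelfAdjoint.of_nonneg ha⟩ : selfAdjoint A) : A) = a from rfl] at h
    rw [h, Complex.ofReal_re]
    exact hgle ⟨a, _⟩ ha)
  have h4 : domInf φ d = s * (φ d).re := by
    have h := hs d
    have h' := hF d'
    rw [show (d' : A) = d from rfl] at h'
    rw [h', hgd] at h
    have := congrArg Complex.re h
    simpa using this
  rw [h4]
  rcases le_or_gt 0 (φ d).re with h | h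
  · calc s * (φ d).re ≤ 1 * (φ d).re := mul_le_mul_of_nonneg_right hs1 h
      _ ≤ _ := by rw [one_mul]; exact le_max_right _ _
  · calc s * (φ d).re ≤ 0 := mul_nonpos_of_nonneg_of_nonpos hs0 h.le
      _ ≤ _ := le_max_left _ _

end

end Crest.Agent.R120.Irr
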