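import Mathlib
import Crest.Prelude.Def_CStarRep
import Crest.Agent.R120.E3

/-! Module E of row 120: excision for pure functionals (E3). -/

set_option autoImplicit false

namespace Crest.Agent.R120.Irr

open Crest.OpAlg Filter Topology
open scoped ComplexOrder InnerProductSpace

section

variable {A : Type*} [CStarAlgebra A] [PartialOrder A] [StarOrderedRing A]

/-- consequence of (E2): lower bounds of finitely many elements with large value. -/
theorem pure_lower_bound {φ : A →ₚ[ℂ] ℂ} (hφ : IsPureFun φ) {m : ℝ} (c₀ : A)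
    (hc₀ : IsSelfAdjoint c₀) (hm₀ : m ≤ (φ c₀).re) (S : Finset A) :
    (∀ c ∈ S, IsSelfAdjoint c ∧ m ≤ (φ c).re) → ∀ δ : ℝ, 0 < δ →
      ∃ h : A, IsSelfAdjoint h ∧ h ≤ c₀ ∧ (∀ c ∈ S, h ≤ c) ∧ m - δ ≤ (φ h).re := by
  classical
  induction S using Finset.induction_on with
  | empty =>
    intro _ δ hδ
    exact ⟨c₀, hc₀, le_rfl, by simp, by linarith⟩
  | insert c S hcS ih =>
    intro hS δ hδ
    obtain ⟨h', hsa, h0, hle, hval⟩ := ih (fun c' hc' => hS c' (Finset.mem_insert_of_mem hc'))
      (δ / 2) (half_pos hδ)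
    obtain ⟨hcsa, hcm⟩ := hS c (Finset.mem_insert_self c S)
    obtain ⟨k, hk, hdk, hkv⟩ := pure_dom hφ (d := h' - c) (hsa.sub hcsa) (half_pos hδ)
    refine ⟨h' - k, hsa.sub (IsSelfAdjoint.of_nonneg hk), ?_, ?_, ?_⟩
    · exact (sub_le_self h' hk).trans h0
    · intro c' hc'
      rcases Finset.mem_insert.1 hc' with rfl | hc'
      · have : h' ≤ k + c' := sub_le_iff_le_add.1 hdk
        exact sub_le_iff_le_add'.2 this
      · exact (sub_le_self h' hk).trans (hle c' hc')
    · rw [map_sub, Complex.sub_re]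
      rw [map_sub, Complex.sub_re] at hkv
      rcases le_total 0 ((φ h').re - (φ c).re) with h | h
      · rw [max_eq_right h] at hkv; linarith
      · rw [max_eq_left h] at hkv; linarith

theorem norm_le_of_le_of_neg_le {y : A} (hy : IsSelfAdjoint y) {ε : ℝ} (hε : 0 ≤ ε)
    (h1 : y ≤ algebraMap ℝ A ε) (h2 : -y ≤ algebraMap ℝ A ε) : ‖y‖ ≤ ε := by
  have s1 := (le_algebraMap_iff_spectrum_le (R := ℝ) (r := ε) (a := y) hy).1 h1
  have h2' : algebraMap ℝ A (-ε) ≤ y := by
    rw [map_neg]; exact neg_le.1 h2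
  have s2 := (algebraMap_le_iff_le_spectrum (R := ℝ) (r := -ε) (a := y) hy).1 h2'
  rcases subsingleton_or_nontrivial A with hA | hA
  · obtain rfl : y = 0 := Subsingleton.elim _ _
    simpa using hε
  · rcases CStarAlgebra.norm_or_neg_norm_mem_spectrum (a := y) hy with h | h
    · exact s1 _ h
    · have := s2 _ h
      linarith

/-- the estimate behind (E3) -/
theorem norm_cfc_conj_le {h x : A} (hh : IsSelfAdjoint h) (h1 : h ≤ 1) {ε : ℝ} (hε : 0 < ε)
    (hx : IsSelfAdjoint x) (hx1 : x ≤ ε • (1 - h)) (hx2 : -x ≤ ε • (1 - h)) :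
    ‖cfc (fun t : ℝ => max t 0) h * x * cfc (fun t : ℝ => max t 0) h‖ ≤ ε := by
  set a := cfc (fun t : ℝ => max t 0) h with ha
  have hspec : ∀ t ∈ spectrum ℝ h, t ≤ 1 := by
    have := (le_algebraMap_iff_spectrum_le (R := ℝ) (r := 1) (a := h) hh).1 (by simpa using h1)
    exact this
  have hasa : IsSelfAdjoint a := cfc_predicate _ _
  have hk : a * (1 - h) * a ≤ 1 := by
    have e : a * (1 - h) * a = cfc (fun t : ℝ => max t 0 * (1 - t) * max t 0) h := by
      rw [cfc_mul (fun t : ℝ => max t 0 * (1 - t)) (fun t : ℝ => max t 0) h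
        (by fun_prop) (by fun_prop),
        cfc_mul (fun t : ℝ => max t 0) (fun t : ℝ => 1 - t) h (by fun_prop) (by fun_prop),
        cfc_sub (fun _ : ℝ => (1 : ℝ)) (fun t : ℝ => t) h (by fun_prop) (by fun_prop)]
      rw [cfc_const_one ℝ h hh, cfc_id' ℝ h hh]
    rw [e]
    refine cfc_le_one _ _ (fun t ht => ?_)
    have ht1 := hspec t ht
    rcases le_total t 0 with h0 | h0
    · simp [max_eq_right h0]
    · rw [max_eq_left h0]
      nlinarith [mul_nonneg h0 (sub_nonneg.2 ht1), mul_nonneg h0 h0]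
  have hbound : ∀ y : A, y ≤ ε • (1 - h) → a * y * a ≤ algebraMap ℝ A ε := by
    intro y hy
    have e1 : a * y * a ≤ a * (ε • (1 - h)) * a := by
      have := star_left_conjugate_le_conjugate hy a
      rwa [hasa.star_eq] at this
    have e2 : a * (ε • (1 - h)) * a = ε • (a * (1 - h) * a) := by
      rw [mul_smul_comm, smul_mul_assoc]
    rw [e2] at e1
    refine e1.trans ?_
    rw [Algebra.algebraMap_eq_smul_one]
    exact smul_le_smul_of_nonneg_left hk hε.le
  have hsa : IsSelfAdjoint (a * x * a) := by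
    have := hx.conjugate' a
    rwa [hasa.star_eq] at this
  have hb1 := hbound x hx1
  have hb2 : -(a * x * a) ≤ algebraMap ℝ A ε := by
    have := hbound (-x) hx2
    simpa using this
  exact norm_le_of_le_of_neg_le hsa hε.le hb1 hb2

/-- (E3) excision of pure functionals -/
theorem pure_excision {φ : A →ₚ[ℂ] ℂ} (hφ : IsPureFun φ) (hφ1 : φ 1 = 1) (F : Finset A) {ε : ℝ}
    (hε : 0 < ε) :
    ∃ a : A, 0 ≤ a ∧ a ≤ 1 ∧ 1 - ε ≤ (φ a).re ∧ ∀ b ∈ F, ‖a * (b - φ b • (1 : A)) * a‖ ≤ ε := by
  classical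
  -- the self-adjoint elements with value zero
  let r : A → A := fun b => (realPart b : A) - ((φ (realPart b : A)).re : ℝ) • (1 : A)
  let i : A → A := fun b => (imaginaryPart b : A) - ((φ (imaginaryPart b : A)).re : ℝ) • (1 : A)
  have hsa_re : ∀ b : A, IsSelfAdjoint (realPart b : A) := fun b => (realPart b).2
  have hsa_im : ∀ b : A, IsSelfAdjoint (imaginaryPart b : A) := fun b => (imaginaryPart b).2
  have hone : IsSelfAdjoint (1 : A) := IsSelfAdjoint.one A
  have hr : ∀ b, IsSelfAdjoint (r b) := fun b =>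
    (hsa_re b).sub ((IsSelfAdjoint.all _).smul hone)
  have hi : ∀ b, IsSelfAdjoint (i b) := fun b =>
    (hsa_im b).sub ((IsSelfAdjoint.all _).smul hone)
  have hφsa : ∀ x : A, IsSelfAdjoint x → φ x = ((φ x).re : ℂ) := by
    intro x hx
    have h1 : star (φ x) = φ x := by rw [← map_star, hx.star_eq]
    exact (Complex.conj_eq_iff_re.1 h1).symm
  have hsm : ∀ (t : ℝ), φ (t • (1 : A)) = (t : ℂ) := by
    intro t
    rw [φ.map_smul_of_tower, hφ1]; simp
  have hr0 : ∀ b, φ (r b) = 0 := fun b => by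
    simp only [r, map_sub, hsm]
    rw [← hφsa _ (hsa_re b)]; simp
  have hi0 : ∀ b, φ (i b) = 0 := fun b => by
    simp only [i, map_sub, hsm]
    rw [← hφsa _ (hsa_im b)]; simp
  let δ : ℝ := ε / 2
  have hδ : 0 < δ := half_pos hε
  let c : A → A := fun x => 1 - δ⁻¹ • x
  let S : Finset A := (F.image fun b => c (r b)) ∪ (F.image fun b => c (-(r b))) ∪
    (F.image fun b => c (i b)) ∪ (F.image fun b => c (-(i b)))
  have hc : ∀ x : A, IsSelfAdjoint x → φ x = 0 → IsSelfAdjoint (c x) ∧ (1 : ℝ) ≤ (φ (c x)).re := by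
    intro x hx hx0
    refine ⟨hone.sub ((IsSelfAdjoint.all _).smul hx), ?_⟩
    simp only [c, map_sub, hφ1, φ.map_smul_of_tower, hx0]
    simp
  have hneg : ∀ x : A, φ x = 0 → φ (-x) = 0 := fun x hx => by rw [map_neg, hx, neg_zero]
  obtain ⟨h, hsa, h1, hle, hval⟩ := pure_lower_bound hφ (m := 1) (1 : A) hone
    (by rw [hφ1]; simp) S (by
      intro x hx
      simp only [S, Finset.mem_union, Finset.mem_image] at hx
      rcases hx with ((⟨b, -, rfl⟩ | ⟨b, -, rfl⟩) | ⟨b, -, rfl⟩) | ⟨b, -, rfl⟩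
      · exact hc _ (hr b) (hr0 b)
      · exact hc _ (hr b).neg (hneg _ (hr0 b))
      · exact hc _ (hi b) (hi0 b)
      · exact hc _ (hi b).neg (hneg _ (hi0 b))) ε hε
  set a := cfc (fun t : ℝ => max t 0) h with ha
  have hkey : ∀ x : A, h ≤ c x → x ≤ δ • (1 - h) := by
    intro x hx
    have e1 : δ⁻¹ • x ≤ 1 - h := by
      have h2 : h + δ⁻¹ • x ≤ 1 := by
        have := add_le_add_left hx (δ⁻¹ • x)
        simpa [c] using this
      exact le_sub_iff_add_le'.2 h2
    have e2 := smul_le_smul_of_nonneg_left e1 hδ.le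
    rwa [smul_smul, mul_inv_cancel₀ hδ.ne', one_smul] at e2
  refine ⟨a, cfc_nonneg fun t _ => le_max_right _ _, ?_, ?_, ?_⟩
  · refine cfc_le_one _ _ fun t ht => ?_
    have := (le_algebraMap_iff_spectrum_le (R := ℝ) (r := 1) (a := h) hsa).1 (by simpa using h1) t ht
    exact max_le this zero_le_one
  · have hha : h ≤ a := by
      have h2 : cfc (fun t : ℝ => t) h ≤ a :=
        cfc_mono (fun t _ => le_max_left _ _) (by fun_prop) (by fun_prop)
      rwa [cfc_id' ℝ h hsa] at h2
    have h3 := (Complex.le_def.1 (OrderHomClass.mono φ hha)).1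
    linarith
  · intro b hb
    have hmem1 : c (r b) ∈ S := Finset.mem_union_left _ (Finset.mem_union_left _
      (Finset.mem_union_left _ (Finset.mem_image_of_mem (fun b => c (r b)) hb)))
    have hmem2 : c (-(r b)) ∈ S := Finset.mem_union_left _ (Finset.mem_union_left _
      (Finset.mem_union_right _ (Finset.mem_image_of_mem (fun b => c (-(r b))) hb)))
    have hmem3 : c (i b) ∈ S := Finset.mem_union_left _ (Finset.mem_union_right _
      (Finset.mem_image_of_mem (fun b => c (i b)) hb))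
    have hmem4 : c (-(i b)) ∈ S := Finset.mem_union_right _
      (Finset.mem_image_of_mem (fun b => c (-(i b))) hb)
    have n1 : ‖a * r b * a‖ ≤ δ := norm_cfc_conj_le hsa h1 hδ (hr b) (hkey _ (hle _ hmem1))
      (hkey _ (hle _ hmem2))
    have n2 : ‖a * i b * a‖ ≤ δ := norm_cfc_conj_le hsa h1 hδ (hi b) (hkey _ (hle _ hmem3))
      (hkey _ (hle _ hmem4))
    have hb' : b - φ b • (1 : A) = r b + Complex.I • i b := by
      have e1 : (realPart b : A) + Complex.I • (imaginaryPart b : A) = b :=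
        realPart_add_I_smul_imaginaryPart b
      have e2 : φ b = ((φ (realPart b : A)).re : ℂ) +
          Complex.I * ((φ (imaginaryPart b : A)).re : ℂ) := by
        rw [← hφsa _ (hsa_re b), ← hφsa _ (hsa_im b)]
        conv_lhs => rw [← e1]
        rw [map_add, map_smul, smul_eq_mul]
      have e3 : b - φ b • (1 : A) = ((realPart b : A) + Complex.I • (imaginaryPart b : A)) -
          (((φ (realPart b : A)).re : ℂ) + Complex.I * ((φ (imaginaryPart b : A)).re : ℂ)) •
            (1 : A) := by rw [e1, ← e2]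
      rw [e3]
      simp only [r, i]
      rw [smul_sub, add_smul, mul_smul]
      simp only [Complex.coe_smul]
      abel
    rw [hb', mul_add, add_mul, mul_smul_comm, smul_mul_assoc]
    calc ‖a * r b * a + Complex.I • (a * i b * a)‖
        ≤ ‖a * r b * a‖ + ‖Complex.I • (a * i b * a)‖ := norm_add_le _ _
      _ ≤ δ + δ := by
          rw [norm_smul, Complex.norm_I, one_mul]; exact add_le_add n1 n2
      _ = ε := by simp only [δ]; ring

end

end Crest.Agent.R120.Irr
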