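import Crest.Agent.R120.State

/-!
# Basic facts on excising sequences (blueprint section 1)
-/

set_option autoImplicit false

namespace Crest.Agent.R120

open scoped ComplexOrder
open Filter Topology

variable {𝔹 : Type} [CStarAlgebra 𝔹] [PartialOrder 𝔹] [StarOrderedRing 𝔹]
variable {B B' : StarSubalgebra ℂ 𝔹} {ψ : 𝔹 →ₚ[ℂ] ℂ} {a : ℕ → 𝔹}

/-! ### auxiliary facts on peaking sequences -/

/-- the part of `Exc` which does not refer to the subalgebra -/
structure Peak (ψ : 𝔹 →ₚ[ℂ] ℂ) (a : ℕ → 𝔹) : Prop where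
  one : ψ 1 = 1
  nonneg : ∀ j, 0 ≤ a j
  le_one : ∀ j, a j ≤ 1
  tend : Tendsto (fun j => ψ (a j)) atTop (𝓝 1)

theorem norm_le_one_of_nonneg_of_le_one {c : 𝔹} (h0 : 0 ≤ c) (h1 : c ≤ 1) : ‖c‖ ≤ 1 :=
  (CStarAlgebra.norm_le_one_iff_of_nonneg c h0).mpr h1

theorem apply_im_eq_zero (ψ : 𝔹 →ₚ[ℂ] ℂ) {x : 𝔹} (hx : IsSelfAdjoint x) : (ψ x).im = 0 := by
  have h := apply_star ψ x
  rw [hx.star_eq] at h
  have h2 := congrArg Complex.im h
  simp at h2
  linarith

theorem apply_re_nonneg (ψ : 𝔹 →ₚ[ℂ] ℂ) {x : 𝔹} (hx : 0 ≤ x) : 0 ≤ (ψ x).re :=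
  (Complex.nonneg_iff.1 (ψ.map_nonneg hx)).1

theorem apply_re_mono (ψ : 𝔹 →ₚ[ℂ] ℂ) {x y : 𝔹} (hxy : x ≤ y) : (ψ x).re ≤ (ψ y).re :=
  (Complex.le_def.1 (OrderHomClass.mono ψ hxy)).1

theorem norm_apply_star_mul_self (ψ : 𝔹 →ₚ[ℂ] ℂ) (b : 𝔹) : ‖ψ (star b * b)‖ = sn ψ b ^ 2 := by
  have h0 : 0 ≤ ψ (star b * b) := ψ.map_nonneg (star_mul_self_nonneg b)
  have h2 := congrArg Complex.re (Complex.norm_of_nonneg' h0)
  rw [sn_sq, ← h2]
  simp

theorem norm_mul_le_sn (h1 : ψ 1 = 1) (x y : 𝔹) : ‖ψ (x * y)‖ ≤ ‖x‖ * sn ψ y :=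
  (norm_apply_le_sn ψ h1 _).trans (sn_mul_le ψ x y)

theorem norm_mul_le_sn_star (h1 : ψ 1 = 1) (x y : 𝔹) : ‖ψ (x * y)‖ ≤ sn ψ (star x) * ‖y‖ := by
  have := norm_star_mul_le ψ (star x) y
  rw [star_star] at this
  exact this.trans (by gcongr; exact sn_nonneg _ _; exact sn_le_norm ψ h1 y)

namespace Peak

theorem norm_le_one (h : Peak ψ a) (j : ℕ) : ‖a j‖ ≤ 1 :=
  norm_le_one_of_nonneg_of_le_one (h.nonneg j) (h.le_one j)

theorem star_eq (h : Peak ψ a) (j : ℕ) : star (a j) = a j :=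
  (IsSelfAdjoint.of_nonneg (h.nonneg j)).star_eq

theorem norm_mul_self_le (h : Peak ψ a) (j : ℕ) : ‖a j * a j‖ ≤ 1 :=
  (norm_mul_le _ _).trans (by nlinarith [norm_nonneg (a j), h.norm_le_one j])

theorem sn_one_sub (h : Peak ψ a) : Tendsto (fun j => sn ψ (1 - a j)) atTop (𝓝 0) := by
  have h1 : Tendsto (fun j => sn ψ (1 - a j) ^ 2) atTop (𝓝 0) := by
    have h2 : Tendsto (fun j => 1 - (ψ (a j)).re) atTop (𝓝 0) := by
      have := (Complex.continuous_re.tendsto _).comp h.tend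
      simpa using this.const_sub 1
    exact squeeze_zero (fun j => sq_nonneg _)
      (fun j => sn_one_sub_sq_le ψ h.one (h.nonneg j) (h.le_one j)) h2
  have h2 := (Real.continuous_sqrt.tendsto _).comp h1
  simpa [Function.comp_def, Real.sqrt_sq (sn_nonneg _ _)] using h2

/-- uniform (in bounded `X`) approximation `ψ X ≈ ψ (a X a)` -/
theorem norm_sub_le (h : Peak ψ a) (X : 𝔹) (j : ℕ) :
    ‖ψ X - ψ (a j * X * a j)‖ ≤ 2 * ‖X‖ * sn ψ (1 - a j) := by
  have e : X - a j * X * a j = (1 - a j) * X + a j * X * (1 - a j) := by noncomm_ring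
  rw [← map_sub, e, map_add]
  have h1 : ‖ψ ((1 - a j) * X)‖ ≤ sn ψ (1 - a j) * ‖X‖ := by
    have := norm_mul_le_sn_star h.one (1 - a j) X
    rwa [star_sub, star_one, h.star_eq j] at this
  have h2 : ‖ψ (a j * X * (1 - a j))‖ ≤ ‖X‖ * sn ψ (1 - a j) := by
    refine (norm_mul_le_sn h.one (a j * X) (1 - a j)).trans ?_
    gcongr
    · exact sn_nonneg _ _
    · calc ‖a j * X‖ ≤ ‖a j‖ * ‖X‖ := norm_mul_le _ _
        _ ≤ 1 * ‖X‖ := by gcongr; exact h.norm_le_one j
        _ = ‖X‖ := one_mul _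
  calc _ ≤ _ := norm_add_le _ _
    _ ≤ sn ψ (1 - a j) * ‖X‖ + ‖X‖ * sn ψ (1 - a j) := add_le_add h1 h2
    _ = _ := by ring

theorem tendsto_conj (h : Peak ψ a) (X : 𝔹) :
    Tendsto (fun j => ψ (a j * X * a j)) atTop (𝓝 (ψ X)) := by
  rw [tendsto_iff_norm_sub_tendsto_zero]
  refine squeeze_zero (fun _ => norm_nonneg _) (fun j => ?_)
    (by simpa using h.sn_one_sub.const_mul (2 * ‖X‖))
  rw [norm_sub_rev]
  exact h.norm_sub_le X j

theorem norm_tendsto (h : Peak ψ a) : Tendsto (fun j => ‖a j‖) atTop (𝓝 1) := by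
  have h1 : Tendsto (fun j => ‖ψ (a j)‖) atTop (𝓝 1) := by
    simpa using h.tend.norm
  exact tendsto_of_tendsto_of_tendsto_of_le_of_le h1 tendsto_const_nhds
    (fun j => norm_apply_le ψ h.one _) (fun j => h.norm_le_one j)

theorem norm_mul_self_tendsto (h : Peak ψ a) : Tendsto (fun j => ‖a j * a j‖) atTop (𝓝 1) := by
  have h1 := h.norm_tendsto.mul h.norm_tendsto
  refine (by simpa using h1 : Tendsto (fun j => ‖a j‖ * ‖a j‖) atTop (𝓝 1)).congr (fun j => ?_)
  have := CStarRing.norm_star_mul_self (x := a j)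
  rw [h.star_eq] at this
  exact this.symm

theorem tendsto_mul_self (h : Peak ψ a) : Tendsto (fun j => ψ (a j * a j)) atTop (𝓝 1) := by
  have := h.tendsto_conj 1
  simpa [h.one] using this

theorem sn_le (h : Peak ψ a) (Z : 𝔹) (j : ℕ) :
    sn ψ Z ≤ ‖Z * a j‖ + ‖Z‖ * sn ψ (1 - a j) := by
  have e : Z = Z * a j + Z * (1 - a j) := by noncomm_ring
  calc sn ψ Z = sn ψ (Z * a j + Z * (1 - a j)) := by rw [← e]
    _ ≤ sn ψ (Z * a j) + sn ψ (Z * (1 - a j)) := sn_add_le ψ _ _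
    _ ≤ _ := add_le_add (sn_le_norm ψ h.one _) (sn_mul_le ψ _ _)

/-- if `‖Z a_j‖ ≤ r` eventually then `‖Z‖_ψ ≤ r`. -/
theorem sn_le_of_eventually (h : Peak ψ a) {Z : 𝔹} {r : ℝ} (hZ : ∀ᶠ j in atTop, ‖Z * a j‖ ≤ r) :
    sn ψ Z ≤ r := by
  have h1 : Tendsto (fun j => r + ‖Z‖ * sn ψ (1 - a j)) atTop (𝓝 (r + ‖Z‖ * 0)) :=
    (h.sn_one_sub.const_mul _).const_add _
  rw [mul_zero, add_zero] at h1
  refine ge_of_tendsto h1 ?_
  filter_upwards [hZ] with j hj
  exact (h.sn_le Z j).trans (by gcongr)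

/-- F1 -/
theorem sn_eq_zero (h : Peak ψ a) {Z : 𝔹} (hZ : Tendsto (fun j => ‖Z * a j‖) atTop (𝓝 0)) :
    sn ψ Z = 0 := by
  have h1 : Tendsto (fun j => ‖Z * a j‖ + ‖Z‖ * sn ψ (1 - a j)) atTop (𝓝 (0 + ‖Z‖ * 0)) :=
    hZ.add (h.sn_one_sub.const_mul _)
  rw [mul_zero, add_zero] at h1
  exact le_antisymm (ge_of_tendsto h1 (Eventually.of_forall (h.sn_le Z))) (sn_nonneg _ _)

/-- if `a_j x a_j` is within `ε` of `μ a_j²` eventually then `‖ψ x - μ‖ ≤ ε`. -/
theorem norm_apply_sub_le (h : Peak ψ a) {x : 𝔹} {μ : ℂ} {ε : ℝ}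
    (hx : ∀ᶠ j in atTop, ‖a j * x * a j - μ • (a j * a j)‖ ≤ ε) : ‖ψ x - μ‖ ≤ ε := by
  have h1 : Tendsto (fun j => ‖ψ (a j * x * a j) - μ * ψ (a j * a j)‖) atTop
      (𝓝 ‖ψ x - μ * 1‖) :=
    ((h.tendsto_conj x).sub (h.tendsto_mul_self.const_mul μ)).norm
  rw [mul_one] at h1
  refine le_of_tendsto h1 ?_
  filter_upwards [hx] with j hj
  have : ψ (a j * x * a j) - μ * ψ (a j * a j) = ψ (a j * x * a j - μ • (a j * a j)) := by simp
  rw [this]
  exact (norm_apply_le ψ h.one _).trans hj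

theorem exc_of_approx (hp : Peak ψ a) (hmem : ∀ j, a j ∈ B)
    (h : ∀ x ∈ B, ∀ ε > 0, ∃ μ : ℂ, ∀ᶠ j in atTop,
      ‖a j * x * a j - μ • (a j * a j)‖ ≤ ε) : Exc B ψ a := by
  refine ⟨hp.one, hmem, hp.nonneg, hp.le_one, hp.tend, fun b hb => ?_⟩
  rw [Metric.tendsto_atTop]
  intro ε hε
  obtain ⟨μ, hμ⟩ := h b hb (ε / 4) (by positivity)
  have h1 := hp.norm_apply_sub_le hμ
  obtain ⟨N, hN⟩ := eventually_atTop.mp hμ
  refine ⟨N, fun j hj => ?_⟩
  have haa := hp.norm_mul_self_le j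
  have e : a j * b * a j - ψ b • (a j * a j) =
      (a j * b * a j - μ • (a j * a j)) - (ψ b - μ) • (a j * a j) := by
    simp only [sub_smul]
    abel
  have hb3 : ‖(ψ b - μ) • (a j * a j)‖ ≤ ε / 4 := by
    rw [norm_smul]
    calc _ ≤ ε / 4 * 1 := by gcongr
      _ = _ := mul_one _
  rw [dist_zero_right, norm_norm, e]
  calc _ ≤ ‖a j * b * a j - μ • (a j * a j)‖ + ‖(ψ b - μ) • (a j * a j)‖ := _root_.norm_sub_le _ _
    _ ≤ ε / 4 + ε / 4 := by gcongr; exact hN j hj
    _ < ε := by linarith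

end Peak

theorem Exc.peak (h : Exc B ψ a) : Peak ψ a := ⟨h.one, h.nonneg, h.le_one, h.tend⟩

theorem Exc.star_eq (h : Exc B ψ a) (j : ℕ) : star (a j) = a j := h.peak.star_eq j

/-! ### the statements of the skeleton -/

theorem Exc.norm_le_one (h : Exc B ψ a) (j : ℕ) : ‖a j‖ ≤ 1 := h.peak.norm_le_one j

theorem Exc.norm_tendsto (h : Exc B ψ a) : Tendsto (fun j => ‖a j‖) atTop (𝓝 1) :=
  h.peak.norm_tendsto

theorem Exc.sn_tendsto (h : Exc B ψ a) :
    Tendsto (fun j => sn ψ (1 - a j)) atTop (𝓝 0) :=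
  h.peak.sn_one_sub

theorem Exc.norm_conj_tendsto (h : Exc B ψ a) {b : 𝔹} (hb : b ∈ B) :
    Tendsto (fun j => ‖a j * b * a j‖) atTop (𝓝 ‖ψ b‖) := by
  have h1 := h.exc b hb
  have h2 : Tendsto (fun j => ‖ψ b • (a j * a j)‖) atTop (𝓝 ‖ψ b‖) := by
    simpa [norm_smul] using h.peak.norm_mul_self_tendsto.const_mul ‖ψ b‖
  have h3 : Tendsto (fun j => ‖a j * b * a j‖ - ‖ψ b • (a j * a j)‖) atTop (𝓝 0) := by
    refine squeeze_zero_norm (fun j => ?_) h1
    exact abs_norm_sub_norm_le _ _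
  simpa using h3.add h2

/-- (F0) -/
theorem Exc.norm_mul_tendsto (h : Exc B ψ a) {b : 𝔹} (hb : b ∈ B) :
    Tendsto (fun j => ‖b * a j‖) atTop (𝓝 (sn ψ b)) := by
  have hbb : star b * b ∈ B := mul_mem (star_mem hb) hb
  have h1 := h.norm_conj_tendsto hbb
  rw [norm_apply_star_mul_self] at h1
  have h3 := (Real.continuous_sqrt.tendsto _).comp h1
  rw [Real.sqrt_sq (sn_nonneg _ _)] at h3
  refine h3.congr (fun j => ?_)
  have : a j * (star b * b) * a j = star (b * a j) * (b * a j) := by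
    rw [star_mul, h.star_eq]; simp only [mul_assoc]
  rw [Function.comp, this, CStarRing.norm_star_mul_self, Real.sqrt_mul_self (norm_nonneg _)]

/-- (F1) -/
theorem Exc.sn_eq_zero (h : Exc B ψ a) {Z : 𝔹}
    (hZ : Tendsto (fun j => ‖Z * a j‖) atTop (𝓝 0)) : sn ψ Z = 0 :=
  h.peak.sn_eq_zero hZ

/-- a bound version of (F1): if eventually `‖Z a_j‖ ≤ c` then `sn ψ Z ≤ c`. -/
theorem Exc.sn_le (h : Exc B ψ a) {Z : 𝔹} {c : ℝ}
    (hZ : ∀ᶠ j in atTop, ‖Z * a j‖ ≤ c) : sn ψ Z ≤ c :=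
  h.peak.sn_le_of_eventually hZ

/-- (F2) -/
theorem Exc.congr (h : Exc B ψ a) {ρ : 𝔹 →ₚ[ℂ] ℂ} (hρ : ∀ b ∈ B, ρ b = ψ b) : Exc B ρ a := by
  refine ⟨?_, h.mem, h.nonneg, h.le_one, ?_, fun b hb => ?_⟩
  · rw [hρ 1 (one_mem _), h.one]
  · exact h.tend.congr (fun j => (hρ _ (h.mem j)).symm)
  · rw [hρ b hb]; exact h.exc b hb

/-- (F2') uniqueness of the extension -/
theorem Exc.eq_of_tendsto (h : Exc B ψ a) {ρ : 𝔹 →ₚ[ℂ] ℂ} (h1 : ρ 1 = 1)
    (hρ : Tendsto (fun j => ρ (a j)) atTop (𝓝 1)) : ∀ b ∈ B, ρ b = ψ b := by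
  intro x hx
  have hp : Peak ρ a := ⟨h1, h.nonneg, h.le_one, hρ⟩
  have h1 : ∀ ε > 0, ‖ρ x - ψ x‖ ≤ ε := by
    intro ε hε
    refine hp.norm_apply_sub_le ?_
    filter_upwards [(h.exc x hx).eventually (gt_mem_nhds hε)] with j hj
    exact hj.le
  have h2 : ‖ρ x - ψ x‖ ≤ 0 := le_of_forall_pos_le_add (fun ε hε => by simpa using h1 ε hε)
  exact sub_eq_zero.mp (norm_le_zero_iff.mp h2)

theorem Exc.mono (h : Exc B' ψ a) (hB : B ≤ B') (ha : ∀ j, a j ∈ B) : Exc B ψ a :=
  ⟨h.one, ha, h.nonneg, h.le_one, h.tend, fun b hb => h.exc b (hB hb)⟩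

/-- (F3) criterion for extending the excision property to a larger algebra. -/
theorem Exc.of_approx (h : Exc B ψ a) (hB : B ≤ B')
    (happ : ∀ x ∈ B', ∀ ε > 0, ∃ μ : ℂ, ∀ᶠ j in atTop, ‖a j * x * a j - μ • (a j * a j)‖ ≤ ε) :
    Exc B' ψ a :=
  h.peak.exc_of_approx (fun j => hB (h.mem j)) happ

/-- the set of elements compressed to scalars is closed. -/
theorem Exc.isClosed_set (h1 : ψ 1 = 1) (ha : ∀ j, ‖a j‖ ≤ 1) :
    IsClosed {x : 𝔹 | Tendsto (fun j => ‖a j * x * a j - ψ x • (a j * a j)‖) atTop (𝓝 0)} := by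
  rw [← closure_subset_iff_isClosed]
  intro x hx
  rw [Set.mem_ofPred_eq, Metric.tendsto_atTop]
  intro ε hε
  obtain ⟨z, hz, hxz⟩ := Metric.mem_closure_iff.mp hx (ε / 4) (by positivity)
  rw [dist_eq_norm] at hxz
  obtain ⟨N, hN⟩ := (Metric.tendsto_atTop.mp hz) (ε / 4) (by positivity)
  refine ⟨N, fun j hj => ?_⟩
  have hj' := hN j hj
  rw [dist_zero_right, norm_norm] at hj' ⊢
  have haa : ‖a j * a j‖ ≤ 1 := (norm_mul_le _ _).trans (by nlinarith [norm_nonneg (a j), ha j])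
  have e : a j * x * a j - ψ x • (a j * a j) =
      a j * (x - z) * a j + (a j * z * a j - ψ z • (a j * a j)) - (ψ (x - z)) • (a j * a j) := by
    simp only [mul_sub, sub_mul, sub_smul, map_sub]
    abel
  have hb1 : ‖a j * (x - z) * a j‖ ≤ ε / 4 := by
    calc ‖a j * (x - z) * a j‖ ≤ ‖a j‖ * ‖x - z‖ * ‖a j‖ :=
          (norm_mul_le _ _).trans (by gcongr; exact norm_mul_le _ _)
      _ ≤ 1 * ‖x - z‖ * 1 := by gcongr <;> exact ha j
      _ ≤ ε / 4 := by linarith
  have hb3 : ‖(ψ (x - z)) • (a j * a j)‖ ≤ ε / 4 := by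
    rw [norm_smul]
    calc _ ≤ ε / 4 * 1 := by
          gcongr
          exact (norm_apply_le ψ h1 _).trans hxz.le
      _ = _ := mul_one _
  rw [e]
  calc _ ≤ ‖a j * (x - z) * a j‖ + ‖a j * z * a j - ψ z • (a j * a j)‖
        + ‖(ψ (x - z)) • (a j * a j)‖ := (norm_sub_le _ _).trans (by gcongr; exact norm_add_le _ _)
    _ < ε / 4 + ε / 4 + ε / 4 := by linarith
    _ < ε := by linarith

theorem norm_conj_le (d z : 𝔹) : ‖d * z * star d‖ ≤ ‖d‖ ^ 2 * ‖z‖ := by
  calc ‖d * z * star d‖ ≤ ‖d * z‖ * ‖star d‖ := norm_mul_le _ _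
    _ ≤ (‖d‖ * ‖z‖) * ‖d‖ := by rw [norm_star]; gcongr; exact norm_mul_le _ _
    _ = _ := by ring

/-- uniform version: if `X_j` is bounded then `ψ X_j - ψ (a_j X_j a_j) → 0`. -/
theorem Peak.tendsto_sub_of_bdd (h : Peak ψ a) {X : ℕ → 𝔹} {C : ℝ} (hX : ∀ j, ‖X j‖ ≤ C) :
    Tendsto (fun j => ψ (X j) - ψ (a j * X j * a j)) atTop (𝓝 0) := by
  have h1 : Tendsto (fun j => 2 * C * sn ψ (1 - a j)) atTop (𝓝 0) := by
    simpa using h.sn_one_sub.const_mul (2 * C)
  refine squeeze_zero_norm (fun j => (h.norm_sub_le (X j) j).trans ?_) h1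
  have := sn_nonneg ψ (1 - a j)
  gcongr
  exact hX j

/-- (F4), without normalisation -/
theorem Exc.tendsto_conj_mul_self (h : Exc B ψ a) {b : 𝔹} (hb : b ∈ B) :
    Tendsto (fun j => ψ (b * (a j * a j) * b)) atTop (𝓝 (ψ b * ψ b)) := by
  have hp := h.peak
  have hbd : ∀ j, ‖b * (a j * a j) * b‖ ≤ ‖b‖ * ‖b‖ := fun j => by
    calc ‖b * (a j * a j) * b‖ ≤ ‖b * (a j * a j)‖ * ‖b‖ := norm_mul_le _ _
      _ ≤ (‖b‖ * ‖a j * a j‖) * ‖b‖ := by gcongr; exact norm_mul_le _ _
      _ ≤ (‖b‖ * 1) * ‖b‖ := by gcongr; exact hp.norm_mul_self_le j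
      _ = _ := by ring
  have h1 := hp.tendsto_sub_of_bdd hbd
  have h2 : Tendsto (fun j => ψ (a j * a j) - ψ (a j * (a j * a j) * a j)) atTop (𝓝 0) :=
    hp.tendsto_sub_of_bdd (fun j => hp.norm_mul_self_le j)
  have h3 : Tendsto (fun j => ψ (a j * (a j * a j) * a j)) atTop (𝓝 1) := by
    have := hp.tendsto_mul_self.sub h2
    simpa using this
  -- a b a² b a = (a b a)(a b a)
  set e : ℕ → 𝔹 := fun j => a j * b * a j - ψ b • (a j * a j) with he
  have he0 : Tendsto (fun j => ‖e j‖) atTop (𝓝 0) := h.exc b hb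
  have h4 : ∀ j, a j * (b * (a j * a j) * b) * a j =
      (ψ b * ψ b) • (a j * (a j * a j) * a j) + (e j * (a j * b * a j) +
        ψ b • ((a j * a j) * e j)) := by
    intro j
    have e1 : a j * (b * (a j * a j) * b) * a j = (a j * b * a j) * (a j * b * a j) := by
      simp only [mul_assoc]
    have e2 : a j * b * a j = e j + ψ b • (a j * a j) := by simp [he]
    rw [e1]
    nth_rewrite 1 [e2]
    rw [add_mul]
    have e3 : ψ b • (a j * a j) * (a j * b * a j) =
        (ψ b * ψ b) • (a j * (a j * a j) * a j) + ψ b • ((a j * a j) * e j) := by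
      nth_rewrite 1 [e2]
      simp only [mul_add, smul_mul_assoc, mul_smul_comm, smul_smul, mul_assoc]
      try simp only [smul_add, smul_smul]
      abel
    rw [e3]
    abel
  have h5 : Tendsto (fun j => ψ (e j * (a j * b * a j) + ψ b • ((a j * a j) * e j))) atTop
      (𝓝 0) := by
    have hlim : Tendsto (fun j => ‖e j‖ * ‖b‖ + ‖ψ b‖ * ‖e j‖) atTop (𝓝 0) := by
      simpa using (he0.mul_const ‖b‖).add (he0.const_mul ‖ψ b‖)
    refine squeeze_zero_norm (fun j => ?_) hlim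
    refine (norm_apply_le ψ hp.one _).trans ((norm_add_le _ _).trans ?_)
    have hab : ‖a j * b * a j‖ ≤ ‖b‖ := by
      calc ‖a j * b * a j‖ ≤ ‖a j‖ * ‖b‖ * ‖a j‖ :=
            (norm_mul_le _ _).trans (by gcongr; exact norm_mul_le _ _)
        _ ≤ 1 * ‖b‖ * 1 := by gcongr <;> exact hp.norm_le_one j
        _ = ‖b‖ := by ring
    have haa := hp.norm_mul_self_le j
    rw [norm_smul]
    gcongr
    · exact (norm_mul_le _ _).trans (by gcongr)
    · calc ‖a j * a j * e j‖ ≤ ‖a j * a j‖ * ‖e j‖ := norm_mul_le _ _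
        _ ≤ 1 * ‖e j‖ := by gcongr
        _ = _ := one_mul _
  have h6 : Tendsto (fun j => ψ (a j * (b * (a j * a j) * b) * a j)) atTop (𝓝 (ψ b * ψ b)) := by
    have : Tendsto (fun j => (ψ b * ψ b) * ψ (a j * (a j * a j) * a j) +
        ψ (e j * (a j * b * a j) + ψ b • ((a j * a j) * e j))) atTop
        (𝓝 ((ψ b * ψ b) * 1 + 0)) := (h3.const_mul _).add h5
    rw [mul_one, add_zero] at this
    refine this.congr (fun j => ?_)
    rw [h4 j]
    simp only [map_add, map_smul, smul_eq_mul]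
  simpa using h1.add h6

theorem Exc.norm_conj_mul_self_tendsto (h : Exc B ψ a) {d : 𝔹} (hd : d ∈ B) :
    Tendsto (fun j => ‖d * (a j * a j) * star d‖) atTop (𝓝 (sn ψ d ^ 2)) := by
  have h1 := (h.norm_mul_tendsto hd).mul (h.norm_mul_tendsto hd)
  rw [← sq] at h1
  refine h1.congr (fun j => ?_)
  have : d * (a j * a j) * star d = (d * a j) * star (d * a j) := by
    rw [star_mul, h.star_eq]; simp only [mul_assoc]
  rw [this, CStarRing.norm_self_mul_star]

/-- (F4) -/
theorem Exc.conj (h : Exc B ψ a) {d : 𝔹} (hd : d ∈ B) (hd1 : ψ (star d * d) = 1) :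
    Exc B (conj ψ d) (fun j => ((max 1 ‖d * (a j * a j) * star d‖)⁻¹ : ℝ) •
      (d * (a j * a j) * star d)) := by
  have hp := h.peak
  set c : ℕ → 𝔹 := fun j => d * (a j * a j) * star d with hc
  set r : ℕ → ℝ := fun j => (max 1 ‖c j‖)⁻¹ with hr
  have hsn : sn ψ d ^ 2 = 1 := by rw [sn_sq, hd1]; simp
  have hcn : Tendsto (fun j => ‖c j‖) atTop (𝓝 1) := by
    have := h.norm_conj_mul_self_tendsto hd
    rwa [hsn] at this
  have hr0 : ∀ j, 0 < r j := fun j => by positivity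
  have hr1 : ∀ j, r j ≤ 1 := fun j => inv_le_one_of_one_le₀ (le_max_left _ _)
  have hrt : Tendsto r atTop (𝓝 1) := by
    have h1 : Tendsto (fun j => max 1 ‖c j‖) atTop (𝓝 (max 1 1)) := tendsto_const_nhds.max hcn
    rw [max_self] at h1
    simpa using h1.inv₀ one_ne_zero
  have hc0 : ∀ j, 0 ≤ c j := fun j => by
    have : c j = (d * a j) * star (d * a j) := by
      rw [star_mul, h.star_eq]; simp only [hc, mul_assoc]
    rw [this]; exact mul_star_self_nonneg _
  have hcB : ∀ j, c j ∈ B := fun j =>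
    mul_mem (mul_mem hd (mul_mem (h.mem j) (h.mem j))) (star_mem hd)
  refine ⟨by simpa using hd1, fun j => ?_, fun j => smul_nonneg (hr0 j).le (hc0 j), fun j => ?_,
    ?_, fun x hx => ?_⟩
  · have : (r j) • c j = (r j : ℂ) • c j := (Complex.coe_smul _ _).symm
    change (r j) • c j ∈ B
    rw [this]
    exact B.smul_mem (hcB j) _
  · change (r j) • c j ≤ 1
    rw [← CStarAlgebra.norm_le_one_iff_of_nonneg _ (smul_nonneg (hr0 j).le (hc0 j)), norm_smul,
      Real.norm_of_nonneg (hr0 j).le]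
    calc r j * ‖c j‖ ≤ r j * max 1 ‖c j‖ :=
          mul_le_mul_of_nonneg_left (le_max_right _ _) (hr0 j).le
      _ = 1 := inv_mul_cancel₀ (by positivity)
  · have h1 := h.tendsto_conj_mul_self (b := star d * d) (mul_mem (star_mem hd) hd)
    rw [hd1, mul_one] at h1
    have h2 : Tendsto (fun j => ((r j : ℝ) : ℂ)) atTop (𝓝 1) := by
      have := (Complex.continuous_ofReal.tendsto _).comp hrt
      rw [Complex.ofReal_one] at this
      exact this
    have h3 := h2.mul h1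
    rw [mul_one] at h3
    refine h3.congr (fun j => ?_)
    change _ = ψ (star d * (r j • c j) * d)
    have : star d * (r j • c j) * d = (r j : ℂ) • (star d * d * (a j * a j) * (star d * d)) := by
      rw [Complex.coe_smul, mul_smul_comm, smul_mul_assoc]
      simp only [hc, mul_assoc]
    rw [this, map_smul, smul_eq_mul]
  · set z : 𝔹 := star d * x * d with hz
    have hzB : z ∈ B := mul_mem (mul_mem (star_mem hd) hx) hd
    set e : ℕ → 𝔹 := fun j => a j * z * a j - ψ z • (a j * a j) with he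
    set e' : ℕ → 𝔹 := fun j => a j * (star d * d) * a j - ψ (star d * d) • (a j * a j) with he'
    have he0 : Tendsto (fun j => ‖e j‖) atTop (𝓝 0) := h.exc z hzB
    have he0' : Tendsto (fun j => ‖e' j‖) atTop (𝓝 0) := h.exc _ (mul_mem (star_mem hd) hd)
    have key : ∀ j, c j * x * c j - ψ z • (c j * c j) =
        d * (a j * e j * a j - ψ z • (a j * e' j * a j)) * star d := by
      intro j
      simp only [hc, he, he', hz, hd1, one_smul, mul_sub, sub_mul, mul_smul_comm, smul_mul_assoc,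
        smul_sub, mul_assoc]
      abel
    have hlim : Tendsto (fun j => ‖d‖ ^ 2 * (‖e j‖ + ‖ψ z‖ * ‖e' j‖)) atTop (𝓝 0) := by
      have := (he0.add (he0'.const_mul ‖ψ z‖)).const_mul (‖d‖ ^ 2)
      simpa using this
    refine squeeze_zero (fun j => norm_nonneg _) (fun j => ?_) hlim
    change ‖(r j • c j) * x * (r j • c j) - ψ z • ((r j • c j) * (r j • c j))‖ ≤ _
    have e1 : (r j • c j) * x * (r j • c j) - ψ z • ((r j • c j) * (r j • c j)) =
        (r j * r j) • (c j * x * c j - ψ z • (c j * c j)) := by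
      simp only [smul_mul_assoc, mul_smul_comm, smul_smul, smul_sub]
      congr 1
      rw [smul_comm]
    rw [e1, key, norm_smul]
    have hrr : ‖r j * r j‖ ≤ 1 := by
      rw [Real.norm_of_nonneg (by have := hr0 j; positivity)]
      have := hr0 j; have := hr1 j
      nlinarith
    have hcj : ∀ w : 𝔹, ‖a j * w * a j‖ ≤ ‖w‖ := fun w => by
      calc ‖a j * w * a j‖ ≤ ‖a j‖ * ‖w‖ * ‖a j‖ :=
            (norm_mul_le _ _).trans (by gcongr; exact norm_mul_le _ _)
        _ ≤ 1 * ‖w‖ * 1 := by gcongr <;> exact hp.norm_le_one j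
        _ = ‖w‖ := by ring
    calc _ ≤ 1 * ‖d * (a j * e j * a j - ψ z • (a j * e' j * a j)) * star d‖ := by gcongr
      _ ≤ ‖d‖ ^ 2 * ‖a j * e j * a j - ψ z • (a j * e' j * a j)‖ := by
          rw [one_mul]; exact norm_conj_le _ _
      _ ≤ ‖d‖ ^ 2 * (‖e j‖ + ‖ψ z‖ * ‖e' j‖) := by
          gcongr
          refine (norm_sub_le _ _).trans ?_
          rw [norm_smul]
          gcongr
          · exact hcj _
          · exact hcj _

/-- conjugation by a unitary of `B`. -/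
theorem Exc.conj_unitary (h : Exc B ψ a) {V : 𝔹} (hV : V ∈ B) (hu : V ∈ unitary 𝔹) :
    Exc B (R120.conj ψ (star V)) (fun j => star V * a j * V) := by
  have hVV : V * star V = 1 := Unitary.mul_star_self_of_mem hu
  have hVV' : star V * V = 1 := Unitary.star_mul_self_of_mem hu
  refine ⟨by simp [hVV, h.one], fun j => mul_mem (mul_mem (star_mem hV) (h.mem j)) hV,
    fun j => star_left_conjugate_nonneg (h.nonneg j) V, fun j => ?_, ?_, fun b hb => ?_⟩
  · have := star_left_conjugate_le_conjugate (h.le_one j) V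
    simpa [hVV'] using this
  · refine h.tend.congr (fun j => ?_)
    have : star (star V) * (star V * a j * V) * star V = a j := by
      rw [star_star]
      calc V * (star V * a j * V) * star V = (V * star V) * a j * (V * star V) := by
            simp only [mul_assoc]
        _ = a j := by rw [hVV, one_mul, mul_one]
    rw [conj_apply, this]
  · have h1 := h.exc (V * b * star V) (mul_mem (mul_mem hV hb) (star_mem hV))
    refine h1.congr (fun j => ?_)
    have e1 : star V * a j * V * b * (star V * a j * V) -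
        R120.conj ψ (star V) b • (star V * a j * V * (star V * a j * V)) =
        star V * (a j * (V * b * star V) * a j - ψ (V * b * star V) • (a j * a j)) * V := by
      rw [conj_apply, star_star]
      have e2 : star V * a j * V * (star V * a j * V) = star V * (a j * a j) * V := by
        calc star V * a j * V * (star V * a j * V) = star V * a j * (V * star V) * a j * V := by
              simp only [mul_assoc]
          _ = _ := by rw [hVV]; simp only [mul_one, mul_assoc]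
      rw [e2]
      simp only [mul_sub, sub_mul, mul_smul_comm, smul_mul_assoc, mul_assoc]
    rw [e1]
    have hu' : star V ∈ unitary 𝔹 := Unitary.star_mem hu
    rw [CStarRing.norm_mul_mem_unitary _ hu, CStarRing.norm_mem_unitary_mul _ hu']

/-- decreasing projections and states: `N0` in terms of `Exc`. -/
theorem exc_of_N0 {p : ℕ → 𝔹} {φ : 𝔹 →ₚ[ℂ] ℂ} (hp : DecProj p) (hφ1 : φ 1 = 1)
    (hφ : ∀ n, φ (p n) = 1) {y : 𝔹} (hy : y ∈ unitary 𝔹)
    (hmem : ∀ n, y * p n * star y ∈ B) (hb : ∀ b ∈ B, star y * b * y ∈ N0 p φ) :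
    Exc B (R120.conj φ y) (fun n => y * p n * star y) := by
  have hyy : y * star y = 1 := Unitary.mul_star_self_of_mem hy
  have hyy' : star y * y = 1 := Unitary.star_mul_self_of_mem hy
  have hpp : ∀ n, p n * p n = p n := fun n => (hp.proj n).isIdempotentElem.eq
  refine ⟨by simp [hyy', hφ1], hmem, fun n => star_right_conjugate_nonneg (hp.proj n).nonneg y,
    fun n => ?_, ?_, fun b hbB => ?_⟩
  · have := star_right_conjugate_le_conjugate (hp.proj n).le_one y
    simpa [hyy] using this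
  · have : ∀ n, conj φ y (y * p n * star y) = 1 := fun n => by
      have : star y * (y * p n * star y) * y = p n := by
        calc star y * (y * p n * star y) * y = (star y * y) * p n * (star y * y) := by
              simp only [mul_assoc]
          _ = p n := by rw [hyy', one_mul, mul_one]
      rw [conj_apply, this, hφ]
    simp [this]
  · have h1 := hb b hbB
    refine (show Tendsto _ _ _ from h1).congr (fun n => ?_)
    have e1 : y * p n * star y * b * (y * p n * star y) -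
        conj φ y b • (y * p n * star y * (y * p n * star y)) =
        y * (p n * (star y * b * y) * p n - φ (star y * b * y) • p n) * star y := by
      have e2 : y * p n * star y * (y * p n * star y) = y * p n * star y := by
        calc y * p n * star y * (y * p n * star y) = y * p n * (star y * y) * p n * star y := by
              simp only [mul_assoc]
          _ = y * (p n * p n) * star y := by rw [hyy']; simp only [mul_one, mul_assoc]
          _ = _ := by rw [hpp]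
      rw [e2, conj_apply]
      simp only [mul_sub, sub_mul, mul_smul_comm, smul_mul_assoc, mul_assoc]
    rw [e1, CStarRing.norm_mul_mem_unitary _ (Unitary.star_mem hy),
      CStarRing.norm_mem_unitary_mul _ hy]

theorem N0_of_exc {p : ℕ → 𝔹} {φ : 𝔹 →ₚ[ℂ] ℂ} (hp : DecProj p) {y : 𝔹} (hy : y ∈ unitary 𝔹)
    (h : Exc B (R120.conj φ y) (fun n => y * p n * star y)) :
    ∀ b ∈ B, star y * b * y ∈ N0 p φ := by
  intro b hbB
  have hyy' : star y * y = 1 := Unitary.star_mul_self_of_mem hy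
  have hpp : ∀ n, p n * p n = p n := fun n => (hp.proj n).isIdempotentElem.eq
  have h1 := h.exc b hbB
  change Tendsto _ _ _
  refine h1.congr (fun n => ?_)
  have e1 : y * p n * star y * b * (y * p n * star y) -
      conj φ y b • (y * p n * star y * (y * p n * star y)) =
      y * (p n * (star y * b * y) * p n - φ (star y * b * y) • p n) * star y := by
    have e2 : y * p n * star y * (y * p n * star y) = y * p n * star y := by
      calc y * p n * star y * (y * p n * star y) = y * p n * (star y * y) * p n * star y := by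
            simp only [mul_assoc]
        _ = y * (p n * p n) * star y := by rw [hyy']; simp only [mul_one, mul_assoc]
        _ = _ := by rw [hpp]
    rw [e2, conj_apply]
    simp only [mul_sub, sub_mul, mul_smul_comm, smul_mul_assoc, mul_assoc]
  rw [e1, CStarRing.norm_mul_mem_unitary _ (Unitary.star_mem hy),
    CStarRing.norm_mem_unitary_mul _ hy]

end Crest.Agent.R120
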