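import Crest.Agent.R120.PPGroup

/-!
# Row 120: a group with ping-pong data: `(∏ ℤ/2) * (*_X ℤ/2)`
-/

set_option autoImplicit false

namespace Crest.Agent.R120

namespace MG

open Monoid Monoid.CoprodI

section general

variable {ι : Type} {F : ι → Type} [∀ i, Group (F i)] [DecidableEq ι] [∀ i, DecidableEq (F i)]

theorem smul_eq_cons {i : ι} (m : F i) (hm : m ≠ 1) (w : Word F) (hw : w.fstIdx ≠ some i) :
    (of m : CoprodI F) • w = Word.cons m w hw hm :=
  (Word.cons_eq_smul (m := m) (ls := w) (h1 := hw) (h2 := hm)).symm

theorem fstIdx_smul {i : ι} (m : F i) (hm : m ≠ 1) (w : Word F) (hw : w.fstIdx ≠ some i) :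
    ((of m : CoprodI F) • w).fstIdx = some i := by
  rw [smul_eq_cons m hm w hw, Word.fstIdx_cons]

/-- the involution `m` maps the words starting with the two-element factor `F i` to the others. -/
theorem fstIdx_smul_two {i : ι} (m : F i) (hm : m * m = 1) (h2 : ∀ a : F i, a = 1 ∨ a = m)
    (w : Word F) (hw : w.fstIdx = some i) :
    ((of m : CoprodI F) • w).fstIdx ≠ some i := by
  have h := Word.equivPair_head_smul_equivPair_tail (i := i) w
  rcases h2 (Word.equivPair i w).head with h1 | h1
  · exfalso
    rw [h1, map_one, one_smul] at h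
    apply (Word.equivPair i w).fstIdx_ne
    rw [h, hw]
  · rw [h1] at h
    rw [← h, ← mul_smul, ← map_mul, hm, map_one, one_smul]
    exact (Word.equivPair i w).fstIdx_ne

/-- left multiplication by a reduced word `w` of a word with different first index. -/
theorem fstIdx_prod_smul (S : Set ι) (w : Word F) (hw : ∀ l ∈ w.toList, l.1 ∈ S)
    (u : Word F) (i : ι) (hi : i ∉ S) (hu : u.fstIdx = some i) :
    (w = Word.empty → ((w.prod : CoprodI F) • u).fstIdx = some i) ∧
      (w ≠ Word.empty → ((w.prod : CoprodI F) • u).fstIdx = w.fstIdx) := by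
  induction w using Word.consRecOn with
  | empty => simp [hu]
  | cons j m w h1 h2 ih =>
    have hj : j ∈ S := hw ⟨j, m⟩ (by simp [Word.cons])
    have ih' := ih (fun l hl => hw l (by simp [Word.cons, hl]))
    have hne : ((w.prod : CoprodI F) • u).fstIdx ≠ some j := by
      by_cases hwe : w = Word.empty
      · rw [ih'.1 hwe]
        intro h
        have : i = j := Option.some.inj h
        exact hi (this ▸ hj)
      · rw [ih'.2 hwe]; exact h1
    refine ⟨fun h => ?_, fun _ => ?_⟩
    · exfalso
      have := congrArg Word.toList h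
      simp [Word.cons, Word.empty] at this
    · rw [Word.prod_cons, mul_smul, Word.fstIdx_cons, fstIdx_smul m h2 _ hne]

theorem letters_smul (S : Set ι) {j : ι} (hj : j ∈ S) (m : F j) (w : Word F)
    (hw : ∀ l ∈ w.toList, l.1 ∈ S) : ∀ l ∈ ((of m : CoprodI F) • w).toList, l.1 ∈ S := by
  rintro ⟨i, m₁⟩ hl
  rw [Word.mem_smul_iff] at hl
  rcases hl with ⟨_, h⟩ | ⟨_, h, _⟩
  · exact hw _ h
  · subst h; exact hj

theorem letters_closure (S : Set ι) (l : CoprodI F)
    (hl : l ∈ Subgroup.closure (⋃ j ∈ S, Set.range (of : F j →* CoprodI F))) :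
    ∀ a ∈ (Word.equiv l).toList, a.1 ∈ S := by
  suffices h : ∀ w : Word F, (∀ a ∈ w.toList, a.1 ∈ S) → ∀ a ∈ (l • w).toList, a.1 ∈ S by
    exact h Word.empty (by simp [Word.empty])
  induction hl using Subgroup.closure_induction with
  | mem x hx =>
    intro w hw
    simp only [Set.mem_iUnion] at hx
    obtain ⟨j, hj, m, rfl⟩ := hx
    exact letters_smul S hj m w hw
  | one => intro w hw; rwa [one_smul]
  | mul x y _ _ hx hy => intro w hw; rw [mul_smul]; exact hx _ (hy _ hw)
  | inv x hx ih =>
    -- the set of generators is closed under inverses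
    have hclo : x⁻¹ ∈ Submonoid.closure (⋃ j ∈ S, Set.range (of : F j →* CoprodI F)) := by
      have h1 : x⁻¹ ∈ Subgroup.closure (⋃ j ∈ S, Set.range (of : F j →* CoprodI F)) :=
        inv_mem hx
      rw [← Subgroup.mem_toSubmonoid, Subgroup.closure_toSubmonoid] at h1
      refine Submonoid.closure_mono ?_ h1
      rintro y (hy | hy)
      · exact hy
      · simp only [Set.mem_inv, Set.mem_iUnion] at hy ⊢
        obtain ⟨j, hj, m, hm⟩ := hy
        exact ⟨j, hj, m⁻¹, by rw [map_inv, hm, inv_inv]⟩
    clear ih hx
    generalize x⁻¹ = y at hclo ⊢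
    clear x
    induction hclo using Submonoid.closure_induction with
    | mem x hx =>
      intro w hw
      simp only [Set.mem_iUnion] at hx
      obtain ⟨j, hj, m, rfl⟩ := hx
      exact letters_smul S hj m w hw
    | one => intro w hw; rwa [one_smul]
    | mul x y _ _ hx hy => intro w hw; rw [mul_smul]; exact hx _ (hy _ hw)

end general

/-- The factors. -/
def Fac (X : Type) : Option X → Type
  | none => Multiplicative (ℕ → ZMod 2)
  | some _ => Multiplicative (ZMod 2)

noncomputable instance (X : Type) : ∀ i, CommGroup (Fac X i)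
  | none => inferInstanceAs (CommGroup (Multiplicative (ℕ → ZMod 2)))
  | some _ => inferInstanceAs (CommGroup (Multiplicative (ZMod 2)))

/-- the group -/
abbrev Gam (X : Type) := CoprodI (Fac X)

/-- an element of the base factor -/
def b (X : Type) (f : ℕ → ZMod 2) : Fac X none := Multiplicative.ofAdd f

theorem b_mul (X : Type) (f h : ℕ → ZMod 2) : b X f * b X h = b X (f + h) := rfl

theorem b_zero (X : Type) : b X 0 = 1 := rfl

theorem b_inj (X : Type) (f h : ℕ → ZMod 2) (e : b X f = b X h) : f = h := e

/-- the involution in the factor `some x` -/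
def c {X : Type} (x : X) : Fac X (some x) := Multiplicative.ofAdd (1 : ZMod 2)

theorem c_mul {X : Type} (x : X) : c x * c x = 1 := by
  change Multiplicative.ofAdd ((1 : ZMod 2) + 1) = Multiplicative.ofAdd (0 : ZMod 2)
  congr 1

theorem c_cases {X : Type} (x : X) (a : Fac X (some x)) : a = 1 ∨ a = c x := by
  change (Multiplicative.toAdd (α := ZMod 2) a) = 0 ∨ (Multiplicative.toAdd (α := ZMod 2) a) = 1
  generalize (Multiplicative.toAdd (α := ZMod 2) a) = z
  revert z
  decide

theorem c_ne {X : Type} (x : X) : c x ≠ 1 := by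
  intro h
  have : (1 : ZMod 2) = 0 := h
  revert this
  decide

/-- indicator -/
noncomputable def ind (s : Finset ℕ) : ℕ → ZMod 2 := fun i => if i ∈ s then 1 else 0

theorem ind_insert (n : ℕ) (s : Finset ℕ) (h : n ∉ s) :
    ind (insert n s) = ind {n} + ind s := by
  funext i
  simp only [ind, Finset.mem_insert, Finset.mem_singleton, Pi.add_apply]
  by_cases h1 : i = n
  · subst h1; simp [h]
  · simp [h1]

theorem ind_eq_zero (s : Finset ℕ) (h : ind s = 0) : s = ∅ := by
  rw [Finset.eq_empty_iff_forall_notMem]
  intro i hi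
  have := congrFun h i
  simp [ind, hi] at this

theorem ind_add_self (f : ℕ → ZMod 2) : f + f = 0 := by
  funext i
  simp only [Pi.add_apply, Pi.zero_apply]
  generalize f i = z
  revert z
  decide

end MG

/-- the embedding of the base factor, as a monoid homomorphism -/
def MG.bHom (X : Type) : Multiplicative (ℕ →₀ ZMod 2) →* MG.Fac X none where
  toFun f := MG.b X (⇑(Multiplicative.toAdd f : ℕ →₀ ZMod 2))
  map_one' := MG.b_zero X
  map_mul' f h := by
    rw [MG.b_mul]; rfl

open MG Monoid Monoid.CoprodI in
open Classical in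
/-- The concrete ping-pong group. -/
noncomputable def ppGroup (X : Type) : PPGroup (Gam X) X where
  g x := of (c x)
  k n := of (b X (ind {n}))
  K s := of (b X (ind s))
  κ := (of (i := none) (M := Fac X)).comp (bHom X)
  κ_injective f h e := by
    have h1 := b_inj X _ _ (of_injective (M := Fac X) none e)
    exact DFunLike.coe_injective (F := ℕ →₀ ZMod 2) h1
  κ_single n := by
    have : (⇑(Finsupp.single n (1 : ZMod 2)) : ℕ → ZMod 2) = ind {n} := by
      funext i
      simp only [ind, Finset.mem_singleton, Finsupp.single_apply, eq_comm]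
    change of (b X (⇑(Finsupp.single n (1 : ZMod 2)))) = of (b X (ind {n}))
    rw [this]
  W x := {γ | (Word.equiv γ).fstIdx = some (some x)}
  Λ Y := Subgroup.closure (Set.range (fun n => of (b X (ind {n}))) ∪ (fun x => of (c x)) '' Y)
  g_sq x := by rw [← map_mul, c_mul, map_one]
  k_sq n := by rw [← map_mul, b_mul, ind_add_self, b_zero, map_one]
  k_comm m n := by rw [← map_mul, ← map_mul, b_mul, b_mul, add_comm]
  K_empty := by
    have : ind ∅ = 0 := by funext i; simp [ind]
    rw [this, b_zero, map_one]
  K_insert n s h := by rw [← map_mul, b_mul, ind_insert n s h]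
  K_eq_one s h := by
    apply ind_eq_zero
    apply b_inj X
    apply of_injective (M := Fac X) none
    rw [h, b_zero, map_one]
  k_injective m n h := by
    have h1 := b_inj X _ _ (of_injective (M := Fac X) none h)
    have h2 := congrFun h1 m
    by_contra hne
    simp [ind, hne] at h2
  Λ_eq Y := rfl
  Λ_mono Y Z h := Subgroup.closure_mono (Set.union_subset_union_right _ (Set.image_mono h))
  k_mem n Y := Subgroup.subset_closure (Or.inl ⟨n, rfl⟩)
  g_mem x Y hx := Subgroup.subset_closure (Or.inr ⟨x, hx, rfl⟩)
  W_disj x x' γ h h' := by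
    simp only [Set.mem_ofPred_eq] at h h'
    rw [h] at h'
    exact Option.some.inj (Option.some.inj h')
  g_mem_W x := by
    change ((of (c x) : Gam X) • (Word.empty : Word (Fac X))).fstIdx = some (some x)
    exact fstIdx_smul _ (c_ne x) _ (by simp [Word.fstIdx, Word.empty])
  one_notMem_W x := by
    change ¬ ((1 : Gam X) • (Word.empty : Word (Fac X))).fstIdx = some (some x)
    rw [one_smul]
    simp [Word.fstIdx, Word.empty]
  g_mul_mem_W x γ := by
    change ((of (c x) * γ : Gam X) • (Word.empty : Word (Fac X))).fstIdx = some (some x) ↔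
      ¬ ((γ : Gam X) • (Word.empty : Word (Fac X))).fstIdx = some (some x)
    rw [mul_smul]
    constructor
    · intro h h'
      exact fstIdx_smul_two (c x) (c_mul x) (c_cases x) _ h' h
    · intro h
      exact fstIdx_smul _ (c_ne x) _ h
  pingpong Y x x' l γ hx hx' hl hγ hlγ := by
    have hS : ∀ a ∈ (Word.equiv l).toList, a.1 ∈ insert none (some '' Y) := by
      apply letters_closure
      refine Subgroup.closure_mono ?_ hl
      rintro y (⟨n, rfl⟩ | ⟨z, hz, rfl⟩)
      · simp only [Set.mem_iUnion]
        exact ⟨none, Set.mem_insert _ _, _, rfl⟩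
      · simp only [Set.mem_iUnion]
        exact ⟨some z, Set.mem_insert_of_mem _ ⟨z, hz, rfl⟩, _, rfl⟩
    have hprod : (Word.equiv l).prod = l := Word.equiv.symm_apply_apply l
    have key := fstIdx_prod_smul (insert none (some '' Y)) (Word.equiv l) hS
      (Word.equiv γ) (some x') (by simp [hx']) hγ
    rw [hprod] at key
    have hlγ' : (l • Word.equiv γ).fstIdx = some (some x) := by
      change (l • (γ • (Word.empty : Word (Fac X)))).fstIdx = some (some x)
      rw [← mul_smul]
      exact hlγ
    by_cases he : Word.equiv l = Word.empty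
    · have h1 : l = 1 := by rw [← hprod, he, Word.prod_empty]
      refine ⟨h1, ?_⟩
      have h2 := key.1 he
      rw [hlγ'] at h2
      exact Option.some.inj (Option.some.inj h2)
    · exfalso
      have h2 := key.2 he
      rw [hlγ'] at h2
      -- first letter of `l` is in `some x`, `x ∉ Y`
      have h3 : ∃ a ∈ (Word.equiv l).toList, a.1 = some x := by
        unfold Word.fstIdx at h2
        cases hL : (Word.equiv l).toList with
        | nil => rw [hL] at h2; simp at h2
        | cons a t =>
          rw [hL] at h2
          simp only [List.head?_cons, Option.map_some, Option.some.injEq] at h2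
          exact ⟨a, by simp, h2.symm⟩
      obtain ⟨a, ha, hax⟩ := h3
      have := hS a ha
      rw [hax] at this
      simp only [Set.mem_insert_iff, reduceCtorEq, Set.mem_image, Option.some.injEq,
        exists_eq_right, false_or] at this
      exact hx this

theorem exists_ppGroup (X : Type) : ∃ (Γ : Type) (_ : Group Γ), Nonempty (PPGroup Γ X) :=
  ⟨MG.Gam X, inferInstance, ⟨ppGroup X⟩⟩

end Crest.Agent.R120
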