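import Crest.Agent.R120.ModelDefs
import Crest.Agent.R120.ModelGroup

/-!
# Row 120: the concrete ping-pong group as an instance of `PPG`
-/

set_option autoImplicit false

namespace Crest.Agent.R120

theorem PPGroup.k_indep {Γ : Type} [Group Γ] {X : Type} (D : PPGroup Γ X) (n : ℕ) :
    D.k n ∉ Subgroup.closure (D.k '' {i | i < n}) := by
  intro hn
  let e : Multiplicative (ℕ →₀ ZMod 2) →* Multiplicative (ZMod 2) :=
    AddMonoidHom.toMultiplicative (Finsupp.applyAddHom n)
  have hle : Subgroup.closure (D.k '' {i | i < n}) ≤ Subgroup.map D.κ e.ker := by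
    rw [Subgroup.closure_le]
    rintro _ ⟨i, hi, rfl⟩
    refine ⟨Multiplicative.ofAdd (Finsupp.single i 1), ?_, D.κ_single i⟩
    change Multiplicative.ofAdd ((Finsupp.single i (1 : ZMod 2)) n) = 1
    have hi' : i ≠ n := ne_of_lt hi
    rw [Finsupp.single_eq_of_ne hi'.symm]
    rfl
  obtain ⟨f, hf, hfk⟩ := hle hn
  rw [← D.κ_single n] at hfk
  have h1 := D.κ_injective hfk
  subst h1
  have h2 : Multiplicative.ofAdd ((Finsupp.single n (1 : ZMod 2)) n) = 1 := hf
  rw [Finsupp.single_eq_same] at h2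
  have h3 : (1 : ZMod 2) = 0 := h2
  revert h3
  decide

/-- The `PPG` structure of a `PPGroup`. -/
noncomputable def PPGroup.toPPG {Γ : Type} [Group Γ] {X : Type} (D : PPGroup Γ X) : PPG Γ X where
  k := D.k
  g := D.g
  W := D.W
  L := D.Λ
  k_sq := D.k_sq
  k_comm := D.k_comm
  k_indep := D.k_indep
  g_sq := D.g_sq
  k_mem := D.k_mem
  g_mem := D.g_mem
  L_mono := D.Λ_mono
  g_iff := D.g_mul_mem_W
  ping := D.pingpong

theorem exists_ppg (X : Type) : ∃ (Γ : Type) (_ : Group Γ), Nonempty (PPG Γ X) :=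
  ⟨MG.Gam X, inferInstance, ⟨(ppGroup X).toPPG⟩⟩

end Crest.Agent.R120
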