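import Mathlib

/-! Module D, part 1: the index type, its rank and a well-order with all generators before all nodes
and children before parents; closed sets. -/

set_option autoImplicit false

namespace Crest.Agent.R120

universe u

/-- Index type of the construction: generators `gen x` (free involutions) and nodes `node c ψ`
(one conjugating unitary for the countable set `range c` of earlier indices and the datum `ψ`). -/
inductive Idx (X Ψ : Type u) : Type u
  | gen (x : X) : Idx X Ψ
  | node (c : ℕ → Idx X Ψ) (ψ : Ψ) : Idx X Ψ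

namespace Idx

variable {X Ψ : Type u}

/-- Children of an index. -/
def ch : Idx X Ψ → Set (Idx X Ψ)
  | gen _ => ∅
  | node c _ => Set.range c

/-- Being a generator. -/
def IsGen : Idx X Ψ → Prop
  | gen _ => True
  | node _ _ => False

@[simp] lemma isGen_gen (x : X) : IsGen (gen x : Idx X Ψ) := trivial
@[simp] lemma not_isGen_node (c : ℕ → Idx X Ψ) (ψ : Ψ) : ¬ IsGen (node c ψ) := fun h => h
@[simp] lemma ch_gen (x : X) : ch (gen x : Idx X Ψ) = ∅ := rfl
@[simp] lemma ch_node (c : ℕ → Idx X Ψ) (ψ : Ψ) : ch (node c ψ) = Set.range c := rfl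

lemma countable_ch (i : Idx X Ψ) : (ch i).Countable := by
  cases i with
  | gen x => simp
  | node c ψ => exact Set.countable_range c

/-- Rank of an index. -/
noncomputable def rank : Idx X Ψ → Ordinal.{u}
  | gen _ => 0
  | node c _ => ⨆ n, Order.succ (rank (c n))

lemma rank_child (c : ℕ → Idx X Ψ) (ψ : Ψ) (n : ℕ) : rank (c n) < rank (node c ψ) := by
  have h : Order.succ (rank (c n)) ≤ ⨆ n, Order.succ (rank (c n)) :=
    le_ciSup (Ordinal.bddAbove_of_small (s := Set.range fun n => Order.succ (rank (c n)))) n
  exact lt_of_lt_of_le (Order.lt_succ _) h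

lemma rank_gen (x : X) : rank (gen x : Idx X Ψ) = 0 := rfl

lemma rank_node_pos (c : ℕ → Idx X Ψ) (ψ : Ψ) : 0 < rank (node c ψ) :=
  lt_of_le_of_lt (zero_le) (rank_child c ψ 0)

/-- Key into a linear order. -/
noncomputable def key (i : Idx X Ψ) : Ordinal.{u} ×ₗ Ordinal.{u} :=
  toLex (rank i, Ordinal.typein (WellOrderingRel (α := Idx X Ψ)) i)

lemma key_injective : Function.Injective (key (X := X) (Ψ := Ψ)) := by
  intro i j h
  have h2 : Ordinal.typein (WellOrderingRel (α := Idx X Ψ)) i
      = Ordinal.typein (WellOrderingRel (α := Idx X Ψ)) j := by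
    have := congrArg (fun z => (ofLex z).2) h
    simpa [key] using this
  exact Ordinal.typein_injective _ h2

noncomputable instance : LinearOrder (Idx X Ψ) := LinearOrder.lift' key key_injective

lemma lt_iff_key (i j : Idx X Ψ) : i < j ↔ key i < key j := Iff.rfl

instance : WellFoundedLT (Idx X Ψ) :=
  ⟨InvImage.wf key (wellFounded_lt (α := Ordinal.{u} ×ₗ Ordinal.{u}))⟩

lemma lt_of_rank_lt {i j : Idx X Ψ} (h : rank i < rank j) : i < j := by
  rw [lt_iff_key, key, key, Prod.Lex.toLex_lt_toLex]
  exact Or.inl h

lemma lt_of_mem_ch {i j : Idx X Ψ} (h : j ∈ ch i) : j < i := by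
  cases i with
  | gen x => simp at h
  | node c ψ =>
    obtain ⟨n, rfl⟩ := h
    exact lt_of_rank_lt (rank_child c ψ n)

lemma lt_of_isGen {i j : Idx X Ψ} (hi : IsGen i) (hj : ¬ IsGen j) : i < j := by
  cases i with
  | node c ψ => exact absurd hi (not_isGen_node c ψ)
  | gen x =>
    cases j with
    | gen y => exact absurd (isGen_gen y) hj
    | node c ψ =>
      apply lt_of_rank_lt
      rw [rank_gen]
      exact rank_node_pos c ψ

end Idx

end Crest.Agent.R120
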