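import Crest.Agent.R120.Sys
import Crest.Agent.R120.Idx

/-!
# The index set (W-type), its well-order and the recursion (blueprint section 5)
-/

set_option autoImplicit false

namespace Crest.Agent.R120

open scoped ComplexOrder
open Filter Topology

variable {𝔹 : Type} [CStarAlgebra 𝔹] [PartialOrder 𝔹] [StarOrderedRing 𝔹] {X : Type}

namespace Index

/-- admissible unitaries at an index -/
def Cand (M : PP 𝔹 X) (u : Idx X (𝔹 →ₚ[ℂ] ℂ) → 𝔹) : Idx X (𝔹 →ₚ[ℂ] ℂ) → 𝔹 → Prop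
  | .gen _, _ => False
  | .node c ψ, y => M.ValidAt u Idx.ch (.node c ψ) y ∧
      ∃ δ > 0, ∀ n, δ ≤ (ψ (y * M.p n * star y)).re

/-- default values -/
def baseVal (M : PP 𝔹 X) : Idx X (𝔹 →ₚ[ℂ] ℂ) → 𝔹
  | .gen x => M.G x
  | .node _ _ => 1

theorem alg_congr (M : PP 𝔹 X) {I : Type} {u u' : I → 𝔹} {L : Set I} (h : ∀ j ∈ L, u j = u' j) :
    M.alg u L = M.alg u' L := by
  have : u '' L = u' '' L := Set.image_congr h
  rw [PP.alg, PP.alg, this]

theorem validAt_congr (M : PP 𝔹 X) {I : Type} [LinearOrder I] {u u' : I → 𝔹} {ch : I → Set I}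
    {i : I} (hch : ∀ j ∈ ch i, j < i) (h : ∀ j < i, u j = u' j) {y : 𝔹}
    (hv : M.ValidAt u ch i y) : M.ValidAt u' ch i y := by
  have h1 : M.alg u (ch i) = M.alg u' (ch i) := alg_congr M (fun j hj => h j (hch j hj))
  have h2 : M.alg u {j | j < i} = M.alg u' {j | j < i} := alg_congr M h
  exact ⟨hv.cl, hv.uni, fun n => h1 ▸ hv.a n, fun b hb => hv.b b (h1 ▸ hb),
    fun b hb => hv.c b (h2 ▸ hb)⟩

theorem cand_congr (M : PP 𝔹 X) {u u' : Idx X (𝔹 →ₚ[ℂ] ℂ) → 𝔹} {i : Idx X (𝔹 →ₚ[ℂ] ℂ)}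
    (h : ∀ j < i, u j = u' j) {y : 𝔹} (hc : Cand M u i y) : Cand M u' i y := by
  cases i with
  | gen x => exact hc
  | node c ψ => exact ⟨validAt_congr M (fun j hj => Idx.lt_of_mem_ch hj) h hc.1, hc.2⟩

open Classical in
/-- extension by one of a partially defined family -/
noncomputable def ext (i : Idx X (𝔹 →ₚ[ℂ] ℂ)) (r : ∀ j, j < i → 𝔹) : Idx X (𝔹 →ₚ[ℂ] ℂ) → 𝔹 :=
  fun j => if h : j < i then r j h else 1

open Classical in
/-- one step of the recursion -/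
noncomputable def step (M : PP 𝔹 X) (i : Idx X (𝔹 →ₚ[ℂ] ℂ)) (r : ∀ j, j < i → 𝔹) : 𝔹 :=
  if h : ∃ y, Cand M (ext i r) i y then h.choose else baseVal M i

/-- the family of unitaries -/
noncomputable def u (M : PP 𝔹 X) : Idx X (𝔹 →ₚ[ℂ] ℂ) → 𝔹 :=
  (wellFounded_lt (α := Idx X (𝔹 →ₚ[ℂ] ℂ))).fix (step M)

theorem u_eq (M : PP 𝔹 X) (i : Idx X (𝔹 →ₚ[ℂ] ℂ)) : u M i = step M i (fun j _ => u M j) :=
  WellFounded.fix_eq _ _ i

theorem cand_u (M : PP 𝔹 X) (i : Idx X (𝔹 →ₚ[ℂ] ℂ)) (h : ∃ y, Cand M (u M) i y) :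
    Cand M (u M) i (u M i) := by
  have h1 : ∀ j < i, u M j = ext i (fun j _ => u M j) j := by
    intro j hj
    rw [ext, dif_pos hj]
  have h2 : ∃ y, Cand M (ext i (fun j _ => u M j)) i y := by
    obtain ⟨y, hy⟩ := h
    exact ⟨y, cand_congr M h1 hy⟩
  have h3 : u M i = h2.choose := by
    rw [u_eq, step, dif_pos h2]
  rw [h3]
  exact cand_congr M (fun j hj => (h1 j hj).symm) h2.choose_spec

theorem u_not_cand (M : PP 𝔹 X) (i : Idx X (𝔹 →ₚ[ℂ] ℂ)) (h : ¬ ∃ y, Cand M (u M) i y) :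
    u M i = baseVal M i := by
  have h1 : ∀ j < i, u M j = ext i (fun j _ => u M j) j := by
    intro j hj
    rw [ext, dif_pos hj]
  have h2 : ¬ ∃ y, Cand M (ext i (fun j _ => u M j)) i y := by
    rintro ⟨y, hy⟩
    exact h ⟨y, cand_congr M (fun j hj => (h1 j hj).symm) hy⟩
  rw [u_eq, step, dif_neg h2]

/-- the system -/
noncomputable def sys (M : PP 𝔹 X) : Sys M (Idx X (𝔹 →ₚ[ℂ] ℂ)) where
  gen := .gen
  gen_inj := fun x y h => by injection h
  u := u M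
  ch := Idx.ch
  ch_lt := fun i j hj => Idx.lt_of_mem_ch hj
  ch_countable := Idx.countable_ch
  u_gen := fun x => by
    rw [u_not_cand M (.gen x) (fun ⟨y, hy⟩ => hy)]
    rfl
  ch_gen := fun x => rfl
  gen_lt := fun x i hi => by
    refine Idx.lt_of_isGen (Idx.isGen_gen x) ?_
    cases i with
    | gen y => exact absurd rfl (hi y)
    | node c ψ => exact Idx.not_isGen_node c ψ
  valid := fun i => ∃ y, Cand M (u M) i y
  valid_not_gen := by
    rintro i x ⟨y, hy⟩ rfl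
    exact hy
  valid_at := fun i hi => by
    have h := cand_u M i hi
    cases i with
    | gen x => exact absurd h (fun h => h)
    | node c ψ => exact h.1
  not_valid := fun i hi => by
    cases i with
    | gen x => exact Or.inl ⟨x, rfl⟩
    | node c ψ =>
      right
      rw [u_not_cand M _ hi]
      rfl

end Index

/-- Existence of a rich system. -/
theorem exists_sys (M : PP 𝔹 X) : ∃ (I : Type) (_ : LinearOrder I) (_ : WellFoundedLT I)
    (Sg : Sys M I), ∀ (c : ℕ → I) (ψ : 𝔹 →ₚ[ℂ] ℂ), ∃ i : I, Sg.ch i = Set.range c ∧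
      ((∃ y, M.ValidAt Sg.u Sg.ch i y ∧ ∃ δ > 0, ∀ n, δ ≤ (ψ (y * M.p n * star y)).re) →
        Sg.valid i ∧ ∃ δ > 0, ∀ n, δ ≤ (ψ (Sg.u i * M.p n * star (Sg.u i))).re) := by
  refine ⟨Idx X (𝔹 →ₚ[ℂ] ℂ), inferInstance, inferInstance, Index.sys M, ?_⟩
  intro c ψ
  refine ⟨.node c ψ, rfl, ?_⟩
  intro h
  have hv : ∃ y, Index.Cand M (Index.u M) (.node c ψ) y := h
  exact ⟨hv, (Index.cand_u M _ hv).2⟩

end Crest.Agent.R120
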