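import Crest.Agent.R120.State
import Crest.Prelude.Def_CStarRep
import Crest.Agent.R120.E4

/-!
# Irreducible representations (blueprint section 6)
-/

set_option autoImplicit false

namespace Crest.Agent.R120

open scoped ComplexOrder
open Filter Topology
open Crest.Agent.R120.Irr

variable {A : Type} [CStarAlgebra A]
variable {H : Type} [NormedAddCommGroup H] [InnerProductSpace ℂ H] [CompleteSpace H]

/-- irreducible representations of unital algebras are unital -/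
theorem irrep_one {π : A →⋆ₙₐ[ℂ] (H →L[ℂ] H)} (hπ : Crest.OpAlg.IsIrreducibleRep π) :
    π 1 = 1 := irr_map_one hπ

/-- the vector functional of a representation as a positive linear map -/
noncomputable def vecFun [PartialOrder A] [StarOrderedRing A] (π : A →⋆ₙₐ[ℂ] (H →L[ℂ] H))
    (ξ : H) : A →ₚ[ℂ] ℂ :=
  PositiveLinearMap.mk₀
    { toFun := fun a => inner ℂ ξ (π a ξ)
      map_add' := fun a b => by simp
      map_smul' := fun c a => by simp }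
    (fun a ha => by
      obtain ⟨c, rfl⟩ := (CStarAlgebra.nonneg_iff_eq_star_mul_self (a := a)).1 ha
      show 0 ≤ inner ℂ ξ (π (star c * c) ξ)
      have e : inner ℂ ξ (π (star c * c) ξ) = inner ℂ (π c ξ) (π c ξ) := by
        rw [inner_rep_star, map_mul]; rfl
      rw [e, inner_self_eq_norm_sq_to_K]
      have h : (0 : ℂ) ≤ ((‖π c ξ‖ ^ 2 : ℝ) : ℂ) := Complex.zero_le_real.2 (sq_nonneg _)
      rw [Complex.ofReal_pow] at h
      exact h)

@[simp] theorem vecFun_apply [PartialOrder A] [StarOrderedRing A] (π : A →⋆ₙₐ[ℂ] (H →L[ℂ] H))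
    (ξ : H) (a : A) : vecFun π ξ a = inner ℂ ξ (π a ξ) := rfl

theorem irrep_isPure [PartialOrder A] [StarOrderedRing A] {π : A →⋆ₙₐ[ℂ] (H →L[ℂ] H)}
    (hπ : Crest.OpAlg.IsIrreducibleRep π) {ξ : H} (hξ : ξ ≠ 0) : IsPureFun (vecFun π ξ) := by
  intro f hf
  obtain ⟨s, h0, h1, hs⟩ := irr_pure hπ hξ f (fun a => by
    have h := hf (star a * a) (star_mul_self_nonneg a)
    have e : vecFun π ξ (star a * a) = inner ℂ (π a ξ) (π a ξ) := by
      rw [vecFun_apply, inner_rep_star, map_mul]; rfl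
    rw [e, inner_self_eq_norm_sq_to_K] at h
    exact_mod_cast h)
  exact ⟨s, h0, h1, hs⟩

/-- (E3) approximate excision of the vector states of an irreducible representation, finitely many
elements at a time. -/
theorem irrep_excision [PartialOrder A] [StarOrderedRing A] {π : A →⋆ₙₐ[ℂ] (H →L[ℂ] H)}
    (hπ : Crest.OpAlg.IsIrreducibleRep π) {ξ : H} (hξ : ‖ξ‖ = 1) (F : Finset A)
    {ε : ℝ} (hε : 0 < ε) :
    ∃ a : A, 0 ≤ a ∧ a ≤ 1 ∧ 1 - ε ≤ (inner ℂ ξ (π a ξ)).re ∧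
      ∀ b ∈ F, ‖a * (b - inner ℂ ξ (π b ξ) • 1) * a‖ ≤ ε := by
  have hξ0 : ξ ≠ 0 := by rintro rfl; simp at hξ
  have h1 : vecFun π ξ 1 = 1 := by
    rw [vecFun_apply, irr_map_one hπ]
    have : (1 : H →L[ℂ] H) ξ = ξ := rfl
    rw [this, inner_self_eq_norm_sq_to_K, hξ]
    simp
  exact pure_excision (irrep_isPure hπ hξ0) h1 F hε

/-- (E5) two irreducible representations having unit vectors with the same state are
unitarily equivalent. -/
theorem unitarilyEquivalent_of_states {H₁ : Type} [NormedAddCommGroup H₁] [InnerProductSpace ℂ H₁]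
    [CompleteSpace H₁] {H₂ : Type} [NormedAddCommGroup H₂] [InnerProductSpace ℂ H₂]
    [CompleteSpace H₂] {π₁ : A →⋆ₙₐ[ℂ] (H₁ →L[ℂ] H₁)} {π₂ : A →⋆ₙₐ[ℂ] (H₂ →L[ℂ] H₂)}
    (h₁ : Crest.OpAlg.IsIrreducibleRep π₁) (h₂ : Crest.OpAlg.IsIrreducibleRep π₂)
    {ξ₁ : H₁} {ξ₂ : H₂} (hξ₁ : ‖ξ₁‖ = 1) (hξ₂ : ‖ξ₂‖ = 1)
    (heq : ∀ a : A, inner ℂ ξ₁ (π₁ a ξ₁) = inner ℂ ξ₂ (π₂ a ξ₂)) :
    Crest.OpAlg.AreUnitarilyEquivalent π₁ π₂ :=
  areUnitarilyEquivalent_of_state_eq h₁ h₂ (by rintro rfl; simp at hξ₁) (by rintro rfl; simp at hξ₂)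
    heq

section normOne

variable {M : Type} [CStarAlgebra M] {ψ : M →L[ℂ] ℂ}

theorem contr_im_eq_zero (hone : ψ 1 = 1) (hle : ‖ψ‖ ≤ 1) {x : M} (hx : IsSelfAdjoint x) :
    (ψ x).im = 0 := by
  -- |ψ(x + i t)|² ≤ ‖x + i t‖² ≤ ‖x‖² + t²
  have key : ∀ t : ℝ, ((ψ x).im + t) ^ 2 ≤ ‖x‖ ^ 2 + t ^ 2 := by
    intro t
    have h1 : ψ (x + (Complex.I * t) • (1 : M)) = ψ x + Complex.I * t := by
      simp [hone]
    have h2 : ‖x + (Complex.I * t) • (1 : M)‖ ^ 2 ≤ ‖x‖ ^ 2 + t ^ 2 := by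
      rw [sq, ← CStarRing.norm_star_mul_self]
      have : star (x + (Complex.I * t) • (1 : M)) * (x + (Complex.I * t) • (1 : M))
          = x * x + ((t ^ 2 : ℝ) : ℂ) • (1 : M) := by
        rw [star_add, hx.star_eq, star_smul, star_one]
        have e1 : star (Complex.I * (t : ℂ)) = -(Complex.I * t) := by simp
        have e2 : ((t ^ 2 : ℝ) : ℂ) = -(Complex.I * t) * (Complex.I * t) := by
          push_cast
          ring_nf
          simp [Complex.I_sq]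
        rw [e1, e2]
        simp only [mul_add, add_mul, mul_one, one_mul, smul_mul_assoc, mul_smul_comm]
        module
      rw [this]
      calc ‖x * x + ((t ^ 2 : ℝ) : ℂ) • (1 : M)‖ ≤ ‖x * x‖ + ‖((t ^ 2 : ℝ) : ℂ) • (1 : M)‖ :=
            norm_add_le _ _
        _ ≤ ‖x‖ ^ 2 + t ^ 2 := by
            gcongr
            · rw [sq]; exact norm_mul_le _ _
            · rw [norm_smul]
              have : ‖(1 : M)‖ ≤ 1 := by
                rcases subsingleton_or_nontrivial M with hs | hn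
                · simp [Subsingleton.elim (1 : M) 0]
                · simp
              calc ‖((t ^ 2 : ℝ) : ℂ)‖ * ‖(1 : M)‖ ≤ ‖((t ^ 2 : ℝ) : ℂ)‖ * 1 := by gcongr
                _ = t ^ 2 := by
                  rw [mul_one, Complex.norm_real, Real.norm_eq_abs, abs_of_nonneg (sq_nonneg t)]
    have h3 : ‖ψ (x + (Complex.I * t) • (1 : M))‖ ≤ ‖x + (Complex.I * t) • (1 : M)‖ :=
      (ψ.le_opNorm _).trans (mul_le_of_le_one_left (norm_nonneg _) hle)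
    rw [h1] at h3
    have h4 : ‖ψ x + Complex.I * t‖ ^ 2 ≤ ‖x‖ ^ 2 + t ^ 2 :=
      le_trans (by gcongr) h2
    have h5 : ((ψ x).im + t) ^ 2 ≤ ‖ψ x + Complex.I * t‖ ^ 2 := by
      rw [← Complex.normSq_eq_norm_sq, Complex.normSq_apply]
      simp
      nlinarith [sq_nonneg ((ψ x).re)]
    exact h5.trans h4
  by_contra hne
  have h1 := key ((‖x‖ ^ 2 + 1) / (ψ x).im)
  have h2 : ((ψ x).im + (‖x‖ ^ 2 + 1) / (ψ x).im) ^ 2
      = (ψ x).im ^ 2 + 2 * (‖x‖ ^ 2 + 1) + ((‖x‖ ^ 2 + 1) / (ψ x).im) ^ 2 := by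
    have : (ψ x).im * ((‖x‖ ^ 2 + 1) / (ψ x).im) = ‖x‖ ^ 2 + 1 := mul_div_cancel₀ _ hne
    linear_combination 2 * this
  rw [h2] at h1
  nlinarith [sq_nonneg (ψ x).im, sq_nonneg ‖x‖]

theorem contr_re_nonneg [PartialOrder M] [StarOrderedRing M] (hone : ψ 1 = 1) (hle : ‖ψ‖ ≤ 1)
    {x : M} (hx : 0 ≤ x) : 0 ≤ (ψ x).re := by
  have hb : ‖(‖x‖ : ℂ) • (1 : M) - x‖ ≤ ‖x‖ := by
    have hsa : IsSelfAdjoint x := .of_nonneg hx
    have h1 : 0 ≤ algebraMap ℝ M ‖x‖ - x := sub_nonneg.mpr hsa.le_algebraMap_norm_self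
    have h2 : algebraMap ℝ M ‖x‖ - x ≤ algebraMap ℝ M ‖x‖ := sub_le_self _ hx
    have h3 := CStarAlgebra.norm_le_norm_of_nonneg_of_le h1 h2
    have h4 : ‖algebraMap ℝ M ‖x‖‖ ≤ ‖x‖ := by
      rw [Algebra.algebraMap_eq_smul_one, norm_smul, norm_norm]
      have : ‖(1 : M)‖ ≤ 1 := by
        rcases subsingleton_or_nontrivial M with hs | hn
        · simp [Subsingleton.elim (1 : M) 0]
        · simp
      nlinarith [norm_nonneg x]
    have h5 : (‖x‖ : ℂ) • (1 : M) = algebraMap ℝ M ‖x‖ := by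
      rw [Algebra.algebraMap_eq_smul_one]
      exact Complex.coe_smul ‖x‖ (1 : M)
    rw [h5]
    exact h3.trans h4
  have h1 : ‖ψ ((‖x‖ : ℂ) • (1 : M) - x)‖ ≤ ‖(‖x‖ : ℂ) • (1 : M) - x‖ :=
    (ψ.le_opNorm _).trans (mul_le_of_le_one_left (norm_nonneg _) hle)
  have h2 : ψ ((‖x‖ : ℂ) • (1 : M) - x) = ‖x‖ - ψ x := by simp [hone]
  rw [h2] at h1
  have h3 : ((‖x‖ : ℂ) - ψ x).re ≤ ‖x‖ := (Complex.re_le_norm _).trans (h1.trans hb)
  simp at h3
  linarith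

/-- a unital contractive functional is positive -/
noncomputable def contrPos [PartialOrder M] [StarOrderedRing M] (ψ : M →L[ℂ] ℂ) (hone : ψ 1 = 1)
    (hle : ‖ψ‖ ≤ 1) : M →ₚ[ℂ] ℂ :=
  PositiveLinearMap.mk₀ (ψ : M →ₗ[ℂ] ℂ) (fun x hx => by
    show 0 ≤ ψ x
    rw [Complex.nonneg_iff]
    exact ⟨contr_re_nonneg hone hle hx, (contr_im_eq_zero hone hle (.of_nonneg hx)).symm⟩)

@[simp] theorem contrPos_apply [PartialOrder M] [StarOrderedRing M] (ψ : M →L[ℂ] ℂ)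
    (hone : ψ 1 = 1) (hle : ‖ψ‖ ≤ 1) (x : M) : contrPos ψ hone hle x = ψ x := rfl

end normOne

/-- Hahn-Banach: the vector state of a representation of a closed unital subalgebra extends to a
state of the ambient algebra. -/
theorem exists_state_ext {𝔹 : Type} [CStarAlgebra 𝔹] [PartialOrder 𝔹] [StarOrderedRing 𝔹]
    (B : StarSubalgebra ℂ 𝔹) [IsClosed (B : Set 𝔹)]
    {π : B →⋆ₙₐ[ℂ] (H →L[ℂ] H)} (h1 : π 1 = 1) {ξ : H} (hξ : ‖ξ‖ = 1) :
    ∃ ψ : 𝔹 →ₚ[ℂ] ℂ, ψ 1 = 1 ∧ ∀ b : B, ψ (b : 𝔹) = inner ℂ ξ (π b ξ) := by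
  have hπn : ∀ b : B, ‖π b‖ ≤ ‖b‖ := fun b => NonUnitalStarAlgHom.norm_apply_le π b
  let f₀ : B →ₗ[ℂ] ℂ :=
    { toFun := fun b => inner ℂ ξ (π b ξ)
      map_add' := fun a b => by simp
      map_smul' := fun c a => by simp }
  have hf₀ : ∀ b : B, ‖f₀ b‖ ≤ 1 * ‖b‖ := by
    intro b
    calc ‖f₀ b‖ ≤ ‖ξ‖ * ‖π b ξ‖ := norm_inner_le_norm _ _
      _ ≤ ‖ξ‖ * (‖π b‖ * ‖ξ‖) := by gcongr; exact (π b).le_opNorm ξ
      _ = ‖π b‖ := by rw [hξ]; ring
      _ ≤ 1 * ‖b‖ := by rw [one_mul]; exact hπn b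
  let f : StrongDual ℂ (Subalgebra.toSubmodule B.toSubalgebra) := f₀.mkContinuous 1 hf₀
  have hfn : ‖f‖ ≤ 1 := LinearMap.mkContinuous_norm_le _ zero_le_one _
  obtain ⟨g, hg, hgn⟩ := exists_extension_norm_eq (Subalgebra.toSubmodule B.toSubalgebra) f
  have hgb : ∀ b : B, g (b : 𝔹) = inner ℂ ξ (π b ξ) := fun b => hg b
  have hg1 : g 1 = 1 := by
    have h := hgb 1
    rw [h1] at h
    have e : (1 : H →L[ℂ] H) ξ = ξ := rfl
    rw [e, inner_self_eq_norm_sq_to_K, hξ] at h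
    simpa using h
  exact ⟨contrPos g hg1 (hgn ▸ hfn), by simpa using hg1, fun b => by simpa using hgb b⟩

end Crest.Agent.R120
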