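import Crest.Agent.R120.State

/-!
# Algebra for Step 1: the self-adjoint unitary attached to a partial isometry
-/

set_option autoImplicit false

namespace Crest.Agent.R120

open scoped ComplexOrder
open Filter Topology

section Alg

variable {𝔹 : Type} [CStarAlgebra 𝔹] {v q r : 𝔹}

/-- the self-adjoint unitary attached to `v` with `v⋆v = q`. -/
noncomputable def Wu (v q : 𝔹) : 𝔹 := v + star v + (1 - v * star v - q)

theorem Wu_aux1 (hq : IsStarProjection q) (hv : star v * v = q) : v * q = v := by
  have hqq : q * q = q := hq.isIdempotentElem.eq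
  have hqs : star q = q := hq.isSelfAdjoint.star_eq
  have h : star (v - v * q) * (v - v * q) = 0 := by
    simp only [star_sub, star_mul, hqs, sub_mul, mul_sub]
    rw [mul_assoc q (star v) v, ← mul_assoc (star v) v q, hv, mul_assoc q (star v) (v * q),
      ← mul_assoc (star v) v q, hv, hqq]
    simp [hqq]
  have := (CStarRing.star_mul_self_eq_zero_iff _).1 h
  exact (sub_eq_zero.1 this).symm

theorem Wu_aux2 (hq : IsStarProjection q) (hr : IsStarProjection r) (hrq : r * q = q)
    (hrv : (r - q) * v = v) : q * v = 0 := by
  have hqq : q * q = q := hq.isIdempotentElem.eq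
  have hqs : star q = q := hq.isSelfAdjoint.star_eq
  have hrs : star r = r := hr.isSelfAdjoint.star_eq
  have hqr : q * r = q := by
    have := congrArg star hrq
    simpa [hqs, hrs] using this
  calc q * v = q * ((r - q) * v) := by rw [hrv]
    _ = (q * r - q * q) * v := by rw [← mul_assoc, mul_sub]
    _ = 0 := by rw [hqr, hqq]; simp

theorem star_Wu (hq : IsStarProjection q) : star (Wu v q) = Wu v q := by
  have hqs : star q = q := hq.isSelfAdjoint.star_eq
  simp only [Wu, star_add, star_sub, star_star, star_mul, star_one, hqs]
  rw [add_comm (star v) v]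

theorem Wu_mul_q (hq : IsStarProjection q) (hr : IsStarProjection r) (hrq : r * q = q)
    (hv : star v * v = q) (hrv : (r - q) * v = v) : Wu v q * q = v := by
  have hqq : q * q = q := hq.isIdempotentElem.eq
  have hqs : star q = q := hq.isSelfAdjoint.star_eq
  have h1 := Wu_aux1 hq hv
  have h2 := Wu_aux2 hq hr hrq hrv
  have h3 : star v * q = 0 := by
    have := congrArg star h2
    simpa [hqs] using this
  simp only [Wu, add_mul, sub_mul, h1, h3, hqq, mul_assoc, one_mul, mul_zero]
  simp

theorem Wu_mul_self (hq : IsStarProjection q) (hr : IsStarProjection r) (hrq : r * q = q)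
    (hv : star v * v = q) (hrv : (r - q) * v = v) : Wu v q * Wu v q = 1 := by
  have hqq : q * q = q := hq.isIdempotentElem.eq
  have hqs : star q = q := hq.isSelfAdjoint.star_eq
  have h1 := Wu_aux1 hq hv
  have h2 := Wu_aux2 hq hr hrq hrv
  have h3 : star v * q = 0 := by
    have := congrArg star h2
    simpa [hqs] using this
  have h1' : q * star v = star v := by
    have := congrArg star h1
    simpa [hqs] using this
  have h4 : v * v = 0 := by
    calc v * v = (v * q) * v := by rw [h1]
      _ = v * (q * v) := by rw [mul_assoc]
      _ = 0 := by rw [h2, mul_zero]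
  have h4' : star v * star v = 0 := by
    have := congrArg star h4
    simpa using this
  have e1 : v * star v * v = v := by rw [mul_assoc, hv, h1]
  have e2 : v * star v * star v = 0 := by rw [mul_assoc, h4', mul_zero]
  have e3 : v * (v * star v) = 0 := by rw [← mul_assoc, h4, zero_mul]
  have e4 : star v * (v * star v) = star v := by rw [← mul_assoc, hv, h1']
  have e5 : v * star v * (v * star v) = v * star v := by rw [← mul_assoc, e1]
  have e6 : v * star v * q = 0 := by rw [mul_assoc, h3, mul_zero]
  have e7 : q * (v * star v) = 0 := by rw [← mul_assoc, h2, zero_mul]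
  simp only [Wu, add_mul, mul_add, sub_mul, mul_sub, one_mul, mul_one, h1, h2, h3, h1', h4, h4',
    e1, e2, e3, e4, e5, e6, e7, hv, hqq]
  abel

theorem Wu_mem_unitary (hq : IsStarProjection q) (hr : IsStarProjection r) (hrq : r * q = q)
    (hv : star v * v = q) (hrv : (r - q) * v = v) : Wu v q ∈ unitary 𝔹 := by
  rw [Unitary.mem_iff, star_Wu hq]
  exact ⟨Wu_mul_self hq hr hrq hv hrv, Wu_mul_self hq hr hrq hv hrv⟩

theorem Wu_mul_one_sub (hq : IsStarProjection q) (hr : IsStarProjection r) (hrq : r * q = q)
    (hv : star v * v = q) (hrv : (r - q) * v = v) : Wu v q * (1 - r) = 1 - r := by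
  have hqq : q * q = q := hq.isIdempotentElem.eq
  have hqs : star q = q := hq.isSelfAdjoint.star_eq
  have hrr : r * r = r := hr.isIdempotentElem.eq
  have hrs : star r = r := hr.isSelfAdjoint.star_eq
  have hqr : q * r = q := by
    have := congrArg star hrq
    simpa [hqs, hrs] using this
  have h1 := Wu_aux1 hq hv
  have h2 := Wu_aux2 hq hr hrq hrv
  have hvr : v * r = v := by
    calc v * r = v * q * r := by rw [h1]
      _ = v * (q * r) := by rw [mul_assoc]
      _ = v := by rw [hqr, h1]
  have hrv' : r * v = v := by
    have : r * v - q * v = v := by rw [← sub_mul]; exact hrv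
    rwa [h2, sub_zero] at this
  have hsr : star v * r = star v := by
    have := congrArg star hrv'
    simpa [hrs] using this
  have e1 : v * star v * r = v * star v := by rw [mul_assoc, hsr]
  simp only [Wu, add_mul, sub_mul, mul_sub, one_mul, mul_one, hvr, hsr, e1, hqr]
  abel

/-- a decreasing sequence of projections is decreasing in the order. -/
theorem DecProj.le [PartialOrder 𝔹] [StarOrderedRing 𝔹] {p : ℕ → 𝔹} (hp : DecProj p) {n m : ℕ}
    (h : n ≤ m) : p m ≤ p n := by
  have hq := hp.proj m
  have hr := hp.proj n
  have hqq : p m * p m = p m := hq.isIdempotentElem.eq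
  have hqs : star (p m) = p m := hq.isSelfAdjoint.star_eq
  have hrr : p n * p n = p n := hr.isIdempotentElem.eq
  have hrs : star (p n) = p n := hr.isSelfAdjoint.star_eq
  have hrq := hp.mul n m h
  have hqr : p m * p n = p m := by
    have := congrArg star hrq
    simpa [hqs, hrs] using this
  have : 0 ≤ p n - p m := by
    have e : p n - p m = star (p n - p m) * (p n - p m) := by
      simp only [star_sub, hqs, hrs, sub_mul, mul_sub, hqq, hrr, hrq, hqr]
      abel
    rw [e]
    exact star_mul_self_nonneg _
  exact sub_nonneg.1 this

end Alg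

end Crest.Agent.R120
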