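import Crest.Agent.R120.BasicLemma
import Crest.Agent.R120.Step1Aux

/-!
# Step 1 theorem (blueprint section 4): the conjugating unitary
-/

set_option autoImplicit false

namespace Crest.Agent.R120

open scoped ComplexOrder
open Filter Topology

section Gen

variable {𝔹 : Type} [CStarAlgebra 𝔹] [PartialOrder 𝔹] [StarOrderedRing 𝔹]

/-- a state with `φ q = 1` satisfies `φ (q T q) = φ T`. -/
theorem phi_compress {φ : 𝔹 →ₚ[ℂ] ℂ} (hφ1 : φ 1 = 1) {q : 𝔹} (hq : IsStarProjection q)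
    (hφq : φ q = 1) (T : 𝔹) : φ (q * T * q) = φ T := by
  have hqs : star q = q := hq.isSelfAdjoint.star_eq
  have hz : sn φ (1 - q) = 0 := by
    have h := sn_proj_sq φ hq.one_sub
    rw [map_sub, hφ1, hφq] at h
    simpa using h
  have h1s : star (1 - q) = 1 - q := by simp [hqs]
  have e1 : φ ((1 - q) * T) = 0 := by
    have h := norm_star_mul_le φ (1 - q) T
    rw [hz, zero_mul, h1s] at h
    exact norm_le_zero_iff.1 h
  have e2 : φ (q * T * (1 - q)) = 0 := by
    have h := norm_star_mul_le φ (star (q * T)) (1 - q)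
    rw [hz, mul_zero, star_star] at h
    exact norm_le_zero_iff.1 h
  have e3 : T = q * T * q + (1 - q) * T + q * T * (1 - q) := by noncomm_ring
  conv_rhs => rw [e3]
  rw [map_add, map_add, e1, e2, add_zero, add_zero]

omit [PartialOrder 𝔹] [StarOrderedRing 𝔹] in
theorem IsStarProjection.norm_le_one' {q : 𝔹} (hq : IsStarProjection q) : ‖q‖ ≤ 1 := by
  have hqq : q * q = q := hq.isIdempotentElem.eq
  have hqs : star q = q := hq.isSelfAdjoint.star_eq
  have h : ‖q‖ * ‖q‖ = ‖q‖ := by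
    rw [← CStarRing.norm_star_mul_self, hqs, hqq]
  rcases eq_or_ne ‖q‖ 0 with h0 | h0
  · rw [h0]; exact zero_le_one
  · have := mul_left_cancel₀ h0 (h.trans (mul_one _).symm)
    exact this.le

omit [PartialOrder 𝔹] [StarOrderedRing 𝔹] in
theorem norm_unitary_le_one {y : 𝔹} (hy : y ∈ unitary 𝔹) : ‖y‖ ≤ 1 := by
  have h1 : star y * y = 1 := (Unitary.mem_iff.1 hy).1
  have h : ‖y‖ * ‖y‖ ≤ 1 := by
    rw [← CStarRing.norm_star_mul_self, h1]
    exact IsStarProjection.norm_le_one' (IsStarProjection.one (R := 𝔹))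
  nlinarith [norm_nonneg y]

theorem N0_of_approx {p : ℕ → 𝔹} {φ : 𝔹 →ₚ[ℂ] ℂ} (hp : DecProj p) (hφ1 : φ 1 = 1)
    (hφ : ∀ n, φ (p n) = 1) {T : 𝔹}
    (h : ∀ ε > 0, ∃ μ : ℂ, ∃ n, ‖p n * (T - μ • 1) * p n‖ ≤ ε) : T ∈ N0 p φ := by
  rw [N0, Set.mem_ofPred_eq, Metric.tendsto_atTop]
  intro ε hε
  obtain ⟨μ, n, hn⟩ := h (ε / 3) (by positivity)
  have hμ : ‖φ T - μ‖ ≤ ε / 3 := by
    have e : φ (p n * (T - μ • 1) * p n) = φ T - μ := by
      rw [phi_compress hφ1 (hp.proj n) (hφ n), map_sub, map_smul, hφ1]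
      simp
    rw [← e]
    exact (norm_apply_le φ hφ1 _).trans hn
  refine ⟨n, fun m hm => ?_⟩
  have hnm := hp.mul n m hm
  have hmn : p m * p n = p m := by
    have := congrArg star hnm
    simpa [(hp.proj n).isSelfAdjoint.star_eq, (hp.proj m).isSelfAdjoint.star_eq] using this
  have hmm : p m * p m = p m := (hp.proj m).isIdempotentElem.eq
  have e : p m * T * p m - φ T • p m = p m * (p n * (T - μ • 1) * p n) * p m
      + (μ - φ T) • p m := by
    have : p m * (p n * (T - μ • 1) * p n) * p m = (p m * p n) * (T - μ • 1) * (p n * p m) := by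
      noncomm_ring
    rw [this, hmn, hnm, mul_sub, sub_mul, mul_smul_comm, smul_mul_assoc, mul_one, hmm, sub_smul]
    abel
  have hpm := IsStarProjection.norm_le_one' (hp.proj m)
  rw [Real.dist_eq, sub_zero, abs_of_nonneg (norm_nonneg _), e]
  calc ‖p m * (p n * (T - μ • 1) * p n) * p m + (μ - φ T) • p m‖
      ≤ ‖p m * (p n * (T - μ • 1) * p n) * p m‖ + ‖(μ - φ T) • p m‖ := norm_add_le _ _
    _ ≤ ‖p m‖ * ‖p n * (T - μ • 1) * p n‖ * ‖p m‖ + ‖μ - φ T‖ * ‖p m‖ := by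
        gcongr
        · exact (norm_mul_le _ _).trans (by gcongr; exact norm_mul_le _ _)
        · exact (norm_smul _ _).le
    _ ≤ 1 * (ε / 3) * 1 + (ε / 3) * 1 := by
        have : ‖μ - φ T‖ ≤ ε / 3 := by rw [norm_sub_rev]; exact hμ
        gcongr
    _ < ε := by linarith

theorem N0_isClosed {p : ℕ → 𝔹} {φ : 𝔹 →ₚ[ℂ] ℂ} (hp : DecProj p) (hφ1 : φ 1 = 1)
    (hφ : ∀ n, φ (p n) = 1) : IsClosed (N0 p φ) := by
  have h := Exc.isClosed_set (a := p) hφ1 (fun j => IsStarProjection.norm_le_one' (hp.proj j))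
  have e : N0 p φ = {x : 𝔹 | Tendsto (fun j => ‖p j * x * p j - φ x • (p j * p j)‖) atTop (𝓝 0)} := by
    ext x
    simp only [N0, Set.mem_ofPred_eq]
    simp only [(hp.proj _).isIdempotentElem.eq]
  rw [e]
  exact h

omit [PartialOrder 𝔹] [StarOrderedRing 𝔹] in
theorem norm_unitary_conj {y q b : 𝔹} (hy : y ∈ unitary 𝔹) (μ : ℂ) :
    ‖q * (star y * b * y - μ • 1) * q‖ = ‖(y * q * star y) * (b - μ • 1) * (y * q * star y)‖ := by
  have h1 : star y * y = 1 := (Unitary.mem_iff.1 hy).1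
  have e : (y * q * star y) * (b - μ • 1) * (y * q * star y)
      = y * (q * (star y * b * y - μ • 1) * q) * star y := by
    have e1 : (y * q * star y) * (b - μ • 1) * (y * q * star y)
      = y * q * (star y * (b - μ • 1) * y) * q * star y := by noncomm_ring
    have e2 : star y * (b - μ • 1) * y = star y * b * y - μ • 1 := by
      rw [mul_sub, sub_mul, mul_smul_comm, mul_one, smul_mul_assoc, h1]
    rw [e1, e2]
    noncomm_ring
  rw [e]
  have h2 : ‖y * (q * (star y * b * y - μ • 1) * q) * star y‖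
      = ‖y * (q * (star y * b * y - μ • 1) * q)‖ :=
    CStarRing.norm_mul_coe_unitary _ (⟨star y, Unitary.star_mem hy⟩ : unitary 𝔹)
  have h3 : ‖y * (q * (star y * b * y - μ • 1) * q)‖ = ‖q * (star y * b * y - μ • 1) * q‖ :=
    CStarRing.norm_coe_unitary_mul (⟨y, hy⟩ : unitary 𝔹) _
  rw [h2, h3]

end Gen

variable {𝔹 : Type} [CStarAlgebra 𝔹] [PartialOrder 𝔹] [StarOrderedRing 𝔹] {X : Type}
variable (M : PP 𝔹 X)

/-- the algebras `B_n` of Step 1 -/
noncomputable def PP.Bn (x : ℕ → X) (S : Set 𝔹) (n : ℕ) : StarSubalgebra ℂ 𝔹 :=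
  cs (S ∪ M.G '' (x '' {i | i < 2 * n}))

variable {M}

theorem PP.Bn_mono (x : ℕ → X) (S : Set 𝔹) {n m : ℕ} (h : n ≤ m) : M.Bn x S n ≤ M.Bn x S m := by
  apply cs_mono
  apply Set.union_subset_union_right
  apply Set.image_mono
  apply Set.image_mono
  intro i hi
  simp only [Set.mem_ofPred_eq] at hi ⊢
  omega

theorem PP.le_Bn (x : ℕ → X) (S : Set 𝔹) (n : ℕ) : cs S ≤ M.Bn x S n :=
  cs_mono Set.subset_union_left

theorem PP.Bn_le (x : ℕ → X) (S : Set 𝔹) (n : ℕ) :
    M.Bn x S n ≤ cs (S ∪ M.G '' Set.range x) := by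
  apply cs_mono
  apply Set.union_subset_union_right
  apply Set.image_mono
  exact Set.image_subset_range _ _

theorem PP.Bn_eq (x : ℕ → X) (S : Set 𝔹) (n : ℕ) :
    M.Bn x S n = cs ((cs S : Set 𝔹) ∪ M.G '' (x '' {i | i < 2 * n})) := by
  apply le_antisymm
  · exact cs_mono (Set.union_subset_union_left _ (subset_cs S))
  · apply cs_le (cs_isClosed _)
    apply Set.union_subset
    · exact M.le_Bn x S n
    · exact Set.subset_union_right.trans (subset_cs _)

theorem PP.Bn_le_U {Y : Set X} (x : ℕ → X) {S : Set 𝔹} (hSU : cs S ≤ M.U Y) (n : ℕ) :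
    M.Bn x S n ≤ M.U (Y ∪ x '' {i | i < 2 * n}) := by
  apply cs_le (M.U_closed _)
  apply Set.union_subset
  · exact (subset_cs S).trans (hSU.trans (M.U_mono _ _ Set.subset_union_left))
  · rintro _ ⟨z, hz, rfl⟩
    exact M.G_mem z _ (Or.inr hz)

theorem PP.Bn_disj {Y : Set X} {x : ℕ → X} (hx : ∀ n, x n ∉ Y) (n : ℕ) :
    Disjoint Y (x '' {i | i < 2 * n}) := by
  rw [Set.disjoint_right]
  rintro _ ⟨i, _, rfl⟩
  exact hx i

theorem PP.Bn_exc {Y : Set X} {x : ℕ → X} (hx : ∀ n, x n ∉ Y)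
    {S : Set 𝔹} (hSU : cs S ≤ M.U Y) (hbase : cs M.base ≤ cs S)
    {ψ : 𝔹 →ₚ[ℂ] ℂ} {a : ℕ → 𝔹} (h : Exc (cs S) ψ a) (n : ℕ) : Exc (M.Bn x S n) ψ a := by
  rw [PP.Bn_eq]
  exact M.typeI (PP.Bn_disj hx n) (cs_isClosed _) hSU hbase h

theorem PP.Bn_perp {Y : Set X} {x : ℕ → X} (hx : ∀ n, x n ∉ Y)
    {S : Set 𝔹} (hSU : cs S ≤ M.U Y) (hbase : cs M.base ≤ cs S)
    {ψ : 𝔹 →ₚ[ℂ] ℂ} {a : ℕ → 𝔹} (h : Exc (cs S) ψ a)
    (hperp : ∀ c ∈ cs S, Tendsto (fun n => sn ψ (M.p n * c)) atTop (𝓝 0)) (n : ℕ) :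
    ∀ c ∈ M.Bn x S n, Tendsto (fun n => sn ψ (M.p n * c)) atTop (𝓝 0) := by
  rw [PP.Bn_eq]
  exact M.typeI_perp (PP.Bn_disj hx n) (cs_isClosed _) hSU hbase h hperp

/-- One step of the construction. -/
theorem PP.step1_step {Y : Set X} {x : ℕ → X} (hinj : Function.Injective x) (hx : ∀ n, x n ∉ Y)
    {S : Set 𝔹} (hSU : cs S ≤ M.U Y) (hbase : cs M.base ≤ cs S)
    {ψ : 𝔹 →ₚ[ℂ] ℂ} {a : ℕ → 𝔹} (h : Exc (cs S) ψ a)
    (hperp : ∀ c ∈ cs S, Tendsto (fun n => sn ψ (M.p n * c)) atTop (𝓝 0)) (n : ℕ)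
    {V : 𝔹} {k : ℕ} (hV : V ∈ M.Bn x S n) (hVu : V ∈ unitary 𝔹)
    (hk : 1 / 2 ≤ (ψ (V * M.p k * star V)).re) (F : Finset 𝔹) (hF : ∀ b ∈ F, b ∈ M.Bn x S n)
    {ε : ℝ} (hε : 0 < ε) :
    ∃ V' k', V' ∈ M.Bn x S (n + 1) ∧ V' ∈ unitary 𝔹 ∧ k < k' ∧
      V' * (1 - M.p k) = V * (1 - M.p k) ∧
      (ψ (V * M.p k * star V)).re - ε ≤ (ψ (V' * M.p k' * star V')).re ∧
      ∀ b ∈ F, ∃ μ : ℂ, ‖M.p k' * (star V' * b * V' - μ • 1) * M.p k'‖ ≤ ε := by
  classical
  have hVV : V * star V = 1 := (Unitary.mem_iff.1 hVu).2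
  have hVV' : star V * V = 1 := (Unitary.mem_iff.1 hVu).1
  have hmemx : ∀ j, 2 * n ≤ j → x j ∉ Y ∪ x '' {i | i < 2 * n} := by
    intro j hj hmem
    rcases hmem with h1 | ⟨i, hi, hij⟩
    · exact hx j h1
    · have := hinj hij
      simp only [Set.mem_ofPred_eq] at hi
      omega
  have hpB : ∀ m, M.p m ∈ M.Bn x S n := fun m => M.le_Bn x S n (hbase (M.p_mem m))
  have hbasic := M.basic (hmemx (2 * n) le_rfl) (hmemx (2 * n + 1) (by omega))
    (fun e => by have := hinj e; omega) (B := M.Bn x S n) (cs_isClosed _)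
    (PP.Bn_le_U x hSU n) (hbase.trans (M.le_Bn x S n))
    ((PP.Bn_exc hx hSU hbase h n).conj_unitary hV hVu)
    (by
      intro c hc
      have := PP.Bn_perp hx hSU hbase h hperp n (c * star V) (mul_mem hc (star_mem hV))
      refine this.congr fun m => ?_
      rw [sn_conj, mul_assoc])
    (k := k) (by simpa using hk) (F.image fun b => star V * b * V)
    (by
      intro b hb
      obtain ⟨c, hc, rfl⟩ := Finset.mem_image.1 hb
      exact mul_mem (mul_mem (star_mem hV) (hF c hc)) hV) hε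
  obtain ⟨m, hm, v, hvmem, hv, hrv, hbd, hFv⟩ := hbasic
  have hq := M.p_dec.proj m
  have hr := M.p_dec.proj k
  have hrq := M.p_dec.mul k m hm.le
  set W := Wu v (M.p m) with hW
  have hWq : W * M.p m = v := Wu_mul_q hq hr hrq hv hrv
  have hWs : star W = W := star_Wu hq
  have hqs : star (M.p m) = M.p m := hq.isSelfAdjoint.star_eq
  have hqq : M.p m * M.p m = M.p m := hq.isIdempotentElem.eq
  have hqW : M.p m * star W = star v := by
    have := congrArg star hWq
    rwa [star_mul, hqs] at this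
  have hWu : W ∈ unitary 𝔹 := Wu_mem_unitary hq hr hrq hv hrv
  have hv' : v ∈ M.Bn x S (n + 1) := by
    have hle : cs ((M.Bn x S n : Set 𝔹) ∪ {M.G (x (2 * n)), M.G (x (2 * n + 1))})
        ≤ M.Bn x S (n + 1) := by
      apply cs_le (cs_isClosed _)
      apply Set.union_subset
      · exact PP.Bn_mono x S (Nat.le_succ n)
      · rintro _ (rfl | rfl)
        · exact subset_cs _ (Or.inr ⟨x (2 * n), ⟨2 * n, by show 2 * n < 2 * (n + 1); omega, rfl⟩, rfl⟩)
        · exact subset_cs _ (Or.inr ⟨x (2 * n + 1),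
            ⟨2 * n + 1, by show 2 * n + 1 < 2 * (n + 1); omega, rfl⟩, rfl⟩)
    exact hle hvmem
  have hWmem : W ∈ M.Bn x S (n + 1) := by
    rw [hW, Wu]
    exact add_mem (add_mem hv' (star_mem hv')) (sub_mem (sub_mem (one_mem _)
      (mul_mem hv' (star_mem hv'))) (PP.Bn_mono x S (Nat.le_succ n) (hpB m)))
  refine ⟨V * W, m, mul_mem (PP.Bn_mono x S (Nat.le_succ n) hV) hWmem, mul_mem hVu hWu, hm, ?_,
    ?_, ?_⟩
  · rw [mul_assoc, Wu_mul_one_sub hq hr hrq hv hrv]
  · have e : V * W * M.p m * star (V * W) = V * (v * star v) * star V := by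
      calc V * W * M.p m * star (V * W) = V * ((W * M.p m) * (M.p m * star W)) * star V := by
            rw [star_mul]
            have : W * M.p m * (M.p m * star W) = W * (M.p m * M.p m) * star W := by
              noncomm_ring
            rw [this, hqq]
            noncomm_ring
        _ = V * (v * star v) * star V := by rw [hWq, hqW]
    rw [e]
    simpa using hbd
  · intro b hb
    obtain ⟨μ, hμ⟩ := hFv _ (Finset.mem_image_of_mem _ hb)
    refine ⟨μ, ?_⟩
    have e : M.p m * (star (V * W) * b * (V * W) - μ • 1) * M.p m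
        = star v * (star V * b * V - μ • 1) * v := by
      have e1 : M.p m * (star (V * W) * b * (V * W)) * M.p m
          = (M.p m * star W) * (star V * b * V) * (W * M.p m) := by
        rw [star_mul]; noncomm_ring
      have e2 : M.p m * (μ • (1 : 𝔹)) * M.p m = μ • (star v * v) := by
        rw [mul_smul_comm, mul_one, smul_mul_assoc, hqq, hv]
      rw [mul_sub, sub_mul, e1, e2, hWq, hqW, mul_sub, sub_mul, mul_smul_comm, mul_one,
        smul_mul_assoc]
    rw [e]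
    exact hμ

variable (M)

theorem PP.step1 {Y : Set X} (x : ℕ → X) (hinj : Function.Injective x) (hx : ∀ n, x n ∉ Y)
    {S : Set 𝔹} (hS : S.Countable) (hSU : cs S ≤ M.U Y) (hbase : cs M.base ≤ cs S)
    {ψ : 𝔹 →ₚ[ℂ] ℂ} {a : ℕ → 𝔹} (h : Exc (cs S) ψ a)
    (hperp : ∀ c ∈ cs S, Tendsto (fun n => sn ψ (M.p n * c)) atTop (𝓝 0)) :
    ∃ y ∈ unitary 𝔹, (∀ n, y * (1 - M.p n) ∈ cs (S ∪ M.G '' Set.range x)) ∧
      (∀ b ∈ cs (S ∪ M.G '' Set.range x), star y * b * y ∈ N0 M.p M.φ) ∧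
      (∀ n, 1 / 2 ≤ (ψ (y * M.p n * star y)).re) := by
  classical
  -- dense sequences
  have hdense : ∀ i : ℕ, ∃ b : ℕ → 𝔹, (∀ j, b j ∈ M.Bn x S i) ∧
      ∀ z ∈ M.Bn x S i, ∀ ε > 0, ∃ j, ‖z - b j‖ < ε := by
    intro i
    apply exists_dense_seq
    apply hS.union
    apply Set.Countable.image
    apply Set.Countable.image
    exact Set.to_countable _
  choose b hbmem hbdense using hdense
  let F : ℕ → Finset 𝔹 := fun n =>
    (Finset.range (n + 1) ×ˢ Finset.range (n + 1)).image fun ij => b ij.1 ij.2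
  have hF : ∀ n, ∀ c ∈ F n, c ∈ M.Bn x S n := by
    intro n c hc
    obtain ⟨ij, hij, rfl⟩ := Finset.mem_image.1 hc
    simp only [Finset.mem_product, Finset.mem_range] at hij
    exact PP.Bn_mono x S (by omega) (hbmem _ _)
  have hstep : ∀ (n : ℕ) (V : 𝔹) (k : ℕ), (V ∈ M.Bn x S n ∧ V ∈ unitary 𝔹 ∧
      1 / 2 + (1 / 2 : ℝ) ^ (n + 1) ≤ (ψ (V * M.p k * star V)).re) →
      ∃ V' k', (V' ∈ M.Bn x S (n + 1) ∧ V' ∈ unitary 𝔹 ∧
        1 / 2 + (1 / 2 : ℝ) ^ (n + 1 + 1) ≤ (ψ (V' * M.p k' * star V')).re) ∧ k < k' ∧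
      V' * (1 - M.p k) = V * (1 - M.p k) ∧
      ∀ c ∈ F n, ∃ μ : ℂ, ‖M.p k' * (star V' * c * V' - μ • 1) * M.p k'‖
        ≤ (1 / 2 : ℝ) ^ (n + 2) := by
    rintro n V k ⟨hV, hVu, hk⟩
    obtain ⟨V', k', h1, h2, h3, h4, h5, h6⟩ := PP.step1_step hinj hx hSU hbase h hperp n hV hVu (k := k)
      (by
        have : (0 : ℝ) < (1 / 2) ^ (n + 1) := by positivity
        linarith) (F n) (hF n) (ε := (1 / 2) ^ (n + 2)) (by positivity)
    refine ⟨V', k', ⟨h1, h2, ?_⟩, h3, h4, h6⟩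
    have e : (1 / 2 : ℝ) ^ (n + 1) = (1 / 2) ^ (n + 2) + (1 / 2) ^ (n + 1 + 1) := by
      rw [pow_succ (1 / 2 : ℝ) (n + 1)]; ring
    linarith
  choose! V' k' hVk using hstep
  let st : ℕ → 𝔹 × ℕ := fun n => Nat.rec (1, 0) (fun n s => (V' n s.1 s.2, k' n s.1 s.2)) n
  have hst0 : st 0 = (1, 0) := rfl
  have hstS : ∀ n, st (n + 1) = (V' n (st n).1 (st n).2, k' n (st n).1 (st n).2) := fun n => rfl
  have hinv : ∀ n, (st n).1 ∈ M.Bn x S n ∧ (st n).1 ∈ unitary 𝔹 ∧
      1 / 2 + (1 / 2 : ℝ) ^ (n + 1) ≤ (ψ ((st n).1 * M.p (st n).2 * star (st n).1)).re := by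
    intro n
    induction n with
    | zero =>
      rw [hst0]
      refine ⟨one_mem _, one_mem _, ?_⟩
      simp only [M.p_zero, star_one, mul_one, h.one]
      norm_num
    | succ n ih =>
      rw [hstS]
      exact (hVk n _ _ ih).1
  let V : ℕ → 𝔹 := fun n => (st n).1
  let k : ℕ → ℕ := fun n => (st n).2
  have hVmem : ∀ n, V n ∈ M.Bn x S n := fun n => (hinv n).1
  have hVu : ∀ n, V n ∈ unitary 𝔹 := fun n => (hinv n).2.1
  have hVψ : ∀ n, 1 / 2 ≤ (ψ (V n * M.p (k n) * star (V n))).re := fun n => by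
    have := (hinv n).2.2
    have h0 : (0 : ℝ) < (1 / 2) ^ (n + 1) := by positivity
    show 1 / 2 ≤ (ψ ((st n).1 * M.p (st n).2 * star (st n).1)).re
    linarith
  have hkmono : StrictMono k := strictMono_nat_of_lt_succ fun n => by
    show (st n).2 < (st (n + 1)).2
    rw [hstS]
    exact (hVk n _ _ (hinv n)).2.1
  have hVsucc : ∀ n, V (n + 1) * (1 - M.p (k n)) = V n * (1 - M.p (k n)) := fun n => by
    show (st (n + 1)).1 * (1 - M.p (st n).2) = (st n).1 * (1 - M.p (st n).2)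
    rw [hstS]
    exact (hVk n _ _ (hinv n)).2.2.1
  have hVF : ∀ n, ∀ c ∈ F n, ∃ μ : ℂ,
      ‖M.p (k (n + 1)) * (star (V (n + 1)) * c * V (n + 1) - μ • 1) * M.p (k (n + 1))‖
        ≤ (1 / 2 : ℝ) ^ (n + 2) := fun n => by
    show ∀ c ∈ F n, ∃ μ : ℂ, ‖M.p (st (n + 1)).2 * (star (st (n + 1)).1 * c * (st (n + 1)).1
      - μ • 1) * M.p (st (n + 1)).2‖ ≤ (1 / 2 : ℝ) ^ (n + 2)
    rw [hstS]
    exact (hVk n _ _ (hinv n)).2.2.2
  obtain ⟨y, hyu, hy⟩ := M.lim V k hkmono hVu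
    (fun n => M.U_mono _ _ (Set.subset_univ _) (PP.Bn_le_U x hSU n (hVmem n))) hVsucc
  have hyy : y * star y = 1 := (Unitary.mem_iff.1 hyu).2
  have hkle : ∀ n, n ≤ k n := hkmono.id_le
  have hsp : ∀ n, star (M.p n) = M.p n := fun n => (M.p_dec.proj n).isSelfAdjoint.star_eq
  have hpp : ∀ n, M.p n * M.p n = M.p n := fun n => (M.p_dec.proj n).isIdempotentElem.eq
  -- `y p_{k n} y* = V_n p_{k n} V_n*`
  have he : ∀ n, y * M.p (k n) * star y = V n * M.p (k n) * star (V n) := by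
    intro n
    have hVV : V n * star (V n) = 1 := (Unitary.mem_iff.1 (hVu n)).2
    have key : ∀ z : 𝔹, z * star z = 1 → z * M.p (k n) * star z
        = 1 - (z * (1 - M.p (k n))) * star (z * (1 - M.p (k n))) := by
      intro z hz
      have h1 : (1 - M.p (k n)) * (1 - M.p (k n)) = 1 - M.p (k n) := by
        rw [mul_sub, sub_mul, sub_mul, hpp]
        simp
      have h2 : star (1 - M.p (k n)) = 1 - M.p (k n) := by simp [hsp]
      calc z * M.p (k n) * star z = z * star z - z * (1 - M.p (k n)) * star z := by noncomm_ring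
        _ = 1 - z * ((1 - M.p (k n)) * (1 - M.p (k n))) * star z := by rw [hz, h1]
        _ = _ := by rw [star_mul, h2]; noncomm_ring
    rw [key y hyy, key (V n) hVV, hy n]
  refine ⟨y, hyu, ?_, ?_, ?_⟩
  · intro n
    have hnk := hkle n
    have e : (1 - M.p (k n)) * (1 - M.p n) = 1 - M.p n := by
      have : M.p (k n) * M.p n = M.p (k n) := by
        have := congrArg star (M.p_dec.mul n (k n) hnk)
        simpa [hsp] using this
      rw [mul_sub, mul_one, sub_mul, this]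
      simp
    have e2 : y * (1 - M.p n) = V n * (1 - M.p n) := by
      calc y * (1 - M.p n) = y * (1 - M.p (k n)) * (1 - M.p n) := by rw [mul_assoc, e]
        _ = V n * (1 - M.p (k n)) * (1 - M.p n) := by rw [hy n]
        _ = V n * (1 - M.p n) := by rw [mul_assoc, e]
    rw [e2]
    apply PP.Bn_le x S n
    exact mul_mem (hVmem n) (sub_mem (one_mem _) (M.le_Bn x S n (hbase (M.p_mem n))))
  · -- approximate scalars
    have hU : S ∪ M.G '' Set.range x = ⋃ n : ℕ, (S ∪ M.G '' (x '' {i | i < 2 * n})) := by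
      ext z
      simp only [Set.mem_union, Set.mem_image, Set.mem_range, Set.mem_iUnion, Set.mem_ofPred_eq]
      constructor
      · rintro (hz | ⟨_, ⟨i, rfl⟩, rfl⟩)
        · exact ⟨0, Or.inl hz⟩
        · exact ⟨i + 1, Or.inr ⟨x i, ⟨i, by omega, rfl⟩, rfl⟩⟩
      · rintro ⟨n, hz | ⟨_, ⟨i, _, rfl⟩, rfl⟩⟩
        · exact Or.inl hz
        · exact Or.inr ⟨x i, ⟨i, rfl⟩, rfl⟩
    rw [hU]
    have hclosed : IsClosed {c : 𝔹 | star y * c * y ∈ N0 M.p M.φ} :=
      (N0_isClosed M.p_dec M.φ_one M.φ_p).preimage (by fun_prop)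
    refine mem_of_directed (W := {c : 𝔹 | star y * c * y ∈ N0 M.p M.φ}) ?_ hclosed ?_
    · intro i j
      refine ⟨max i j, ?_, ?_⟩ <;>
      · apply Set.union_subset_union_right
        apply Set.image_mono
        apply Set.image_mono
        intro l hl
        simp only [Set.mem_ofPred_eq] at hl ⊢
        omega
    · intro i c hc
      apply N0_of_approx M.p_dec M.φ_one M.φ_p
      intro ε hε
      obtain ⟨j, hj⟩ := hbdense i c hc (ε / 2) (by positivity)
      obtain ⟨N, hN⟩ := exists_pow_lt_of_lt_one (show (0 : ℝ) < ε / 2 by positivity)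
        (show (1 / 2 : ℝ) < 1 by norm_num)
      let n := max N (max i j)
      have hcF : b i j ∈ F n := by
        apply Finset.mem_image.2
        refine ⟨(i, j), ?_, rfl⟩
        simp only [Finset.mem_product, Finset.mem_range]
        constructor <;> omega
      obtain ⟨μ, hμ⟩ := hVF n (b i j) hcF
      refine ⟨μ, k (n + 1), ?_⟩
      rw [norm_unitary_conj hyu, he (n + 1), ← norm_unitary_conj (hVu (n + 1))]
      have e : M.p (k (n + 1)) * (star (V (n + 1)) * c * V (n + 1) - μ • 1) * M.p (k (n + 1))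
          = M.p (k (n + 1)) * (star (V (n + 1)) * b i j * V (n + 1) - μ • 1) * M.p (k (n + 1))
          + (M.p (k (n + 1)) * star (V (n + 1))) * (c - b i j) * (V (n + 1) * M.p (k (n + 1))) := by
        noncomm_ring
      rw [e]
      have hVn : ‖V (n + 1)‖ ≤ 1 := norm_unitary_le_one (hVu (n + 1))
      have hpn := IsStarProjection.norm_le_one' (M.p_dec.proj (k (n + 1)))
      calc _ ≤ ‖M.p (k (n + 1)) * (star (V (n + 1)) * b i j * V (n + 1) - μ • 1)
              * M.p (k (n + 1))‖ + ‖(M.p (k (n + 1)) * star (V (n + 1))) * (c - b i j)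
              * (V (n + 1) * M.p (k (n + 1)))‖ := norm_add_le _ _
        _ ≤ (1 / 2 : ℝ) ^ (n + 2) + (1 * 1) * ‖c - b i j‖ * (1 * 1) := by
            gcongr
            refine (norm_mul_le _ _).trans ?_
            gcongr
            · refine (norm_mul_le _ _).trans ?_
              gcongr
              refine (norm_mul_le _ _).trans ?_
              rw [norm_star]
              gcongr
            · refine (norm_mul_le _ _).trans ?_
              gcongr
        _ ≤ ε / 2 + ε / 2 := by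
            have h1 : (1 / 2 : ℝ) ^ (n + 2) ≤ (1 / 2) ^ N :=
              pow_le_pow_of_le_one (by norm_num) (by norm_num) (by omega)
            have := hj.le
            have := hN.le
            linarith
        _ = ε := by ring
  · intro n
    have hnk := hkle n
    have hle := M.p_dec.le hnk
    have h1 : y * M.p (k n) * star y ≤ y * M.p n * star y := star_right_conjugate_le_conjugate hle y
    have h2 : ψ (y * M.p (k n) * star y) ≤ ψ (y * M.p n * star y) := OrderHomClass.mono ψ h1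
    have h3 := (Complex.le_def.1 h2).1
    rw [he n] at h3
    exact (hVψ n).trans h3

end Crest.Agent.R120
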