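import Crest.Agent.R120.Simple
import Crest.Agent.R120.Index
import Crest.Agent.R120.Step1

set_option autoImplicit false

namespace Crest.Agent.R120

open scoped ComplexOrder
open Filter Topology

/-- decreasing sequences of projections converge strongly -/
theorem decProj_lim {H : Type} [NormedAddCommGroup H] [InnerProductSpace ℂ H] [CompleteSpace H]
    {q : ℕ → H →L[ℂ] H} (hq : DecProj q) (ξ : H) :
    ∃ ζ : H, Tendsto (fun n => q n ξ) atTop (𝓝 ζ) ∧ ∀ n, q n ζ = ζ := by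
  have hself : ∀ n, star (q n) = q n := fun n => (hq.proj n).isSelfAdjoint
  have hidem : ∀ n, q n * q n = q n := fun n => (hq.proj n).isIdempotentElem
  have hadj : ∀ n (x y : H), inner ℂ (q n x) y = inner ℂ x (q n y) := by
    intro n x y
    have := ContinuousLinearMap.adjoint_inner_right (q n) x y
    rw [← ContinuousLinearMap.star_eq_adjoint, hself] at this
    exact this.symm
  have hmul : ∀ n m, n ≤ m → ∀ x : H, q n (q m x) = q m x := by
    intro n m h x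
    have := hq.mul n m h
    exact congrArg (fun T : H →L[ℂ] H => T x) this
  have key : ∀ n m, n ≤ m → ‖q n ξ - q m ξ‖ ^ 2 = ‖q n ξ‖ ^ 2 - ‖q m ξ‖ ^ 2 := by
    intro n m h
    have h1 : inner ℂ (q n ξ) (q m ξ) = ((‖q m ξ‖ : ℂ)) ^ 2 := by
      rw [hadj, hmul n m h]
      have h2 : inner ℂ (q m ξ) (q m ξ) = inner ℂ ξ (q m ξ) := by
        rw [hadj, hmul m m le_rfl]
      rw [← h2, inner_self_eq_norm_sq_to_K]
      rfl
    rw [@norm_sub_sq ℂ, h1]
    have : RCLike.re (((‖q m ξ‖ : ℂ)) ^ 2) = ‖q m ξ‖ ^ 2 := by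
      norm_cast
    rw [this]; ring
  have hanti : Antitone (fun n => ‖q n ξ‖ ^ 2) := by
    intro n m h
    have := key n m h
    have h2 := sq_nonneg ‖q n ξ - q m ξ‖
    simp only
    linarith
  have hbdd : BddBelow (Set.range (fun n => ‖q n ξ‖ ^ 2)) := ⟨0, by
    rintro _ ⟨n, rfl⟩; positivity⟩
  have hlim := tendsto_atTop_ciInf hanti hbdd
  set L := ⨅ n, ‖q n ξ‖ ^ 2
  have hL : ∀ n, L ≤ ‖q n ξ‖ ^ 2 := fun n => ciInf_le hbdd n
  have hC : CauchySeq (fun n => q n ξ) := by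
    rw [Metric.cauchySeq_iff']
    intro ε hε
    have : ∀ᶠ n in atTop, ‖q n ξ‖ ^ 2 < L + ε ^ 2 :=
      (tendsto_order.1 hlim).2 _ (by linarith [pow_pos hε 2])
    obtain ⟨N, hN⟩ := this.exists
    refine ⟨N, fun n hn => ?_⟩
    rw [dist_eq_norm, ← norm_neg, neg_sub]
    have h1 := key N n hn
    have h2 : ‖q N ξ - q n ξ‖ ^ 2 < ε ^ 2 := by
      rw [h1]; linarith [hL n]
    exact lt_of_pow_lt_pow_left₀ 2 hε.le h2
  obtain ⟨ζ, hζ⟩ := cauchySeq_tendsto_of_complete hC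
  refine ⟨ζ, hζ, fun n => ?_⟩
  have h1 : Tendsto (fun m => q n (q m ξ)) atTop (𝓝 (q n ζ)) :=
    ((q n).continuous.tendsto ζ).comp hζ
  have h2 : Tendsto (fun m => q n (q m ξ)) atTop (𝓝 ζ) := by
    refine hζ.congr' ?_
    filter_upwards [eventually_ge_atTop n] with m hm
    exact (hmul n m hm ξ).symm
  exact tendsto_nhds_unique h1 h2


theorem irrep_excision' {A : Type} [CStarAlgebra A] {H : Type} [NormedAddCommGroup H]
    [InnerProductSpace ℂ H] [CompleteSpace H] {π : A →⋆ₙₐ[ℂ] (H →L[ℂ] H)}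
    (hπ : Crest.OpAlg.IsIrreducibleRep π) {ξ : H} (hξ : ‖ξ‖ = 1) (F : Finset A)
    {ε : ℝ} (hε : 0 < ε) :
    ∃ a : A, (∃ s, a = star s * s) ∧ (∃ s, 1 - a = star s * s) ∧
      1 - ε ≤ (inner ℂ ξ (π a ξ)).re ∧
      ∀ b ∈ F, ‖a * (b - inner ℂ ξ (π b ξ) • 1) * a‖ ≤ ε := by
  let _ : PartialOrder A := CStarAlgebra.spectralOrder _
  let _ : StarOrderedRing A := CStarAlgebra.spectralOrderedRing _
  obtain ⟨a, ha0, ha1, ha2, ha3⟩ := irrep_excision hπ hξ F hε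
  exact ⟨a, CStarAlgebra.nonneg_iff_eq_star_mul_self.1 ha0,
    CStarAlgebra.nonneg_iff_eq_star_mul_self.1 (sub_nonneg.2 ha1), ha2, ha3⟩

section rep

variable {𝔹 : Type} [CStarAlgebra 𝔹] [PartialOrder 𝔹] [StarOrderedRing 𝔹]
variable {H : Type} [NormedAddCommGroup H] [InnerProductSpace ℂ H] [CompleteSpace H]

theorem sn_eq_of_vector {B : StarSubalgebra ℂ 𝔹} [IsClosed (B : Set 𝔹)]
    {π : B →⋆ₙₐ[ℂ] (H →L[ℂ] H)} {ψ : 𝔹 →ₚ[ℂ] ℂ} {ξ : H}
    (hψ : ∀ b : B, ψ (b : 𝔹) = inner ℂ ξ (π b ξ)) (T : B) : sn ψ (T : 𝔹) = ‖π T ξ‖ := by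
  have h1 := sn_sq ψ (T : 𝔹)
  have h2 : (star (T : 𝔹) * (T : 𝔹)) = ((star T * T : B) : 𝔹) := by push_cast; rfl
  rw [h2, hψ, map_mul, map_star] at h1
  have h3 : inner ℂ ξ ((star (π T) * π T) ξ) = inner ℂ (π T ξ) (π T ξ) := by
    rw [ContinuousLinearMap.star_eq_adjoint]
    exact ContinuousLinearMap.adjoint_inner_right (π T) ξ (π T ξ)
  rw [h3, inner_self_eq_norm_sq_to_K] at h1
  have h4 : (((‖π T ξ‖ : ℂ)) ^ 2).re = ‖π T ξ‖ ^ 2 := by norm_cast
  have h5 : sn ψ (T : 𝔹) ^ 2 = ‖π T ξ‖ ^ 2 := by rw [h1]; exact h4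
  exact (sq_eq_sq₀ (sn_nonneg ψ _) (norm_nonneg _)).1 h5

omit [PartialOrder 𝔹] [StarOrderedRing 𝔹] in
theorem decProj_map {B : StarSubalgebra ℂ 𝔹} [IsClosed (B : Set 𝔹)]
    (π : B →⋆ₙₐ[ℂ] (H →L[ℂ] H)) {p : ℕ → 𝔹} (hp : DecProj p) (hm : ∀ n, p n ∈ B) :
    DecProj (fun n => π ⟨p n, hm n⟩) := by
  constructor
  · intro n
    have h : IsStarProjection (⟨p n, hm n⟩ : B) := by
      refine ⟨?_, ?_⟩
      · exact Subtype.ext (hp.proj n).isIdempotentElem
      · exact Subtype.ext (hp.proj n).isSelfAdjoint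
    refine ⟨?_, ?_⟩
    · have := h.isIdempotentElem
      unfold IsIdempotentElem at *
      rw [← map_mul, this]
    · have := h.isSelfAdjoint
      unfold IsSelfAdjoint at *
      rw [← map_star, this]
  · intro n m h
    rw [← map_mul]
    congr 1
    exact Subtype.ext (hp.mul n m h)

end rep


variable {𝔹 : Type} [CStarAlgebra 𝔹] [PartialOrder 𝔹] [StarOrderedRing 𝔹] {X : Type}
variable {M : PP 𝔹 X} {I : Type} [LinearOrder I] [WellFoundedLT I] (Sg : Sys M I)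

theorem Sys.A_mono {K L : Set I} (h : K ⊆ L) : Sg.A K ≤ Sg.A L :=
  cs_mono (Set.union_subset_union_right _ (Set.image_mono h))

theorem Sys.p_mem (L : Set I) (n : ℕ) : M.p n ∈ Sg.A L :=
  cs_mono Set.subset_union_left (M.p_mem n)

theorem Sys.u_mem {L : Set I} {i : I} (hi : i ∈ L) : Sg.u i ∈ Sg.A L :=
  subset_cs _ (Or.inr ⟨i, hi, rfl⟩)

theorem exists_unit_of_irrep {A : Type} [NonUnitalCStarAlgebra A] {H : Type}
    [NormedAddCommGroup H] [InnerProductSpace ℂ H] [CompleteSpace H]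
    {π : A →⋆ₙₐ[ℂ] (H →L[ℂ] H)} (hπ : Crest.OpAlg.IsIrreducibleRep π) : ∃ ξ : H, ‖ξ‖ = 1 := by
  by_contra hno
  push Not at hno
  have h0 : ∀ ξ : H, ξ = 0 := by
    intro ξ
    by_contra hξ
    have hn : ‖ξ‖ ≠ 0 := norm_ne_zero_iff.2 hξ
    apply hno (((‖ξ‖ : ℂ))⁻¹ • ξ)
    rw [norm_smul, norm_inv, Complex.norm_real, norm_norm, inv_mul_cancel₀ hn]
  apply hπ.1
  ext a ξ
  rw [h0 ξ]
  simp

omit [PartialOrder 𝔹] [StarOrderedRing 𝔹] in
theorem decProj_conj {p : ℕ → 𝔹} (hp : DecProj p) {y : 𝔹} (hy : star y * y = 1) :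
    DecProj (fun n => y * p n * star y) := by
  have hpsa : ∀ n, star (p n) = p n := fun n => (hp.proj n).isSelfAdjoint
  have hpid : ∀ n, p n * p n = p n := fun n => (hp.proj n).isIdempotentElem
  have key : ∀ n m, (y * p n * star y) * (y * p m * star y) = y * (p n * p m) * star y := by
    intro n m
    calc (y * p n * star y) * (y * p m * star y) = y * p n * (star y * y) * p m * star y := by
          noncomm_ring
      _ = _ := by rw [hy]; noncomm_ring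
  constructor
  · intro n
    refine ⟨?_, ?_⟩
    · unfold IsIdempotentElem
      rw [key, hpid]
    · unfold IsSelfAdjoint
      rw [star_mul, star_mul, star_star, hpsa]
      noncomm_ring
  · intro n m h
    rw [key, hp.mul n m h]

/-- every irreducible representation of the big algebra contains a `φ`-vector -/
theorem Sys.exists_fixed [Uncountable X]
    (hrich : ∀ (c : ℕ → I) (ψ : 𝔹 →ₚ[ℂ] ℂ), ∃ i : I, Sg.ch i = Set.range c ∧
      ((∃ y, M.ValidAt Sg.u Sg.ch i y ∧ ∃ δ > 0, ∀ n, δ ≤ (ψ (y * M.p n * star y)).re) →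
        Sg.valid i ∧ ∃ δ > 0, ∀ n, δ ≤ (ψ (Sg.u i * M.p n * star (Sg.u i))).re))
    [IsClosed (Sg.A Set.univ : Set 𝔹)]
    {H : Type} [NormedAddCommGroup H] [InnerProductSpace ℂ H] [CompleteSpace H]
    {π : (Sg.A Set.univ) →⋆ₙₐ[ℂ] (H →L[ℂ] H)} (hπ : Crest.OpAlg.IsIrreducibleRep π) :
    ∃ ζ : H, ‖ζ‖ = 1 ∧ ∀ (n : ℕ) (h : M.p n ∈ Sg.A Set.univ), π ⟨M.p n, h⟩ ζ = ζ := by
  by_contra hno
  have hπ1 : π 1 = 1 := irrep_one hπ
  have hpm : ∀ n, M.p n ∈ Sg.A Set.univ := Sg.p_mem Set.univ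
  have hq := decProj_map π M.p_dec hpm
  -- all vectors are killed in the limit
  have hzero : ∀ ξ : H, Tendsto (fun n => π ⟨M.p n, hpm n⟩ ξ) atTop (𝓝 0) := by
    intro ξ
    obtain ⟨ζ, hζ, hfix⟩ := decProj_lim hq ξ
    by_cases h0 : ζ = 0
    · rwa [h0] at hζ
    · exfalso
      apply hno
      have hn : ‖ζ‖ ≠ 0 := norm_ne_zero_iff.2 h0
      refine ⟨((‖ζ‖ : ℂ))⁻¹ • ζ, ?_, fun n h => ?_⟩
      · rw [norm_smul, norm_inv, Complex.norm_real, norm_norm, inv_mul_cancel₀ hn]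
      · rw [map_smul, hfix n]
  obtain ⟨ξ, hξ⟩ := exists_unit_of_irrep hπ
  obtain ⟨ψ, hψ1, hψ⟩ := exists_state_ext (Sg.A Set.univ) hπ1 hξ
  have hsn : ∀ T : Sg.A Set.univ, sn ψ (T : 𝔹) = ‖π T ξ‖ := sn_eq_of_vector hψ
  -- reflection
  obtain ⟨T, -, hTc, hTcl, a, ha⟩ := Sg.reflect (ψ := ψ) hψ1 (by
    intro F hF ε hε
    classical
    obtain ⟨a, ⟨s, hs⟩, ⟨s', hs'⟩, ha2, ha3⟩ := irrep_excision' hπ hξ
      (F.subtype (· ∈ Sg.A Set.univ)) hε
    refine ⟨a, a.2, ?_, ?_, ?_, ?_⟩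
    · rw [hs]
      exact star_mul_self_nonneg (s : 𝔹)
    · have : ((1 - a : Sg.A Set.univ) : 𝔹) = star (s' : 𝔹) * (s' : 𝔹) := by rw [hs']; push_cast; rfl
      have h2 : (0 : 𝔹) ≤ 1 - (a : 𝔹) := by
        have h3 : ((1 - a : Sg.A Set.univ) : 𝔹) = 1 - (a : 𝔹) := by push_cast; rfl
        rw [← h3, this]
        exact star_mul_self_nonneg _
      exact sub_nonneg.1 h2
    · rw [hψ]; exact ha2
    · intro b hb
      have := ha3 ⟨b, hF b hb⟩ (by simpa using hb)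
      rw [← hψ] at this
      exact this) (S := ∅) Set.countable_empty
  have hTU : T ⊆ Set.univ := Set.subset_univ T
  have hcluniv : IsCl Sg.ch Set.univ := fun i _ => Set.subset_univ _
  have haU : Exc (Sg.A Set.univ) ψ a := Sg.R1 hTcl hcluniv hTU ha
  -- fresh generators
  obtain ⟨x, hxinj, hxT⟩ : ∃ x : ℕ → X, Function.Injective x ∧ ∀ n, x n ∉ Sg.X' T := by
    have hXT : (Sg.X' T).Countable := by
      exact hTc.preimage Sg.gen_inj
    have hinf : (Sg.X' T)ᶜ.Infinite := by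
      intro hfin
      have : (Set.univ : Set X).Countable := by
        rw [← Set.union_compl_self (Sg.X' T)]
        exact hXT.union hfin.countable
      exact Set.not_countable_univ this
    have := hinf.to_subtype
    obtain ⟨f⟩ : Nonempty (ℕ ↪ ↥((Sg.X' T)ᶜ)) := ⟨Infinite.natEmbedding _⟩
    exact ⟨fun n => (f n : X), fun n m h => f.injective (Subtype.ext h), fun n => (f n).2⟩
  -- enumerate
  set T' : Set I := T ∪ Set.range (fun n => Sg.gen (x n)) with hT'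
  have hT'c : T'.Countable := hTc.union (Set.countable_range _)
  have hT'n : T'.Nonempty := ⟨Sg.gen (x 0), Or.inr ⟨0, rfl⟩⟩
  obtain ⟨c, hc⟩ := hT'c.exists_eq_range hT'n
  obtain ⟨i, hchi, hi⟩ := hrich c ψ
  rw [← hc] at hchi
  have hcli : IsCl Sg.ch (Sg.ch i) := by
    rw [hchi]
    rintro j (hj | ⟨n, rfl⟩)
    · exact (hTcl j hj).trans Set.subset_union_left
    · simp only [Sg.ch_gen]; exact Set.empty_subset _
  have hclt : IsCl Sg.ch {j | j < i} := fun j hj k hk => lt_trans (Sg.ch_lt j k hk) hj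
  have hchlt : Sg.ch i ⊆ {j | j < i} := fun j hj => Sg.ch_lt i j hj
  -- step 1
  have hperp : ∀ c ∈ Sg.A T, Tendsto (fun n => sn ψ (M.p n * c)) atTop (𝓝 0) := by
    intro c hc
    have hcU : c ∈ Sg.A Set.univ := Sg.A_mono hTU hc
    have : ∀ n, sn ψ (M.p n * c) = ‖π ⟨M.p n, hpm n⟩ (π ⟨c, hcU⟩ ξ)‖ := by
      intro n
      have := hsn (⟨M.p n, hpm n⟩ * ⟨c, hcU⟩)
      rw [map_mul] at this
      exact this
    simp_rw [this]
    exact (tendsto_zero_iff_norm_tendsto_zero).1 (hzero _)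
  have halg : cs ((M.base ∪ Sg.u '' T) ∪ M.G '' Set.range x) = M.alg Sg.u (Sg.ch i) := by
    unfold PP.alg
    rw [hchi, hT', Set.image_union, ← Set.range_comp, ← Set.union_assoc]
    congr 2
    rw [← Set.range_comp]
    congr 1
    ext n
    exact (Sg.u_gen (x n)).symm
  obtain ⟨y, hyu, hya, hyb, hyd⟩ := M.step1 (Y := Sg.X' T) x hxinj hxT
    (S := M.base ∪ Sg.u '' T) (M.base_countable.union (hTc.image _)) (Sg.A_le_U hTcl)
    (cs_mono Set.subset_union_left) (ψ := ψ) (a := a) ha hperp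
  rw [halg] at hya hyb
  have hyy : y * star y = 1 := (Unitary.mem_iff.1 hyu).2
  have hyy' : star y * y = 1 := (Unitary.mem_iff.1 hyu).1
  have hpsa : ∀ n, star (M.p n) = M.p n := fun n => (M.p_dec.proj n).isSelfAdjoint
  have hpid : ∀ n, M.p n * M.p n = M.p n := fun n => (M.p_dec.proj n).isIdempotentElem
  set e : ℕ → 𝔹 := fun n => y * M.p n * star y with he_def
  have hedec : DecProj e := decProj_conj M.p_dec hyy'
  have hemem : ∀ n, e n ∈ Sg.A (Sg.ch i) := by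
    intro n
    have h1 : e n = 1 - (y * (1 - M.p n)) * star (y * (1 - M.p n)) := by
      simp only [he_def, star_mul, star_sub, star_one, hpsa]
      have : y * (1 - M.p n) * ((1 - M.p n) * star y) =
          y * star y - y * M.p n * star y - y * M.p n * star y + y * (M.p n * M.p n) * star y := by
        noncomm_ring
      rw [this, hpid, hyy]
      noncomm_ring
    rw [h1]
    exact sub_mem (one_mem _) (mul_mem (hya n) (star_mem (hya n)))
  have hemU : ∀ n, e n ∈ Sg.A Set.univ := fun n => Sg.A_mono (Set.subset_univ _) (hemem n)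
  have he : Exc (Sg.A (Sg.ch i)) (R120.conj M.φ y) e :=
    exc_of_N0 M.p_dec M.φ_one M.φ_p hyu hemem hyb
  have heU : Exc (Sg.A {j | j < i}) (R120.conj M.φ y) e := Sg.R1 hcli hclt hchlt he
  have hqe := decProj_map π hedec hemU
  obtain ⟨ζ, hζ, hζfix⟩ := decProj_lim hqe ξ
  have hζ0 : ζ ≠ 0 := by
    intro h0
    rw [h0] at hζ
    have h1 := (tendsto_zero_iff_norm_tendsto_zero).1 hζ
    have h2 : ∀ n, 1 / 2 ≤ ‖π ⟨e n, hemU n⟩ ξ‖ ^ 2 := by
      intro n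
      have h3 := hsn ⟨e n, hemU n⟩
      rw [← h3, sn_proj_sq ψ (hedec.proj n)]
      exact hyd n
    have h3 := ge_of_tendsto' (h1.pow 2) h2
    norm_num at h3
  have hn : ‖ζ‖ ≠ 0 := norm_ne_zero_iff.2 hζ0
  obtain ⟨ψ', hψ'1, hψ'⟩ := exists_state_ext (Sg.A Set.univ) hπ1
    (ξ := ((‖ζ‖ : ℂ))⁻¹ • ζ)
    (by rw [norm_smul, norm_inv, Complex.norm_real, norm_norm, inv_mul_cancel₀ hn])
  have hsn' : ∀ T : Sg.A Set.univ, sn ψ' (T : 𝔹) = ‖π T (((‖ζ‖ : ℂ))⁻¹ • ζ)‖ :=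
    sn_eq_of_vector hψ'
  have hψ'e : ∀ n, ψ' (e n) = 1 := by
    intro n
    have h3 := hψ' ⟨e n, hemU n⟩
    have h4 : π ⟨e n, hemU n⟩ ((‖ζ‖ : ℂ)⁻¹ • ζ) = (‖ζ‖ : ℂ)⁻¹ • ζ := by
      rw [map_smul, hζfix n]
    rw [h4, inner_self_eq_norm_sq_to_K, norm_smul, norm_inv, Complex.norm_real, norm_norm,
      inv_mul_cancel₀ hn] at h3
    simpa using h3
  have heq : ∀ b ∈ Sg.A {j | j < i}, ψ' b = R120.conj M.φ y b :=
    heU.eq_of_tendsto hψ'1 (by simp_rw [hψ'e]; exact tendsto_const_nhds)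
  have hvc : ∀ b ∈ M.alg Sg.u {j | j < i}, b * y ∈ C0 M.p := by
    intro b hb
    have hbU : b ∈ Sg.A Set.univ := Sg.A_mono (Set.subset_univ _) hb
    have hsb : Tendsto (fun m => sn (R120.conj M.φ y) (M.p m * b)) atTop (𝓝 0) := by
      have h5 : ∀ m, sn (R120.conj M.φ y) (M.p m * b) =
          ‖π ⟨M.p m, hpm m⟩ (π ⟨b, hbU⟩ (((‖ζ‖ : ℂ))⁻¹ • ζ))‖ := by
        intro m
        have h6 := hsn' (⟨M.p m, hpm m⟩ * ⟨b, hbU⟩)
        rw [map_mul] at h6
        have h7 : sn (R120.conj M.φ y) (M.p m * b) = sn ψ' (M.p m * b) := by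
          have h8 := sn_sq (R120.conj M.φ y) (M.p m * b)
          have h9 := sn_sq ψ' (M.p m * b)
          have hmem : star (M.p m * b) * (M.p m * b) ∈ Sg.A {j | j < i} :=
            mul_mem (star_mem (mul_mem (Sg.p_mem _ m) hb)) (mul_mem (Sg.p_mem _ m) hb)
          rw [← heq _ hmem, ← h9] at h8
          exact (sq_eq_sq₀ (sn_nonneg _ _) (sn_nonneg _ _)).1 h8
        rw [h7]
        exact h6
      simp_rw [h5]
      exact (tendsto_zero_iff_norm_tendsto_zero).1 (hzero _)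
    unfold C0
    rw [Set.mem_ofPred_eq, Metric.tendsto_atTop]
    intro ε hε
    obtain ⟨m, hm⟩ := ((tendsto_order.1 hsb).2 ε hε).exists
    have h1 := heU.norm_mul_tendsto (mul_mem (Sg.p_mem _ m) hb)
    obtain ⟨N, hN⟩ := eventually_atTop.1 ((tendsto_order.1 h1).2 ε hm)
    refine ⟨max N m, fun n hn => ?_⟩
    rw [dist_zero_right, norm_norm]
    have h2 : M.p n * (b * y) * M.p n = M.p n * (M.p m * b * e n) * y := by
      have h3 : e n * y = y * M.p n := by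
        simp only [he_def]
        rw [mul_assoc, hyy', mul_one]
      have h4 : M.p n * M.p m = M.p n := by
        have := M.p_dec.mul m n (le_trans (le_max_right _ _) hn)
        have h5 := congrArg star this
        rwa [star_mul, hpsa, hpsa] at h5
      calc M.p n * (b * y) * M.p n = M.p n * b * (y * M.p n) := by noncomm_ring
        _ = (M.p n * M.p m) * b * (e n * y) := by rw [h3, h4]
        _ = _ := by noncomm_ring
    rw [h2]
    rw [CStarRing.norm_mul_mem_unitary _ hyu]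
    calc ‖M.p n * (M.p m * b * e n)‖ ≤ ‖M.p n‖ * ‖M.p m * b * e n‖ := norm_mul_le _ _
      _ ≤ 1 * ‖M.p m * b * e n‖ := by
          gcongr
          exact (M.p_dec.proj n).norm_le
      _ = ‖M.p m * b * e n‖ := by ring
      _ < ε := hN n (le_trans (le_max_left _ _) hn)
  obtain ⟨hval, δ, hδ, hδn⟩ := hi ⟨y, ⟨hcli, hyu, hya, hyb, hvc⟩, 1 / 2, by norm_num, hyd⟩
  -- contradiction
  have huU : Sg.u i ∈ Sg.A Set.univ := Sg.u_mem (Set.mem_univ _)
  have h1 : ∀ n, δ ≤ ‖π ⟨M.p n, hpm n⟩ (π (star ⟨Sg.u i, huU⟩) ξ)‖ ^ 2 := by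
    intro n
    have h2 := hsn (⟨M.p n, hpm n⟩ * star ⟨Sg.u i, huU⟩)
    rw [map_mul] at h2
    have h3 : ((⟨M.p n, hpm n⟩ * star ⟨Sg.u i, huU⟩ : Sg.A Set.univ) : 𝔹) =
      M.p n * star (Sg.u i) := rfl
    rw [h3] at h2
    have h4 := sn_sq ψ (M.p n * star (Sg.u i))
    rw [star_mul, star_star, hpsa] at h4
    have h5 : Sg.u i * M.p n * (M.p n * star (Sg.u i)) = Sg.u i * M.p n * star (Sg.u i) := by
      calc _ = Sg.u i * (M.p n * M.p n) * star (Sg.u i) := by noncomm_ring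
        _ = _ := by rw [hpid]
    rw [h5, h2] at h4
    have h6 := hδn n
    rw [← h4] at h6
    exact h6
  have h2 := (tendsto_zero_iff_norm_tendsto_zero).1 (hzero (π (star ⟨Sg.u i, huU⟩) ξ))
  have h3 := ge_of_tendsto' (h2.pow 2) h1
  norm_num at h3
  linarith


/-- the abstract version of the final theorem -/
theorem main_of_PP [Uncountable X] (M : PP 𝔹 X) (hinf : ¬ FiniteDimensional ℂ (cs M.base)) :
    ∃ (A : Type) (_ : CStarAlgebra A),
      ¬ FiniteDimensional ℂ A ∧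
      (∀ I : TwoSidedIdeal A, IsClosed (I : Set A) → I = ⊥ ∨ I = ⊤) ∧
      (∃ τ : A →ₗ[ℂ] ℂ, Crest.OpAlg.IsFaithfulTracialState τ) ∧
      ∀ (H₁ : Type) [NormedAddCommGroup H₁] [InnerProductSpace ℂ H₁] [CompleteSpace H₁]
        (H₂ : Type) [NormedAddCommGroup H₂] [InnerProductSpace ℂ H₂] [CompleteSpace H₂]
        (π₁ : A →⋆ₙₐ[ℂ] (H₁ →L[ℂ] H₁)) (π₂ : A →⋆ₙₐ[ℂ] (H₂ →L[ℂ] H₂)),
        Crest.OpAlg.IsIrreducibleRep π₁ → Crest.OpAlg.IsIrreducibleRep π₂ →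
          Crest.OpAlg.AreUnitarilyEquivalent π₁ π₂ := by
  obtain ⟨I, _, _, Sg, hrich⟩ := exists_sys M
  have hcl : IsClosed (Sg.A Set.univ : Set 𝔹) := cs_isClosed _
  have hclU : IsCl Sg.ch Set.univ := fun i _ => Set.subset_univ _
  have hAU : Sg.A Set.univ ≤ M.U Set.univ :=
    (Sg.A_le_U hclU).trans (M.U_mono _ _ (Set.subset_univ _))
  refine ⟨Sg.A Set.univ, inferInstance, ?_, ?_, ?_, ?_⟩
  · intro hfin
    apply hinf
    have hle : cs M.base ≤ Sg.A Set.univ := cs_mono Set.subset_union_left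
    exact FiniteDimensional.of_injective
      (StarSubalgebra.inclusion hle).toAlgHom.toLinearMap (Set.inclusion_injective hle)
  · intro J hJ
    exact Sg.simple J hJ
  · refine ⟨M.τ.toLinearMap ∘ₗ (Sg.A Set.univ).toSubalgebra.val.toLinearMap, ?_, ?_, ?_, ?_⟩
    · exact M.τ_one
    · intro a
      have h : (0 : ℂ) ≤ M.τ (star (a : 𝔹) * a) := by
        have := OrderHomClass.mono M.τ (star_mul_self_nonneg (a : 𝔹))
        simpa using this
      have h2 := Complex.le_def.1 h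
      exact ⟨h2.2.symm, h2.1⟩
    · intro a ha
      exact Subtype.ext (M.τ_faithful a (hAU a.2) ha)
    · intro a b
      exact M.τ_comm a b (hAU a.2) (hAU b.2)
  · intro H₁ _ _ _ H₂ _ _ _ π₁ π₂ h₁ h₂
    obtain ⟨ζ₁, hζ₁, hf₁⟩ := Sg.exists_fixed hrich h₁
    obtain ⟨ζ₂, hζ₂, hf₂⟩ := Sg.exists_fixed hrich h₂
    have hexc : Exc (Sg.A Set.univ) (R120.conj M.φ 1) (fun n => 1 * M.p n * star 1) := by
      refine exc_of_N0 M.p_dec M.φ_one M.φ_p (one_mem _) ?_ ?_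
      · intro n; rw [star_one, one_mul, mul_one]; exact Sg.p_mem _ n
      · intro b hb
        rw [star_one, one_mul, mul_one]
        exact Sg.A_N0 hclU b hb
    have key : ∀ (H : Type) [NormedAddCommGroup H] [InnerProductSpace ℂ H] [CompleteSpace H]
        (π : Sg.A Set.univ →⋆ₙₐ[ℂ] (H →L[ℂ] H)), Crest.OpAlg.IsIrreducibleRep π → ∀ ζ : H,
        ‖ζ‖ = 1 → (∀ (n : ℕ) (h : M.p n ∈ Sg.A Set.univ), π ⟨M.p n, h⟩ ζ = ζ) →
        ∀ a : Sg.A Set.univ, inner ℂ ζ (π a ζ) = R120.conj M.φ 1 (a : 𝔹) := by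
      intro H _ _ _ π hπ ζ hζ hf a
      obtain ⟨ψ, hψ1, hψ⟩ := exists_state_ext (Sg.A Set.univ) (irrep_one hπ) hζ
      rw [← hψ]
      refine hexc.eq_of_tendsto hψ1 ?_ a a.2
      have : ∀ n, ψ (1 * M.p n * star 1) = 1 := by
        intro n
        rw [star_one, one_mul, mul_one]
        have h3 := hψ ⟨M.p n, Sg.p_mem _ n⟩
        rw [hf, inner_self_eq_norm_sq_to_K, hζ] at h3
        simpa using h3
      simp_rw [this]
      exact tendsto_const_nhds
    refine unitarilyEquivalent_of_states h₁ h₂ hζ₁ hζ₂ fun a => ?_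
    rw [key H₁ π₁ h₁ ζ₁ hζ₁ hf₁, key H₂ π₂ h₂ ζ₂ hζ₂ hf₂]

end Crest.Agent.R120
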