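import Crest.Agent.R120.ModelLim
import Crest.Agent.R120.ExistsPPG

/-!
# The concrete model (blueprint section 0)
-/

set_option autoImplicit false

namespace Crest.Agent.R120

open scoped ComplexOrder
open Filter Topology

/-- The ping-pong structure of the concrete model. -/
noncomputable def PPG.toPP {Γ : Type} [Group Γ] {X : Type} (D : PPG Γ X) : PP (BB Γ) X where
  base := D.base
  p := pn D.k
  G x := lam (D.g x)
  P x := prj (D.W x)
  U Y := UU (D.L Y)
  τ := tau
  φ := D.phi
  U_closed Y := UU_isClosed _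
  U_mono Y Z h := UU_mono (D.L_mono Y Z h)
  base_mem := by
    rintro _ ⟨n, rfl⟩
    exact lam_mem_UU (D.k_mem n ∅)
  G_mem x Y h := lam_mem_UU (D.g_mem x Y h)
  G_sa x := by
    rw [star_lam, inv_eq_iff_mul_eq_one.2 (D.g_sq x)]
  G_sq x := by
    rw [← lam_mul, D.g_sq, lam_one]
  P_proj x := prj_isStarProjection _
  P_ne x := prj_ne_zero (D.W_nonempty x)
  P_orth x x' h := prj_mul_prj_of_disjoint (D.W_disjoint h)
  G_eq x := D.G_eq x
  PTP_same Y x T hx hT := D.PTP_same Y x T hx hT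
  PTP_ne Y x x' T hx hx' hne hT := D.PTP_ne Y x x' T hx hx' hne hT
  τ_one := tau_one
  τ_comm S T hS hT := tau_comm (UU_mono le_top hS) (UU_mono le_top hT)
  τ_faithful T hT h := tau_faithful (UU_mono le_top hT) h
  base_countable := D.base_countable
  p_dec := D.decProj_pn
  p_zero := rfl
  p_mem n := (D.nice_pn n).cs
  τ_p n := (D.nice_pn n).tr
  φ_one := D.phi_one
  φ_p n := D.phi_pn n
  base_N0 := D.base_N0
  halving ψ hψ n := by
    obtain ⟨z, hz, hz'⟩ := D.halving ψ hψ n
    exact ⟨z, hz.cs, hz.proj, hz', hz.tr⟩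
  lim V k hk hu hU hV := D.exists_lim hk hu hU hV
  sc Y y h := D.mem_of_forall_mem h

theorem exists_model : ∃ (H : Type) (_ : NormedAddCommGroup H) (_ : InnerProductSpace ℂ H)
    (_ : CompleteSpace H) (M : PP (H →L[ℂ] H) ℝ), ¬ FiniteDimensional ℂ (cs M.base) := by
  obtain ⟨Γ, hΓ, ⟨D⟩⟩ := exists_ppg ℝ
  exact ⟨HH Γ, inferInstance, inferInstance, inferInstance, D.toPP, D.not_finiteDimensional⟩

end Crest.Agent.R120
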