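import Crest.Agent.R120.State

/-!
# The concrete model: definitions and interface (blueprint section 0)

* `PPG Γ X` : abstract ping-pong data in a group `Γ` (constructed in `ModelGroup.lean`);
* `HH Γ = ℓ²(Γ)`, its basis `dl`, matrix coefficients `coef`, left translations `lam`,
  coordinate projections `prj W`, the algebras `UU Λ`, the trace `tau`, the projections `pn k n`
  (lemmas in `ModelOps.lean`, limits in `ModelLim.lean`).
-/

set_option autoImplicit false

namespace Crest.Agent.R120

open scoped ComplexOrder InnerProductSpace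
open Filter Topology

/-- Abstract ping-pong data in a group: `k n` are the commuting involutions, `g x` the free
involutions, `W x` the reduced words starting with `g x`, `L Y` the subgroup generated by the
`k n` and the `g y`, `y ∈ Y`. -/
structure PPG (Γ : Type) [Group Γ] (X : Type) where
  k : ℕ → Γ
  g : X → Γ
  W : X → Set Γ
  L : Set X → Subgroup Γ
  k_sq : ∀ n, k n * k n = 1
  k_comm : ∀ m n, k m * k n = k n * k m
  k_indep : ∀ n, k n ∉ Subgroup.closure (k '' {i | i < n})
  g_sq : ∀ x, g x * g x = 1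
  k_mem : ∀ n Y, k n ∈ L Y
  g_mem : ∀ x Y, x ∈ Y → g x ∈ L Y
  L_mono : ∀ Y Z, Y ⊆ Z → L Y ≤ L Z
  g_iff : ∀ x γ, g x * γ ∈ W x ↔ γ ∉ W x
  ping : ∀ (Y : Set X) (x x' : X) (l γ : Γ), x ∉ Y → x' ∉ Y → l ∈ L Y → γ ∈ W x' →
    l * γ ∈ W x → l = 1 ∧ x = x'

section ops

/-- `ℓ²(Γ)` -/
abbrev HH (Γ : Type) : Type := lp (fun _ : Γ => ℂ) 2

/-- bounded operators on `ℓ²(Γ)` -/
abbrev BB (Γ : Type) : Type := HH Γ →L[ℂ] HH Γ

/-- The standard Hilbert basis. -/
noncomputable def bs (Γ : Type) : HilbertBasis Γ ℂ (HH Γ) := ⟨LinearIsometryEquiv.refl ℂ (HH Γ)⟩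

/-- The basis vector `δ_a`. -/
noncomputable def dl {Γ : Type} (a : Γ) : HH Γ := bs Γ a

/-- matrix coefficients -/
noncomputable def coef {Γ : Type} (T : BB Γ) (a b : Γ) : ℂ := ⟪dl a, T (dl b)⟫_ℂ

/-- the orthogonal projection onto `ℓ²(W)` -/
noncomputable def prj {Γ : Type} (W : Set Γ) : BB Γ :=
  (Submodule.span ℂ (dl '' W)).topologicalClosure.starProjection

section noGroup

variable {Γ : Type}

theorem orthonormal_dl : Orthonormal ℂ (dl : Γ → HH Γ) := (bs Γ).orthonormal

theorem prj_dl_mem {W : Set Γ} {a : Γ} (h : a ∈ W) : prj W (dl a) = dl a := by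
  unfold prj
  rw [Submodule.starProjection_eq_self_iff]
  exact Submodule.le_topologicalClosure _ (Submodule.subset_span ⟨a, h, rfl⟩)

theorem prj_dl_notMem {W : Set Γ} {a : Γ} (h : a ∉ W) : prj W (dl a) = 0 := by
  unfold prj
  rw [Submodule.starProjection_apply_eq_zero_iff]
  rw [Submodule.orthogonal_closure]
  rw [Submodule.mem_orthogonal]
  intro u hu
  induction hu using Submodule.span_induction with
  | mem x hx =>
    obtain ⟨b, hb, rfl⟩ := hx
    exact orthonormal_dl.inner_eq_zero (by rintro rfl; exact h hb)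
  | zero => simp
  | add x y _ _ hx hy => simp [inner_add_left, hx, hy]
  | smul c x _ hx => simp [inner_smul_left, hx]

theorem ext_dl {v w : HH Γ} (h : ∀ a, ⟪dl a, v⟫_ℂ = ⟪dl a, w⟫_ℂ) : v = w := by
  apply (bs Γ).repr.injective
  ext a
  rw [(bs Γ).repr_apply_apply, (bs Γ).repr_apply_apply]
  exact h a

theorem ext_on_dl {S T : BB Γ} (h : ∀ a, S (dl a) = T (dl a)) : S = T := by
  have hd := (bs Γ).dense_span
  apply ContinuousLinearMap.ext_on (s := Set.range (bs Γ))
  · rw [← Submodule.dense_iff_topologicalClosure_eq_top] at hd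
    exact hd
  · rintro _ ⟨a, rfl⟩
    exact h a

theorem ext_coef {S T : BB Γ} (h : ∀ a b, coef S a b = coef T a b) : S = T :=
  ext_on_dl fun b => ext_dl fun a => h a b

theorem coef_add (S T : BB Γ) (a b : Γ) : coef (S + T) a b = coef S a b + coef T a b := by
  simp [coef]

theorem coef_smul (c : ℂ) (T : BB Γ) (a b : Γ) : coef (c • T) a b = c * coef T a b := by
  simp [coef]

theorem coef_sub (S T : BB Γ) (a b : Γ) : coef (S - T) a b = coef S a b - coef T a b := by
  simp [coef]

theorem coef_star (T : BB Γ) (a b : Γ) : coef (star T) a b = star (coef T b a) := by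
  simp only [coef, ContinuousLinearMap.star_eq_adjoint, ContinuousLinearMap.adjoint_inner_right]
  exact (inner_conj_symm _ _).symm

theorem hasSum_coef_mul (S T : BB Γ) (a b : Γ) :
    HasSum (fun c => coef S a c * coef T c b) (coef (S * T) a b) := by
  have h := (bs Γ).hasSum_inner_mul_inner (star S (dl a)) (T (dl b))
  have e : ∀ v : HH Γ, ⟪(star S) (dl a), v⟫_ℂ = ⟪dl a, S v⟫_ℂ := by
    intro v
    rw [ContinuousLinearMap.star_eq_adjoint, ContinuousLinearMap.adjoint_inner_left]
  simp only [e] at h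
  exact h

theorem norm_dl (a : Γ) : ‖(dl a : HH Γ)‖ = 1 := orthonormal_dl.1 a

theorem norm_coef_le (T : BB Γ) (a b : Γ) : ‖coef T a b‖ ≤ ‖T‖ := by
  calc ‖coef T a b‖ ≤ ‖dl a‖ * ‖T (dl b)‖ := norm_inner_le_norm _ _
    _ = ‖T (dl b)‖ := by rw [norm_dl, one_mul]
    _ ≤ ‖T‖ * ‖dl b‖ := T.le_opNorm _
    _ = ‖T‖ := by rw [norm_dl, mul_one]

open Classical in
theorem coef_one (a b : Γ) : coef (1 : BB Γ) a b = if a = b then 1 else 0 := by
  simp only [coef, one_apply_eq_self]
  exact orthonormal_iff_ite.1 orthonormal_dl a b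

end noGroup

variable {Γ : Type} [Group Γ]

theorem orthonormal_dl_mul (g : Γ) : Orthonormal ℂ (fun a : Γ => (dl (g * a) : HH Γ)) :=
  orthonormal_dl.comp _ (mul_right_injective g)

theorem dense_dl_mul (g : Γ) :
    ⊤ ≤ (Submodule.span ℂ (Set.range (fun a : Γ => (dl (g * a) : HH Γ)))).topologicalClosure := by
  have h : Set.range (fun a : Γ => (dl (g * a) : HH Γ)) = Set.range (dl : Γ → HH Γ) := by
    ext v
    constructor
    · rintro ⟨a, rfl⟩; exact ⟨g * a, rfl⟩
    · rintro ⟨a, rfl⟩; exact ⟨g⁻¹ * a, by simp⟩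
  rw [h]
  exact (bs Γ).dense_span.ge

/-- left translation as a unitary -/
noncomputable def lamE (g : Γ) : HH Γ ≃ₗᵢ[ℂ] HH Γ :=
  (bs Γ).repr.trans (HilbertBasis.mk (orthonormal_dl_mul g) (dense_dl_mul g)).repr.symm

/-- left translation: `lam g (dl a) = dl (g * a)` -/
noncomputable def lam (g : Γ) : BB Γ := (lamE g : HH Γ →L[ℂ] HH Γ)

theorem lam_dl (g a : Γ) : lam g (dl a) = dl (g * a) := by
  classical
  simp only [lam, lamE, dl]
  show (HilbertBasis.mk (orthonormal_dl_mul g) (dense_dl_mul g)).repr.symm ((bs Γ).repr (bs Γ a)) = _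
  rw [HilbertBasis.repr_self, HilbertBasis.repr_symm_single, HilbertBasis.coe_mk]
  rfl

open Classical in
theorem coef_lam (g a b : Γ) : coef (lam g) a b = if a = g * b then 1 else 0 := by
  simp only [coef, lam_dl]
  exact orthonormal_iff_ite.1 orthonormal_dl a (g * b)

/-- The algebra of operators commuting with right translations (`coef T (a*g) (b*g) = coef T a b`)
and with the projection on `ℓ²(L)` (`coef T a b = 0` unless `a * b⁻¹ ∈ L`). -/
noncomputable def UU (L : Subgroup Γ) : StarSubalgebra ℂ (BB Γ) where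
  carrier := {T | (∀ a b g, coef T (a * g) (b * g) = coef T a b) ∧
    ∀ a b, a * b⁻¹ ∉ L → coef T a b = 0}
  mul_mem' := by
    rintro S T ⟨hS1, hS2⟩ ⟨hT1, hT2⟩
    constructor
    · intro a b g
      have h1 := hasSum_coef_mul S T (a * g) (b * g)
      have h2 := hasSum_coef_mul S T a b
      rw [← (Equiv.mulRight g).hasSum_iff] at h1
      refine h1.unique ?_
      convert h2 using 1
      ext c
      simp only [Function.comp, Equiv.coe_mulRight, hS1, hT1]
    · intro a b hab
      have h2 := hasSum_coef_mul S T a b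
      refine h2.unique ?_
      convert hasSum_zero using 1
      ext c
      by_cases hc : a * c⁻¹ ∈ L
      · have : c * b⁻¹ ∉ L := by
          intro hcb
          apply hab
          have := L.mul_mem hc hcb
          simpa [mul_assoc] using this
        rw [hT2 _ _ this, mul_zero]
      · rw [hS2 _ _ hc, zero_mul]
  add_mem' := by
    rintro S T ⟨hS1, hS2⟩ ⟨hT1, hT2⟩
    constructor
    · intro a b g
      rw [coef_add, coef_add, hS1, hT1]
    · intro a b hab
      rw [coef_add, hS2 _ _ hab, hT2 _ _ hab, add_zero]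
  algebraMap_mem' := by
    intro r
    have : (algebraMap ℂ (BB Γ)) r = r • 1 := Algebra.algebraMap_eq_smul_one r
    rw [this]
    classical
    constructor
    · intro a b g
      rw [coef_smul, coef_smul, coef_one, coef_one]
      simp
    · intro a b hab
      rw [coef_smul, coef_one]
      rw [if_neg, mul_zero]
      rintro rfl
      exact hab (by simp [L.one_mem])
  star_mem' := by
    rintro T ⟨hT1, hT2⟩
    constructor
    · intro a b g
      rw [coef_star, coef_star, hT1]
    · intro a b hab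
      rw [coef_star, hT2, star_zero]
      intro h
      apply hab
      have := L.inv_mem h
      simpa using this

theorem mem_UU {L : Subgroup Γ} {T : BB Γ} : T ∈ UU L ↔
    (∀ a b g, coef T (a * g) (b * g) = coef T a b) ∧ ∀ a b, a * b⁻¹ ∉ L → coef T a b = 0 :=
  Iff.rfl

/-- a vector state (not necessarily normalised) -/
noncomputable def vst (ξ : HH Γ) : BB Γ →ₚ[ℂ] ℂ where
  toFun T := ⟪ξ, T ξ⟫_ℂ
  map_add' S T := by simp
  map_smul' c T := by simp
  monotone' S T h := by
    have h' := (ContinuousLinearMap.le_def _ _).1 h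
    have h2 := h'.inner_nonneg_right ξ
    simp only [sub_apply, inner_sub_right] at h2
    exact sub_nonneg.1 h2

/-- the trace -/
noncomputable def tau : BB Γ →ₚ[ℂ] ℂ := vst (dl (1 : Γ))

theorem tau_eq (T : BB Γ) : tau T = coef T 1 1 := rfl

omit [Group Γ] in
theorem vst_apply (ξ : HH Γ) (T : BB Γ) : vst ξ T = ⟪ξ, T ξ⟫_ℂ := rfl

/-- the projections `p_n = ∏_{i<n} (1 + λ(k_i))/2` -/
noncomputable def pn (k : ℕ → Γ) : ℕ → BB Γ
  | 0 => 1
  | n + 1 => pn k n * ((1 / 2 : ℂ) • (1 + lam (k n)))

end ops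

end Crest.Agent.R120
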