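import Crest.Agent.R120.Defs

/-!
# Toolbox: seminorms of positive functionals, generated C⋆-subalgebras
-/

set_option autoImplicit false

namespace Crest.Agent.R120

open scoped ComplexOrder
open Filter Topology

section cs

variable {𝔹 : Type} [CStarAlgebra 𝔹]

theorem cs_isClosed (S : Set 𝔹) : IsClosed (cs S : Set 𝔹) :=
  StarSubalgebra.isClosed_topologicalClosure _

theorem subset_cs (S : Set 𝔹) : S ⊆ (cs S : Set 𝔹) :=
  (StarAlgebra.subset_adjoin ℂ S).trans (StarSubalgebra.le_topologicalClosure _)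

theorem cs_le {S : Set 𝔹} {B : StarSubalgebra ℂ 𝔹} (hB : IsClosed (B : Set 𝔹))
    (h : S ⊆ (B : Set 𝔹)) : cs S ≤ B :=
  StarSubalgebra.topologicalClosure_minimal (StarAlgebra.adjoin_le h) hB

theorem cs_mono {S T : Set 𝔹} (h : S ⊆ T) : cs S ≤ cs T :=
  StarSubalgebra.topologicalClosure_mono (StarAlgebra.adjoin_mono h)

theorem cs_self {B : StarSubalgebra ℂ 𝔹} (hB : IsClosed (B : Set 𝔹)) : cs (B : Set 𝔹) = B :=
  le_antisymm (cs_le hB subset_rfl) (fun _ hx => subset_cs _ hx)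

/-- Algebraic version. -/
theorem adjoin_subset_of_left_stable {S : Set 𝔹} {W : Set 𝔹}
    (hadd : ∀ x ∈ W, ∀ y ∈ W, x + y ∈ W) (hsmul : ∀ (c : ℂ), ∀ x ∈ W, c • x ∈ W)
    (h1 : (1 : 𝔹) ∈ W) (hs : ∀ s ∈ S, ∀ x ∈ W, s * x ∈ W)
    (hs' : ∀ s ∈ S, ∀ x ∈ W, star s * x ∈ W) :
    (StarAlgebra.adjoin ℂ S : Set 𝔹) ⊆ W := by
  intro x hx
  have h0 : (0 : 𝔹) ∈ W := by simpa using hsmul 0 1 h1
  let W' : Submodule ℂ 𝔹 :=
    { carrier := W
      add_mem' := fun {a b} ha hb => hadd a ha b hb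
      zero_mem' := h0
      smul_mem' := fun c x hx => hsmul c x hx }
  have hx' : x ∈ Submodule.span ℂ (Submonoid.closure (S ∪ star S) : Set 𝔹) := by
    have := StarAlgebra.adjoin_eq_span (R := ℂ) S
    rw [← this]
    exact hx
  have hle : Submodule.span ℂ (Submonoid.closure (S ∪ star S) : Set 𝔹) ≤ W' := by
    rw [Submodule.span_le]
    intro z hz
    induction hz using Submonoid.closure_induction_left with
    | one => exact h1
    | mul_left s hs0 y _ ih =>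
      rcases hs0 with hs0 | hs0
      · exact hs s hs0 y ih
      · have h5 := hs' (star s) hs0 y ih
        rw [star_star] at h5
        exact h5
  exact hle hx'

/-- A closed linear subspace containing `1` and stable under left multiplication by the
generators and their adjoints contains the generated C⋆-algebra. -/
theorem mem_of_left_stable {S : Set 𝔹} {W : Set 𝔹} (hW : IsClosed W)
    (hadd : ∀ x ∈ W, ∀ y ∈ W, x + y ∈ W) (hsmul : ∀ (c : ℂ), ∀ x ∈ W, c • x ∈ W)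
    (h1 : (1 : 𝔹) ∈ W) (hs : ∀ s ∈ S, ∀ x ∈ W, s * x ∈ W)
    (hs' : ∀ s ∈ S, ∀ x ∈ W, star s * x ∈ W) : ∀ x ∈ cs S, x ∈ W := by
  intro x hx
  have hx' : x ∈ closure (StarAlgebra.adjoin ℂ S : Set 𝔹) := by
    rw [← StarSubalgebra.topologicalClosure_coe]
    exact hx
  exact closure_minimal (adjoin_subset_of_left_stable hadd hsmul h1 hs hs') hW hx'

/-- Same for a not necessarily closed subspace: it is dense in the generated C⋆-algebra. -/
theorem exists_near_of_left_stable {S : Set 𝔹} {W : Set 𝔹}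
    (hadd : ∀ x ∈ W, ∀ y ∈ W, x + y ∈ W) (hsmul : ∀ (c : ℂ), ∀ x ∈ W, c • x ∈ W)
    (h1 : (1 : 𝔹) ∈ W) (hs : ∀ s ∈ S, ∀ x ∈ W, s * x ∈ W)
    (hs' : ∀ s ∈ S, ∀ x ∈ W, star s * x ∈ W) : ∀ x ∈ cs S, ∀ ε > 0, ∃ w ∈ W, ‖x - w‖ < ε := by
  intro x hx ε hε
  have hx' : x ∈ closure (StarAlgebra.adjoin ℂ S : Set 𝔹) := by
    rw [← StarSubalgebra.topologicalClosure_coe]
    exact hx
  obtain ⟨w, hw, hd⟩ := Metric.mem_closure_iff.1 hx' ε hε
  exact ⟨w, adjoin_subset_of_left_stable hadd hsmul h1 hs hs' hw, by rwa [← dist_eq_norm]⟩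

/-- Directed unions. -/
theorem mem_of_directed {ι : Type*} [Nonempty ι] {S : ι → Set 𝔹} (hdir : Directed (· ⊆ ·) S)
    {W : Set 𝔹} (hW : IsClosed W) (h : ∀ i, ∀ x ∈ cs (S i), x ∈ W) :
    ∀ x ∈ cs (⋃ i, S i), x ∈ W := by
  intro x hx
  have hx' : x ∈ closure (StarAlgebra.adjoin ℂ (⋃ i, S i) : Set 𝔹) := by
    rw [← StarSubalgebra.topologicalClosure_coe]
    exact hx
  have key : ∀ y ∈ StarAlgebra.adjoin ℂ (⋃ i, S i), ∃ i, y ∈ cs (S i) := by
    intro y hy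
    induction hy using StarAlgebra.adjoin_induction with
    | mem z hz =>
      obtain ⟨i, hi⟩ := Set.mem_iUnion.1 hz
      exact ⟨i, subset_cs _ hi⟩
    | algebraMap r => exact ⟨Classical.arbitrary ι, algebraMap_mem _ r⟩
    | add a b _ _ ha hb =>
      obtain ⟨i, hi⟩ := ha
      obtain ⟨j, hj⟩ := hb
      obtain ⟨k, hik, hjk⟩ := hdir i j
      exact ⟨k, add_mem (cs_mono hik hi) (cs_mono hjk hj)⟩
    | mul a b _ _ ha hb =>
      obtain ⟨i, hi⟩ := ha
      obtain ⟨j, hj⟩ := hb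
      obtain ⟨k, hik, hjk⟩ := hdir i j
      exact ⟨k, mul_mem (cs_mono hik hi) (cs_mono hjk hj)⟩
    | star a _ ha =>
      obtain ⟨i, hi⟩ := ha
      exact ⟨i, star_mem hi⟩
  refine closure_minimal ?_ hW hx'
  intro y hy
  obtain ⟨i, hi⟩ := key y hy
  exact h i y hi

/-- A countably generated C⋆-algebra has a dense sequence. -/
theorem exists_dense_seq {S : Set 𝔹} (hS : S.Countable) :
    ∃ b : ℕ → 𝔹, (∀ n, b n ∈ cs S) ∧ ∀ x ∈ cs S, ∀ ε > 0, ∃ n, ‖x - b n‖ < ε := by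
  have h1 : (Submonoid.closure (S ∪ star S) : Set 𝔹).Countable := by
    have : (S ∪ star S).Countable := by
      refine hS.union ?_
      have : star S = star '' S := by simp
      rw [this]
      exact hS.image _
    have h6 : Countable (S ∪ star S : Set 𝔹) := this.to_subtype
    rw [Submonoid.closure_eq_mrange]
    have h7 : Countable (FreeMonoid (S ∪ star S : Set 𝔹)) :=
      inferInstanceAs (Countable (List (S ∪ star S : Set 𝔹)))
    exact Set.countable_range _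
  have h2 : TopologicalSpace.IsSeparable (cs S : Set 𝔹) := by
    have h3 : TopologicalSpace.IsSeparable
        (Submodule.span ℂ (Submonoid.closure (S ∪ star S) : Set 𝔹) : Set 𝔹) :=
      h1.isSeparable.span
    have h4 : (cs S : Set 𝔹) = closure
        (Submodule.span ℂ (Submonoid.closure (S ∪ star S) : Set 𝔹) : Set 𝔹) := by
      have := StarAlgebra.adjoin_eq_span (R := ℂ) S
      rw [← this]
      rfl
    rw [h4]
    exact h3.closure
  have : Nonempty (cs S) := ⟨⟨1, one_mem _⟩⟩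
  have : TopologicalSpace.SeparableSpace (cs S) := h2.separableSpace
  refine ⟨fun n => (TopologicalSpace.denseSeq (cs S) n : 𝔹), fun n => SetLike.coe_mem _, ?_⟩
  intro x hx ε hε
  obtain ⟨n, hn⟩ := (TopologicalSpace.denseRange_denseSeq (cs S)).exists_dist_lt ⟨x, hx⟩ hε
  refine ⟨n, ?_⟩
  have : dist (⟨x, hx⟩ : cs S) (TopologicalSpace.denseSeq (cs S) n)
    = ‖x - (TopologicalSpace.denseSeq (cs S) n : 𝔹)‖ := by
    rw [Subtype.dist_eq, dist_eq_norm]
  rw [← this]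
  exact hn

end cs

variable {𝔹 : Type} [CStarAlgebra 𝔹] [PartialOrder 𝔹] [StarOrderedRing 𝔹]
variable (ψ : 𝔹 →ₚ[ℂ] ℂ)

theorem sn_nonneg (T : 𝔹) : 0 ≤ sn ψ T := norm_nonneg _

theorem sn_sq (T : 𝔹) : (sn ψ T) ^ 2 = (ψ (star T * T)).re := by
  have := ψ.preGNS_norm_sq (ψ.toPreGNS T)
  have h2 := congrArg Complex.re this
  simp only [PositiveLinearMap.ofPreGNS_toPreGNS] at h2
  rw [← h2]
  unfold sn
  norm_cast

theorem sn_zero : sn ψ 0 = 0 := by simp [sn]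

theorem sn_neg (T : 𝔹) : sn ψ (-T) = sn ψ T := by simp [sn]

theorem sn_add_le (S T : 𝔹) : sn ψ (S + T) ≤ sn ψ S + sn ψ T := by
  unfold sn
  rw [map_add]
  exact norm_add_le _ _

theorem sn_sub_le (S T : 𝔹) : sn ψ (S - T) ≤ sn ψ S + sn ψ T := by
  unfold sn
  rw [map_sub]
  exact norm_sub_le _ _

theorem abs_sn_sub_sn_le (S T : 𝔹) : |sn ψ S - sn ψ T| ≤ sn ψ (S - T) := by
  unfold sn
  rw [map_sub]
  exact abs_norm_sub_norm_le _ _

theorem sn_smul (c : ℂ) (T : 𝔹) : sn ψ (c • T) = ‖c‖ * sn ψ T := by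
  unfold sn
  rw [map_smul, norm_smul]

theorem sn_mul_le (S T : 𝔹) : sn ψ (S * T) ≤ ‖S‖ * sn ψ T := by
  have h := (ψ.leftMulMapPreGNS S).le_opNorm (ψ.toPreGNS T)
  have h2 : ‖ψ.leftMulMapPreGNS S‖ ≤ ‖S‖ :=
    LinearMap.mkContinuous_norm_le _ (norm_nonneg _) _
  calc sn ψ (S * T) = ‖ψ.leftMulMapPreGNS S (ψ.toPreGNS T)‖ := by
        simp [sn]
    _ ≤ ‖ψ.leftMulMapPreGNS S‖ * ‖ψ.toPreGNS T‖ := h
    _ ≤ ‖S‖ * sn ψ T := by
        unfold sn
        gcongr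

theorem norm_star_mul_le (S T : 𝔹) : ‖ψ (star S * T)‖ ≤ sn ψ S * sn ψ T := by
  have h := norm_inner_le_norm (𝕜 := ℂ) (ψ.toPreGNS S) (ψ.toPreGNS T)
  rw [ψ.preGNS_inner_def] at h
  simpa [sn] using h

theorem sn_one (h : ψ 1 = 1) : sn ψ 1 = 1 := by
  have h2 := sn_sq ψ 1
  simp [h] at h2
  have := sn_nonneg ψ 1
  rcases h2 with h2 | h2
  · exact h2
  · linarith

theorem sn_le_norm (h : ψ 1 = 1) (T : 𝔹) : sn ψ T ≤ ‖T‖ := by
  have := sn_mul_le ψ T 1
  rwa [mul_one, sn_one ψ h, mul_one] at this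

theorem norm_apply_le_sn (h : ψ 1 = 1) (T : 𝔹) : ‖ψ T‖ ≤ sn ψ T := by
  have := norm_star_mul_le ψ 1 T
  rwa [star_one, one_mul, sn_one ψ h, one_mul] at this

theorem norm_apply_le (h : ψ 1 = 1) (T : 𝔹) : ‖ψ T‖ ≤ ‖T‖ :=
  (norm_apply_le_sn ψ h T).trans (sn_le_norm ψ h T)

theorem apply_star (T : 𝔹) : ψ (star T) = star (ψ T) := by
  exact map_star ψ T

/-- for a positive contraction, `ψ((1-a)²) ≤ 1 - ψ(a)` -/
theorem sn_one_sub_sq_le (h : ψ 1 = 1) {a : 𝔹} (h0 : 0 ≤ a) (h1 : a ≤ 1) :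
    (sn ψ (1 - a)) ^ 2 ≤ 1 - (ψ a).re := by
  rw [sn_sq]
  have ha : star a = a := (IsSelfAdjoint.of_nonneg h0).star_eq
  have hb0 : 0 ≤ 1 - a := sub_nonneg.2 h1
  have hb1 : 1 - a ≤ 1 := by simpa using h0
  have hsq : star (1 - a) * (1 - a) ≤ 1 - a := by
    have hn : ‖1 - a‖ ≤ 1 := (CStarAlgebra.norm_le_one_iff_of_nonneg (1 - a)).2 hb1
    have : (1 - a) * (1 - a) ≤ 1 - a := by
      have := CStarAlgebra.pow_antitone hb0 hb1 (show 1 ≤ 2 by norm_num)
      simpa [pow_two] using this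
    simpa [ha] using this
  have := OrderHomClass.mono ψ hsq
  have h3 : (ψ (star (1 - a) * (1 - a))).re ≤ (ψ (1 - a)).re :=
    (Complex.le_def.1 this).1
  calc _ ≤ (ψ (1 - a)).re := h3
    _ = 1 - (ψ a).re := by simp [map_sub, h]

/-- for a projection, `sn ψ z ^ 2 = ψ z`. -/
theorem sn_proj_sq {z : 𝔹} (hz : IsStarProjection z) : (sn ψ z) ^ 2 = (ψ z).re := by
  rw [sn_sq, hz.isSelfAdjoint.star_eq, hz.isIdempotentElem.eq]

/-- Conjugation `T ↦ ψ (star d * T * d)` of a positive functional. -/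
noncomputable def conj (d : 𝔹) : 𝔹 →ₚ[ℂ] ℂ where
  toFun T := ψ (star d * T * d)
  map_add' S T := by simp [mul_add, add_mul]
  map_smul' c T := by simp
  monotone' S T h := by
    exact OrderHomClass.mono ψ (star_left_conjugate_le_conjugate h d)

@[simp] theorem conj_apply (d T : 𝔹) : conj ψ d T = ψ (star d * T * d) := rfl

theorem sn_conj (d T : 𝔹) : sn (conj ψ d) T = sn ψ (T * d) := by
  have h1 := sn_sq (conj ψ d) T
  have h2 := sn_sq ψ (T * d)
  have h3 : (sn (conj ψ d) T) ^ 2 = (sn ψ (T * d)) ^ 2 := by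
    rw [h1, h2, conj_apply, star_mul]
    simp only [mul_assoc]
  exact (sq_eq_sq₀ (sn_nonneg _ _) (sn_nonneg _ _)).1 h3

end Crest.Agent.R120
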