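import Crest.Agent.R120.ModelOps
import Crest.Agent.R120.State

/-!
# The base involutions, the projections `p n`, limits (row 120, concrete model)
-/

set_option autoImplicit false

namespace Crest.Agent.R120

open scoped ComplexOrder InnerProductSpace
open Filter Topology

namespace PPG

variable {Γ : Type} [Group Γ] {X : Type} (D : PPG Γ X)

/-- the base involution `λ(k_n)` -/
noncomputable def u (n : ℕ) : BB Γ := lam (D.k n)

/-- the set of base involutions -/
def base : Set (BB Γ) := Set.range D.u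

theorem base_countable : D.base.Countable := Set.countable_range _

theorem u_mul_self (n : ℕ) : D.u n * D.u n = 1 := by
  unfold u
  rw [← lam_mul, D.k_sq, lam_one]

theorem u_comm (m n : ℕ) : Commute (D.u m) (D.u n) := by
  unfold u
  show _ * _ = _ * _
  rw [← lam_mul, ← lam_mul, D.k_comm]

theorem k_inv (n : ℕ) : (D.k n)⁻¹ = D.k n := by
  rw [inv_eq_iff_mul_eq_one, D.k_sq]

theorem star_u (n : ℕ) : star (D.u n) = D.u n := by
  unfold u
  rw [star_lam, D.k_inv]

/-- the projection `(1 + λ(k_n))/2` -/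
noncomputable def q (n : ℕ) : BB Γ := (1 / 2 : ℂ) • (1 + D.u n)

/-- the subgroup generated by the first `n` involutions -/
def K (n : ℕ) : Subgroup Γ := Subgroup.closure (D.k '' {i | i < n})

theorem K_mono (n : ℕ) : D.K n ≤ D.K (n + 1) := by
  apply Subgroup.closure_mono
  apply Set.image_mono
  intro i (hi : i < n)
  exact Nat.lt_succ_of_lt hi

theorem K_le (n : ℕ) : D.K n ≤ D.L ∅ := by
  unfold K
  rw [Subgroup.closure_le]
  rintro _ ⟨i, _, rfl⟩
  exact D.k_mem i ∅

/-- span of the `λ(g)` with `g` in the group generated by the first `n` involutions -/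
noncomputable def S (n : ℕ) : Submodule ℂ (BB Γ) := Submodule.span ℂ (lam '' (D.K n : Set Γ))

theorem S_mono (n : ℕ) : D.S n ≤ D.S (n + 1) :=
  Submodule.span_mono (Set.image_mono (D.K_mono n))

theorem mul_u_mem {n : ℕ} {T : BB Γ} (hT : T ∈ D.S n) : T * D.u n ∈ D.S (n + 1) := by
  refine Submodule.span_induction (p := fun T _ => T * D.u n ∈ D.S (n + 1)) ?_ ?_ ?_ ?_ hT
  · rintro T ⟨g, hg, rfl⟩
    apply Submodule.subset_span
    refine ⟨g * D.k n, ?_, ?_⟩
    · refine mul_mem (D.K_mono n hg) (Subgroup.subset_closure ⟨n, Nat.lt_succ_self n, rfl⟩)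
    · unfold u
      rw [← lam_mul]
  · rw [zero_mul]; exact Submodule.zero_mem _
  · intro a b _ _ ha hb
    rw [add_mul]; exact Submodule.add_mem _ ha hb
  · intro c a _ ha
    rw [smul_mul_assoc]; exact Submodule.smul_mem _ c ha

theorem mem_UU_of_mem {n : ℕ} {T : BB Γ} (hT : T ∈ D.S n) : T ∈ UU (D.L ∅) := by
  refine Submodule.span_induction (p := fun T _ => T ∈ UU (D.L ∅)) ?_ ?_ ?_ ?_ hT
  · rintro T ⟨g, hg, rfl⟩
    exact lam_mem_UU (D.K_le n hg)
  · exact zero_mem _
  · intro a b _ _ ha hb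
    exact add_mem ha hb
  · intro c a _ ha
    exact SMulMemClass.smul_mem c ha

theorem mem_UU_top {T : BB Γ} {L : Subgroup Γ} (hT : T ∈ UU L) : T ∈ UU (⊤ : Subgroup Γ) :=
  UU_mono le_top hT

theorem tau_lam_ne {g : Γ} (hg : g ≠ 1) : tau (lam g) = 0 := by
  classical
  rw [tau_eq, coef_lam, if_neg]
  intro h
  rw [mul_one] at h
  exact hg h.symm

theorem tau_mul_u {n : ℕ} {T : BB Γ} (hT : T ∈ D.S n) : tau (T * D.u n) = 0 := by
  refine Submodule.span_induction (p := fun T _ => tau (T * D.u n) = 0) ?_ ?_ ?_ ?_ hT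
  · rintro T ⟨g, hg, rfl⟩
    unfold u
    rw [← lam_mul, tau_lam_ne]
    intro h
    apply D.k_indep n
    have h1 : D.k n = g⁻¹ := (inv_eq_of_mul_eq_one_right h).symm
    rw [h1]
    exact inv_mem hg
  · rw [zero_mul, map_zero]
  · intro a b _ _ ha hb
    rw [add_mul, map_add, ha, hb, add_zero]
  · intro c a _ ha
    rw [smul_mul_assoc, map_smul, ha, smul_zero]

/-- projections of trace `2⁻ⁿ` built from the first `n` involutions -/
structure Nice (n : ℕ) (z : BB Γ) : Prop where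
  cs : z ∈ cs D.base
  S : z ∈ D.S n
  proj : IsStarProjection z
  comm : ∀ i, Commute z (D.u i)
  tr : tau z = (1 / 2 : ℂ) ^ n

theorem u_mem_cs (n : ℕ) : D.u n ∈ Crest.Agent.R120.cs D.base :=
  subset_cs _ ⟨n, rfl⟩

theorem q_proj (n : ℕ) : IsStarProjection (D.q n) := by
  rw [isStarProjection_iff']
  constructor
  · unfold q
    rw [smul_mul_smul_comm, add_mul, mul_add, mul_add, D.u_mul_self, one_mul, one_mul, mul_one]
    have h : (1 : BB Γ) + D.u n + (D.u n + 1) = (2 : ℂ) • (1 + D.u n) := by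
      rw [two_smul]; abel
    rw [h, smul_smul]
    norm_num
  · unfold q
    rw [star_smul, star_add, star_one, D.star_u]
    norm_num

theorem q_mem_cs (n : ℕ) : D.q n ∈ Crest.Agent.R120.cs D.base := by
  unfold q
  exact SMulMemClass.smul_mem _ (add_mem (one_mem _) (D.u_mem_cs n))

theorem commute_q {z : BB Γ} {n : ℕ} (h : Commute z (D.u n)) : Commute z (D.q n) := by
  unfold q
  exact ((Commute.one_right z).add_right h).smul_right _

theorem one_sub_q (n : ℕ) : 1 - D.q n = (1 / 2 : ℂ) • (1 - D.u n) := by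
  unfold q
  have h : (1 : BB Γ) = (1 / 2 : ℂ) • (1 : BB Γ) + (1 / 2 : ℂ) • (1 : BB Γ) := by
    rw [← add_smul]; norm_num
  rw [smul_add, smul_sub]
  nth_rewrite 1 [h]
  abel

theorem mul_q_eq (z : BB Γ) (n : ℕ) : z * D.q n = (1 / 2 : ℂ) • (z + z * D.u n) := by
  unfold q
  rw [mul_smul_comm, mul_add, mul_one]

theorem mul_one_sub_q_eq (z : BB Γ) (n : ℕ) :
    z * (1 - D.q n) = (1 / 2 : ℂ) • (z - z * D.u n) := by
  rw [D.one_sub_q, mul_smul_comm, mul_sub, mul_one]

theorem isStarProjection_mul {x y : BB Γ} (hx : IsStarProjection x) (hy : IsStarProjection y)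
    (h : Commute x y) : IsStarProjection (x * y) := by
  rw [isStarProjection_iff'] at *
  refine ⟨?_, ?_⟩
  · rw [mul_assoc, ← mul_assoc y x y, ← h.eq, mul_assoc x y y, hy.1, ← mul_assoc, hx.1]
  · rw [star_mul, hx.2, hy.2, h.eq]

variable {D}

theorem Nice.mul_q {n : ℕ} {z : BB Γ} (h : D.Nice n z) : D.Nice (n + 1) (z * D.q n) where
  cs := mul_mem h.cs (D.q_mem_cs n)
  S := by
    rw [D.mul_q_eq]
    exact Submodule.smul_mem _ _ (Submodule.add_mem _ (D.S_mono n h.S) (D.mul_u_mem h.S))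
  proj := isStarProjection_mul h.proj (D.q_proj n) (D.commute_q (h.comm n))
  comm i := (h.comm i).mul_left (D.commute_q (D.u_comm i n)).symm
  tr := by
    rw [D.mul_q_eq, map_smul, map_add, D.tau_mul_u h.S, h.tr, add_zero, pow_succ', smul_eq_mul]

theorem Nice.mul_one_sub_q {n : ℕ} {z : BB Γ} (h : D.Nice n z) :
    D.Nice (n + 1) (z * (1 - D.q n)) where
  cs := mul_mem h.cs (sub_mem (one_mem _) (D.q_mem_cs n))
  S := by
    rw [D.mul_one_sub_q_eq]
    exact Submodule.smul_mem _ _ (Submodule.sub_mem _ (D.S_mono n h.S) (D.mul_u_mem h.S))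
  proj := isStarProjection_mul h.proj (D.q_proj n).one_sub
    ((Commute.one_right z).sub_right (D.commute_q (h.comm n)))
  comm i := (h.comm i).mul_left
    ((Commute.one_left _).sub_left (D.commute_q (D.u_comm i n)).symm)
  tr := by
    rw [D.mul_one_sub_q_eq, map_smul, map_sub, D.tau_mul_u h.S, h.tr, sub_zero, pow_succ',
      smul_eq_mul]

variable (D)

theorem nice_one : D.Nice 0 1 where
  cs := one_mem _
  S := by
    apply Submodule.subset_span
    exact ⟨1, one_mem _, lam_one⟩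
  proj := IsStarProjection.one _
  comm i := Commute.one_left _
  tr := by rw [tau_one, pow_zero]

theorem pn_succ (n : ℕ) : pn D.k (n + 1) = pn D.k n * D.q n := rfl

theorem nice_pn (n : ℕ) : D.Nice n (pn D.k n) := by
  induction n with
  | zero => exact D.nice_one
  | succ n ih => exact ih.mul_q

theorem pn_mul {n m : ℕ} (h : n ≤ m) : pn D.k n * pn D.k m = pn D.k m := by
  induction m, h using Nat.le_induction with
  | base => exact (D.nice_pn n).proj.isIdempotentElem
  | succ m _ ih => rw [pn_succ, ← mul_assoc, ih]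

theorem decProj_pn : DecProj (pn D.k) where
  proj n := (D.nice_pn n).proj
  mul _ _ h := D.pn_mul h

theorem pn_mul_u {i n : ℕ} (h : i < n) : pn D.k n * D.u i = pn D.k n := by
  induction n, h using Nat.le_induction with
  | base =>
    rw [pn_succ, mul_assoc]
    congr 1
    unfold q
    rw [smul_mul_assoc, add_mul, D.u_mul_self, one_mul, add_comm]
  | succ n _ ih =>
    rw [((D.nice_pn (n + 1)).comm i).eq, pn_succ, ← mul_assoc, ← ((D.nice_pn n).comm i).eq, ih]

theorem u_mul_pn {i n : ℕ} (h : i < n) : D.u i * pn D.k n = pn D.k n := by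
  rw [← ((D.nice_pn n).comm i).eq, D.pn_mul_u h]

/-- the halving property -/
theorem halving (ψ : BB Γ →ₚ[ℂ] ℂ) (hψ : ψ 1 = 1) (n : ℕ) : ∃ z, D.Nice n z ∧ ψ z ≠ 0 := by
  induction n with
  | zero => exact ⟨1, D.nice_one, by rw [hψ]; exact one_ne_zero⟩
  | succ n ih =>
    obtain ⟨z, hz, hψz⟩ := ih
    by_cases h : ψ (z * D.q n) = 0
    · refine ⟨z * (1 - D.q n), hz.mul_one_sub_q, ?_⟩
      rw [mul_sub, mul_one, map_sub, h, sub_zero]
      exact hψz
    · exact ⟨z * D.q n, hz.mul_q, h⟩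

theorem pn_mem_UU (n : ℕ) : pn D.k n ∈ UU (D.L ∅) := D.mem_UU_of_mem (D.nice_pn n).S

/-! ### strong convergence -/

theorem tendsto_half_pow : Tendsto (fun n : ℕ => ((1 / 2 : ℂ) ^ n)) atTop (𝓝 0) :=
  tendsto_pow_atTop_nhds_zero_of_norm_lt_one (by norm_num)

theorem tendsto_pn (x : HH Γ) : Tendsto (fun n => pn D.k n x) atTop (𝓝 0) := by
  apply tendsto_proj_apply_zero (fun n => (D.nice_pn n).proj)
    (fun n => mem_UU_top (D.pn_mem_UU n))
  simp only [(D.nice_pn _).tr]
  exact tendsto_half_pow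

theorem tendsto_one_sub_pn (x : HH Γ) : Tendsto (fun n => (1 - pn D.k n) x) atTop (𝓝 x) := by
  have h := (tendsto_const_nhds (x := x)).sub (D.tendsto_pn x)
  simpa using h

/-- (SC) -/
theorem mem_of_forall_mem {Y : Set X} {y : BB Γ} (h : ∀ n, y * (1 - pn D.k n) ∈ UU (D.L Y)) :
    y ∈ UU (D.L Y) :=
  mem_UU_of_tendsto h fun a => (y.continuous.tendsto _).comp (D.tendsto_one_sub_pn (dl a))

/-! ### limits of unitaries -/

section lim

variable {V : ℕ → BB Γ} {k : ℕ → ℕ}

theorem V_mul_eq (hk : StrictMono k)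
    (hV : ∀ n, V (n + 1) * (1 - pn D.k (k n)) = V n * (1 - pn D.k (k n))) {n m : ℕ} (h : n ≤ m) :
    V m * (1 - pn D.k (k n)) = V n * (1 - pn D.k (k n)) := by
  induction m, h using Nat.le_induction with
  | base => rfl
  | succ m hm ih =>
    have h1 : (1 - pn D.k (k m)) * (1 - pn D.k (k n)) = 1 - pn D.k (k n) := by
      have h2 : pn D.k (k m) * pn D.k (k n) = pn D.k (k m) := by
        have h3 := congrArg star (D.pn_mul (hk.monotone hm))
        rwa [star_mul, (D.nice_pn _).proj.isSelfAdjoint.star_eq,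
          (D.nice_pn _).proj.isSelfAdjoint.star_eq] at h3
      rw [sub_mul, one_mul, mul_sub, mul_one, h2, sub_self, sub_zero]
    rw [← ih, ← h1, ← mul_assoc, ← mul_assoc, hV m]

/-- the projections `V_n p_{k_n} V_n⋆` -/
theorem conj_proj {W p : BB Γ} (hW : W ∈ unitary (BB Γ)) (hp : IsStarProjection p) :
    IsStarProjection (W * p * star W) := by
  rw [isStarProjection_iff'] at *
  have h1 := (Unitary.mem_iff.1 hW).1
  constructor
  · calc W * p * star W * (W * p * star W) = W * p * (star W * W) * p * star W := by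
          simp only [mul_assoc]
      _ = W * (p * p) * star W := by rw [h1, mul_one]; simp only [mul_assoc]
      _ = _ := by rw [hp.1]
  · simp only [star_mul, star_star, hp.2, mul_assoc]

theorem tendsto_conj (hk : StrictMono k) (hu : ∀ n, V n ∈ unitary (BB Γ))
    (hU : ∀ n, V n ∈ UU (D.L Set.univ)) (x : HH Γ) :
    Tendsto (fun n => (V n * pn D.k (k n) * star (V n)) x) atTop (𝓝 0) := by
  have hU' : ∀ n, V n ∈ UU (⊤ : Subgroup Γ) := fun n => mem_UU_top (hU n)
  have hp' : ∀ n, pn D.k (k n) ∈ UU (⊤ : Subgroup Γ) := fun n => mem_UU_top (D.pn_mem_UU _)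
  apply tendsto_proj_apply_zero (fun n => conj_proj (hu n) (D.nice_pn _).proj)
    (fun n => mul_mem (mul_mem (hU' n) (hp' n)) (star_mem (hU' n)))
  have h1 : ∀ n, tau (V n * pn D.k (k n) * star (V n)) = (1 / 2 : ℂ) ^ (k n) := by
    intro n
    rw [mul_assoc, tau_comm (hU' n) (mul_mem (hp' n) (star_mem (hU' n))), mul_assoc,
      (Unitary.mem_iff.1 (hu n)).1, mul_one, (D.nice_pn _).tr]
  simp only [h1]
  exact tendsto_half_pow.comp hk.tendsto_atTop

theorem norm_unitary_apply {W : BB Γ} (hW : W ∈ unitary (BB Γ)) (x : HH Γ) : ‖W x‖ = ‖x‖ :=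
  ContinuousLinearMap.norm_map_of_mem_unitary hW x

/-- a sequence that is eventually within `2‖w n‖` with `w n → 0` is Cauchy -/
theorem exists_lim_of_dist_le {z w : ℕ → HH Γ} (hw : Tendsto w atTop (𝓝 0))
    (h : ∀ n m, n ≤ m → ‖z m - z n‖ ≤ 2 * ‖w n‖) : ∃ l, Tendsto z atTop (𝓝 l) := by
  apply cauchySeq_tendsto_of_complete
  rw [Metric.cauchySeq_iff']
  intro ε hε
  obtain ⟨N, hN⟩ := Metric.tendsto_atTop.1 hw (ε / 4) (by positivity)
  refine ⟨N, fun n hn => ?_⟩
  have h1 := hN N le_rfl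
  rw [dist_zero_right] at h1
  rw [dist_eq_norm]
  calc ‖z n - z N‖ ≤ 2 * ‖w N‖ := h N n hn
    _ < ε := by linarith

/-- (LIM) -/
theorem exists_lim (hk : StrictMono k) (hu : ∀ n, V n ∈ unitary (BB Γ))
    (hU : ∀ n, V n ∈ UU (D.L Set.univ))
    (hV : ∀ n, V (n + 1) * (1 - pn D.k (k n)) = V n * (1 - pn D.k (k n))) :
    ∃ y ∈ unitary (BB Γ), ∀ n, y * (1 - pn D.k (k n)) = V n * (1 - pn D.k (k n)) := by
  -- the two strong limits
  have h1 : ∀ x, ∃ l, Tendsto (fun n => V n x) atTop (𝓝 l) := by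
    intro x
    apply exists_lim_of_dist_le (w := fun n => pn D.k (k n) x)
      ((D.tendsto_pn x).comp hk.tendsto_atTop)
    intro n m hnm
    have e1 : V m x - V n x = V m (pn D.k (k n) x) - V n (pn D.k (k n) x) := by
      have e2 := congrArg (fun T => T x) (D.V_mul_eq hk hV hnm)
      have e3 : V m ((1 - pn D.k (k n)) x) = V n ((1 - pn D.k (k n)) x) := e2
      have e4 : (1 - pn D.k (k n)) x = x - pn D.k (k n) x := rfl
      rw [e4, map_sub, map_sub] at e3
      exact sub_eq_sub_iff_sub_eq_sub.1 e3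
    rw [e1]
    calc _ ≤ ‖V m (pn D.k (k n) x)‖ + ‖V n (pn D.k (k n) x)‖ := norm_sub_le _ _
      _ = 2 * ‖pn D.k (k n) x‖ := by
        rw [norm_unitary_apply (hu m), norm_unitary_apply (hu n)]; ring
  have h2 : ∀ x, ∃ l, Tendsto (fun n => star (V n) x) atTop (𝓝 l) := by
    intro x
    apply exists_lim_of_dist_le (w := fun n => (V n * pn D.k (k n) * star (V n)) x)
      (D.tendsto_conj hk hu hU x)
    intro n m hnm
    set e := V n * pn D.k (k n) * star (V n) with he
    have hVn := Unitary.mem_iff.1 (hu n)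
    have hVm := Unitary.mem_iff.1 (hu m)
    -- `V m⋆ (1 - e) = V n⋆ (1 - e)`
    have e0 : 1 - e = V n * (1 - pn D.k (k n)) * star (V n) := by
      rw [mul_sub, mul_one, sub_mul, hVn.2]
    have e1 : star (V m) * (1 - e) = star (V n) * (1 - e) := by
      calc star (V m) * (1 - e) = star (V m) * (V m * (1 - pn D.k (k n))) * star (V n) := by
            rw [e0, D.V_mul_eq hk hV hnm, ← mul_assoc]
        _ = (1 - pn D.k (k n)) * star (V n) := by rw [← mul_assoc, hVm.1, one_mul]
        _ = star (V n) * (1 - e) := by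
            rw [e0, ← mul_assoc, ← mul_assoc, hVn.1, one_mul]
    have e2 : star (V m) x - star (V n) x = star (V m) (e x) - star (V n) (e x) := by
      have e3 : star (V m) ((1 - e) x) = star (V n) ((1 - e) x) := congrArg (fun T => T x) e1
      have e4 : (1 - e) x = x - e x := rfl
      rw [e4, map_sub, map_sub] at e3
      exact sub_eq_sub_iff_sub_eq_sub.1 e3
    rw [e2]
    calc _ ≤ ‖star (V m) (e x)‖ + ‖star (V n) (e x)‖ := norm_sub_le _ _
      _ = 2 * ‖e x‖ := by
        rw [norm_unitary_apply (Unitary.star_mem (hu m)),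
          norm_unitary_apply (Unitary.star_mem (hu n))]; ring
  choose f hf using h1
  choose g hg using h2
  let y : BB Γ := continuousLinearMapOfTendsto (fun n => V n) (f := f) (tendsto_pi_nhds.2 hf)
  let y' : BB Γ := continuousLinearMapOfTendsto (fun n => star (V n)) (f := g)
    (tendsto_pi_nhds.2 hg)
  have hy : ∀ x, Tendsto (fun n => V n x) atTop (𝓝 (y x)) := hf
  have hy' : ∀ x, Tendsto (fun n => star (V n) x) atTop (𝓝 (y' x)) := hg
  have hstar : star y = y' := by
    rw [ContinuousLinearMap.star_eq_adjoint]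
    symm
    rw [ContinuousLinearMap.eq_adjoint_iff]
    intro a b
    have t1 : Tendsto (fun n => ⟪star (V n) a, b⟫_ℂ) atTop (𝓝 ⟪y' a, b⟫_ℂ) :=
      (hy' a).inner tendsto_const_nhds
    have t2 : Tendsto (fun n => ⟪a, V n b⟫_ℂ) atTop (𝓝 ⟪a, y b⟫_ℂ) :=
      tendsto_const_nhds.inner (hy b)
    have t3 : (fun n => ⟪star (V n) a, b⟫_ℂ) = fun n => ⟪a, V n b⟫_ℂ := by
      funext n
      rw [ContinuousLinearMap.star_eq_adjoint, ContinuousLinearMap.adjoint_inner_left]
    rw [t3] at t1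
    exact tendsto_nhds_unique t1 t2
  have hny : ∀ x, ‖y x‖ = ‖x‖ := by
    intro x
    have t1 := (hy x).norm
    have t2 : (fun n => ‖V n x‖) = fun _ => ‖x‖ := by
      funext n; exact norm_unitary_apply (hu n) x
    rw [t2] at t1
    exact tendsto_nhds_unique t1 tendsto_const_nhds
  have hny' : ∀ x, ‖(star y) x‖ = ‖x‖ := by
    intro x
    rw [hstar]
    have t1 := (hy' x).norm
    have t2 : (fun n => ‖star (V n) x‖) = fun _ => ‖x‖ := by
      funext n; exact norm_unitary_apply (Unitary.star_mem (hu n)) x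
    rw [t2] at t1
    exact tendsto_nhds_unique t1 tendsto_const_nhds
  refine ⟨y, ?_, ?_⟩
  · rw [Unitary.mem_iff]
    constructor
    · rw [ContinuousLinearMap.star_eq_adjoint]
      exact (ContinuousLinearMap.norm_map_iff_adjoint_comp_self y).1 hny
    · have h3 := (ContinuousLinearMap.norm_map_iff_adjoint_comp_self (star y)).1 hny'
      rw [← ContinuousLinearMap.star_eq_adjoint, star_star] at h3
      exact h3
  · intro n
    ext1 x
    have t1 : Tendsto (fun m => (V m * (1 - pn D.k (k n))) x) atTop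
        (𝓝 ((y * (1 - pn D.k (k n))) x)) := hy ((1 - pn D.k (k n)) x)
    have t2 : Tendsto (fun m => (V m * (1 - pn D.k (k n))) x) atTop
        (𝓝 ((V n * (1 - pn D.k (k n))) x)) := by
      apply tendsto_const_nhds.congr'
      filter_upwards [eventually_ge_atTop n] with m hm
      rw [D.V_mul_eq hk hV hm]
    exact tendsto_nhds_unique t1 t2

end lim

/-! ### the limit state `φ` -/

section phi

/-- unit vectors in the range of `p n` -/
noncomputable def xi (n : ℕ) : HH Γ := ((‖pn D.k n (dl 1)‖⁻¹ : ℝ) : ℂ) • pn D.k n (dl 1)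

theorem pn_dl_ne (n : ℕ) : pn D.k n (dl (1 : Γ)) ≠ 0 := by
  intro h
  have h1 : tau (pn D.k n) = 0 := by
    rw [tau_eq, coef, h, inner_zero_right]
  rw [(D.nice_pn n).tr] at h1
  exact pow_ne_zero n (by norm_num) h1

theorem norm_xi (n : ℕ) : ‖D.xi n‖ = 1 := by
  unfold xi
  rw [norm_smul, Complex.norm_real, norm_inv, norm_norm,
    inv_mul_cancel₀ (norm_ne_zero_iff.2 (D.pn_dl_ne n))]

theorem pn_xi {m n : ℕ} (h : m ≤ n) : pn D.k m (D.xi n) = D.xi n := by
  unfold xi
  rw [map_smul]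
  congr 1
  exact congrArg (fun T : BB Γ => T (dl 1)) (D.pn_mul h)

theorem u_xi {i n : ℕ} (h : i < n) : D.u i (D.xi n) = D.xi n := by
  unfold xi
  rw [map_smul]
  congr 1
  exact congrArg (fun T : BB Γ => T (dl 1)) (D.u_mul_pn h)

theorem norm_inner_xi_le (n : ℕ) (T : BB Γ) : ‖⟪D.xi n, T (D.xi n)⟫_ℂ‖ ≤ ‖T‖ := by
  calc ‖⟪D.xi n, T (D.xi n)⟫_ℂ‖ ≤ ‖D.xi n‖ * ‖T (D.xi n)‖ := norm_inner_le_norm _ _
    _ ≤ ‖D.xi n‖ * (‖T‖ * ‖D.xi n‖) := by gcongr; exact T.le_opNorm _
    _ = ‖T‖ := by rw [D.norm_xi]; ring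

theorem exists_ulim (T : BB Γ) :
    ∃ l : ℂ, Tendsto (fun n => ⟪D.xi n, T (D.xi n)⟫_ℂ) (hyperfilter ℕ : Filter ℕ) (𝓝 l) := by
  obtain ⟨l, -, hl⟩ := (isCompact_closedBall (0 : ℂ) ‖T‖).ultrafilter_le_nhds
    ((hyperfilter ℕ).map fun n => ⟪D.xi n, T (D.xi n)⟫_ℂ) (by
      rw [le_principal_iff, Ultrafilter.coe_map, mem_map]
      filter_upwards with n
      simpa using D.norm_inner_xi_le n T)
  exact ⟨l, hl⟩

/-- the ultrafilter limit of the vector states `xi n` -/
noncomputable def phiFun (T : BB Γ) : ℂ := (D.exists_ulim T).choose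

theorem tendsto_phiFun (T : BB Γ) :
    Tendsto (fun n => ⟪D.xi n, T (D.xi n)⟫_ℂ) (hyperfilter ℕ : Filter ℕ) (𝓝 (D.phiFun T)) :=
  (D.exists_ulim T).choose_spec

theorem phiFun_eq {T : BB Γ} {l : ℂ}
    (h : Tendsto (fun n => ⟪D.xi n, T (D.xi n)⟫_ℂ) (hyperfilter ℕ : Filter ℕ) (𝓝 l)) :
    D.phiFun T = l := tendsto_nhds_unique (D.tendsto_phiFun T) h

theorem eventually_hyper {p : ℕ → Prop} (N : ℕ) (h : ∀ n, N ≤ n → p n) :
    ∀ᶠ n in (hyperfilter ℕ : Filter ℕ), p n := by
  have h1 : ∀ᶠ n in (atTop : Filter ℕ), p n := by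
    filter_upwards [eventually_ge_atTop N] with n hn using h n hn
  rw [← Nat.cofinite_eq_atTop] at h1
  exact hyperfilter_le_cofinite h1

/-- the limit state -/
noncomputable def phi : BB Γ →ₚ[ℂ] ℂ :=
  PositiveLinearMap.mk₀
    { toFun := D.phiFun
      map_add' := fun S T => by
        apply D.phiFun_eq
        refine ((D.tendsto_phiFun S).add (D.tendsto_phiFun T)).congr fun n => ?_
        rw [← inner_add_right]; rfl
      map_smul' := fun c T => by
        apply D.phiFun_eq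
        refine ((D.tendsto_phiFun T).const_mul c).congr fun n => ?_
        rw [← inner_smul_right]; rfl } (by
    intro T hT
    have h := (ContinuousLinearMap.nonneg_iff_isPositive T).1 hT
    exact ge_of_tendsto' (D.tendsto_phiFun T) fun n => h.inner_nonneg_right _)

theorem phi_apply (T : BB Γ) : D.phi T = D.phiFun T := rfl

theorem phi_one : D.phi 1 = 1 := by
  rw [phi_apply]
  apply D.phiFun_eq
  refine tendsto_const_nhds.congr fun n => ?_
  show (1 : ℂ) = ⟪D.xi n, D.xi n⟫_ℂ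
  rw [inner_self_eq_norm_sq_to_K, D.norm_xi]
  simp

theorem phi_pn (m : ℕ) : D.phi (pn D.k m) = 1 := by
  rw [← D.phi_one, phi_apply, phi_apply]
  apply D.phiFun_eq
  refine (D.tendsto_phiFun 1).congr' ?_
  apply eventually_hyper m
  intro n hn
  show ⟪D.xi n, D.xi n⟫_ℂ = ⟪D.xi n, pn D.k m (D.xi n)⟫_ℂ
  rw [D.pn_xi hn]

theorem phi_u_mul (i : ℕ) (T : BB Γ) : D.phi (D.u i * T) = D.phi T := by
  rw [phi_apply, phi_apply]
  apply D.phiFun_eq
  refine (D.tendsto_phiFun T).congr' ?_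
  apply eventually_hyper (i + 1)
  intro n hn
  show ⟪D.xi n, T (D.xi n)⟫_ℂ = ⟪D.xi n, D.u i (T (D.xi n))⟫_ℂ
  rw [← ContinuousLinearMap.adjoint_inner_left (D.u i), ← ContinuousLinearMap.star_eq_adjoint,
    D.star_u, D.u_xi (by omega)]

theorem norm_phi_le (T : BB Γ) : ‖D.phi T‖ ≤ ‖T‖ := by
  rw [phi_apply]
  exact le_of_tendsto' (D.tendsto_phiFun T).norm fun n => D.norm_inner_xi_le n T

theorem norm_pn_le (n : ℕ) : ‖pn D.k n‖ ≤ 1 := (D.nice_pn n).proj.norm_le

theorem norm_compress_le (n : ℕ) (T : BB Γ) :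
    ‖pn D.k n * T * pn D.k n - D.phi T • pn D.k n‖ ≤ 2 * ‖T‖ := by
  have h := D.norm_pn_le n
  calc ‖pn D.k n * T * pn D.k n - D.phi T • pn D.k n‖
      ≤ ‖pn D.k n * T * pn D.k n‖ + ‖D.phi T • pn D.k n‖ := norm_sub_le _ _
    _ ≤ ‖pn D.k n‖ * ‖T‖ * ‖pn D.k n‖ + ‖D.phi T‖ * ‖pn D.k n‖ := by
        rw [norm_smul]
        gcongr
        exact (norm_mul_le _ _).trans (by gcongr; exact norm_mul_le _ _)
    _ ≤ 1 * ‖T‖ * 1 + ‖T‖ * 1 := by
        gcongr
        exact D.norm_phi_le T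
    _ = 2 * ‖T‖ := by ring

theorem isClosed_N0 : IsClosed (N0 (pn D.k) D.phi) := by
  rw [← isSeqClosed_iff_isClosed]
  intro x T hx hT
  show Tendsto (fun n => ‖pn D.k n * T * pn D.k n - D.phi T • pn D.k n‖) atTop (𝓝 0)
  rw [Metric.tendsto_atTop]
  intro ε hε
  obtain ⟨j, hj⟩ := (Metric.tendsto_atTop.1 hT (ε / 4) (by positivity))
  have hj' := hj j le_rfl
  rw [dist_eq_norm] at hj'
  obtain ⟨N, hN⟩ := Metric.tendsto_atTop.1 (hx j) (ε / 2) (by positivity)
  refine ⟨N, fun n hn => ?_⟩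
  have h1 := hN n hn
  rw [Real.dist_eq, sub_zero, abs_of_nonneg (norm_nonneg _)] at h1 ⊢
  have h2 : pn D.k n * T * pn D.k n - D.phi T • pn D.k n =
      (pn D.k n * x j * pn D.k n - D.phi (x j) • pn D.k n) -
      (pn D.k n * (x j - T) * pn D.k n - D.phi (x j - T) • pn D.k n) := by
    rw [map_sub, sub_smul, mul_sub, sub_mul]
    abel
  rw [h2]
  have h3 := D.norm_compress_le n (x j - T)
  calc _ ≤ _ := norm_sub_le _ _
    _ < ε / 2 + 2 * (ε / 4) := by linarith
    _ = ε := by ring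

theorem base_N0 : ∀ b ∈ cs D.base, b ∈ N0 (pn D.k) D.phi := by
  have hu : ∀ i, ∀ x ∈ N0 (pn D.k) D.phi, D.u i * x ∈ N0 (pn D.k) D.phi := by
    intro i x hx
    show Tendsto (fun n => ‖pn D.k n * (D.u i * x) * pn D.k n - D.phi (D.u i * x) • pn D.k n‖)
      atTop (𝓝 0)
    refine Tendsto.congr' ?_ hx
    filter_upwards [eventually_ge_atTop (i + 1)] with n hn
    rw [D.phi_u_mul, ← mul_assoc (pn D.k n) (D.u i) x, D.pn_mul_u (by omega)]
  apply mem_of_left_stable D.isClosed_N0
  · intro x hx y hy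
    show Tendsto (fun n => ‖pn D.k n * (x + y) * pn D.k n - D.phi (x + y) • pn D.k n‖) atTop (𝓝 0)
    refine squeeze_zero (fun _ => norm_nonneg _) (fun n => ?_) (by simpa using hx.add hy)
    have : pn D.k n * (x + y) * pn D.k n - D.phi (x + y) • pn D.k n =
        (pn D.k n * x * pn D.k n - D.phi x • pn D.k n) +
        (pn D.k n * y * pn D.k n - D.phi y • pn D.k n) := by
      rw [map_add, add_smul, mul_add, add_mul]
      abel
    rw [this]
    exact norm_add_le _ _
  · intro c x hx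
    show Tendsto (fun n => ‖pn D.k n * (c • x) * pn D.k n - D.phi (c • x) • pn D.k n‖) atTop (𝓝 0)
    have h1 : (fun n => ‖pn D.k n * (c • x) * pn D.k n - D.phi (c • x) • pn D.k n‖) =
        fun n => ‖c‖ * ‖pn D.k n * x * pn D.k n - D.phi x • pn D.k n‖ := by
      funext n
      rw [← norm_smul, smul_sub, map_smul, mul_smul_comm, smul_mul_assoc, smul_eq_mul, mul_smul]
    rw [h1]
    simpa using hx.const_mul ‖c‖
  · show Tendsto (fun n => ‖pn D.k n * 1 * pn D.k n - D.phi 1 • pn D.k n‖) atTop (𝓝 0)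
    have h1 : (fun n => ‖pn D.k n * 1 * pn D.k n - D.phi 1 • pn D.k n‖) = fun _ => 0 := by
      funext n
      rw [mul_one, D.phi_one, one_smul, (D.nice_pn n).proj.isIdempotentElem.eq, sub_self, norm_zero]
    rw [h1]
    exact tendsto_const_nhds
  · rintro _ ⟨i, rfl⟩ x hx
    exact hu i x hx
  · rintro _ ⟨i, rfl⟩ x hx
    show star (D.u i) * x ∈ _
    rw [D.star_u]
    exact hu i x hx

end phi

/-! ### infinite dimension -/

theorem k_injective : Function.Injective D.k := by
  have key : ∀ m n : ℕ, m < n → D.k m ≠ D.k n := by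
    intro m n h he
    apply D.k_indep n
    rw [← he]
    exact Subgroup.subset_closure ⟨m, h, rfl⟩
  intro m n h
  rcases lt_trichotomy m n with h1 | h1 | h1
  · exact absurd h (key m n h1)
  · exact h1
  · exact absurd h.symm (key n m h1)

theorem not_finiteDimensional : ¬ FiniteDimensional ℂ (cs D.base) := by
  intro hfd
  have h1 : LinearIndependent ℂ (fun n => D.u n) :=
    linearIndependent_lam.comp D.k D.k_injective
  have h2 : LinearIndependent ℂ (fun n => (⟨D.u n, D.u_mem_cs n⟩ : cs D.base)) :=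
    LinearIndependent.of_comp (cs D.base).toSubalgebra.toSubmodule.subtype h1
  have h3 := h2.finite
  exact not_finite ℕ

end PPG

end Crest.Agent.R120
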