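import Crest.Agent.R120.ModelDefs

/-!
# Operators on `ℓ²(Γ)` (blueprint section 0)
-/

set_option autoImplicit false

namespace Crest.Agent.R120

open scoped ComplexOrder InnerProductSpace
open Filter Topology

variable {Γ : Type} [Group Γ]

/-! ### translations -/

theorem lam_one : lam (1 : Γ) = 1 := by
  apply ext_on_dl
  intro a
  simp [lam_dl]

theorem lam_mul (g h : Γ) : lam (g * h) = lam g * lam h := by
  apply ext_on_dl
  intro a
  simp [lam_dl, mul_assoc]

theorem star_lam (g : Γ) : star (lam g) = lam g⁻¹ := by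
  classical
  apply ext_coef
  intro a b
  rw [coef_star, coef_lam, coef_lam]
  by_cases h : b = g * a
  · subst h; simp
  · rw [if_neg h, if_neg, star_zero]
    rintro rfl
    exact h (by simp)

theorem lam_mem_UU {L : Subgroup Γ} {g : Γ} (h : g ∈ L) : lam g ∈ UU L := by
  classical
  rw [mem_UU]
  constructor
  · intro a b c
    rw [coef_lam, coef_lam]
    simp [← mul_assoc]
  · intro a b hab
    rw [coef_lam, if_neg]
    rintro rfl
    exact hab (by simpa using h)

omit [Group Γ] in
theorem dl_injective : Function.Injective (dl : Γ → HH Γ) := orthonormal_dl.linearIndependent.injective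

theorem lam_injective : Function.Injective (lam : Γ → BB Γ) := by
  intro g h hgh
  have := congrArg (fun T : BB Γ => T (dl 1)) hgh
  simp only [lam_dl, mul_one] at this
  exact dl_injective this

theorem linearIndependent_lam : LinearIndependent ℂ (lam : Γ → BB Γ) := by
  have h : LinearIndependent ℂ (dl : Γ → HH Γ) := orthonormal_dl.linearIndependent
  let f : BB Γ →ₗ[ℂ] HH Γ :=
    { toFun := fun T => T (dl 1), map_add' := fun S T => by simp, map_smul' := fun c T => by simp }
  apply LinearIndependent.of_comp f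
  have hf : (f ∘ lam : Γ → HH Γ) = dl := by
    ext g : 1
    simp [f, lam_dl]
  rw [hf]
  exact h

/-! ### the algebras `UU L` -/

omit [Group Γ] in
theorem continuous_coef (a b : Γ) : Continuous (fun T : BB Γ => coef T a b) := by
  unfold coef
  fun_prop

theorem UU_isClosed (L : Subgroup Γ) : IsClosed (UU L : Set (BB Γ)) := by
  have : (UU L : Set (BB Γ)) = (⋂ a, ⋂ b, ⋂ g, {T | coef T (a * g) (b * g) = coef T a b}) ∩
      (⋂ a, ⋂ b, ⋂ _ : a * b⁻¹ ∉ L, {T | coef T a b = 0}) := by
    ext T
    simp only [SetLike.mem_coe, mem_UU, Set.mem_inter_iff, Set.mem_iInter, Set.mem_ofPred_eq]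
  rw [this]
  apply IsClosed.inter
  · refine isClosed_iInter fun a => isClosed_iInter fun b => isClosed_iInter fun g => ?_
    exact isClosed_eq (continuous_coef _ _) (continuous_coef _ _)
  · refine isClosed_iInter fun a => isClosed_iInter fun b => isClosed_iInter fun h => ?_
    exact isClosed_eq (continuous_coef _ _) continuous_const

theorem UU_mono {L L' : Subgroup Γ} (h : L ≤ L') : UU L ≤ UU L' := by
  rintro T ⟨h1, h2⟩
  exact ⟨h1, fun a b hab => h2 a b fun h' => hab (h h')⟩

/-- membership in `UU L` passes to strong limits along the basis. -/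
theorem mem_UU_of_tendsto {L : Subgroup Γ} {T : BB Γ} {S : ℕ → BB Γ} (hS : ∀ n, S n ∈ UU L)
    (h : ∀ a, Tendsto (fun n => S n (dl a)) atTop (𝓝 (T (dl a)))) : T ∈ UU L := by
  have hc : ∀ a b, Tendsto (fun n => coef (S n) a b) atTop (𝓝 (coef T a b)) := by
    intro a b
    exact (tendsto_const_nhds (x := dl a)).inner (h b)
  rw [mem_UU]
  constructor
  · intro a b g
    refine tendsto_nhds_unique (hc (a * g) (b * g)) ?_
    have : (fun n => coef (S n) (a * g) (b * g)) = fun n => coef (S n) a b := by
      ext n; exact (hS n).1 a b g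
    rw [this]
    exact hc a b
  · intro a b hab
    refine tendsto_nhds_unique (hc a b) ?_
    have : (fun n => coef (S n) a b) = fun n => 0 := by
      ext n; exact (hS n).2 a b hab
    rw [this]
    exact tendsto_const_nhds

/-! ### projections -/

omit [Group Γ] in
open Classical in
theorem prj_dl (W : Set Γ) (a : Γ) : prj W (dl a) = if a ∈ W then dl a else 0 := by
  split_ifs with h
  · exact prj_dl_mem h
  · exact prj_dl_notMem h

omit [Group Γ] in
theorem prj_isStarProjection (W : Set Γ) : IsStarProjection (prj W) := by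
  unfold prj
  exact isStarProjection_starProjection

omit [Group Γ] in
theorem prj_mul_prj_of_disjoint {W W' : Set Γ} (h : Disjoint W W') : prj W * prj W' = 0 := by
  classical
  apply ext_on_dl
  intro a
  simp only [mul_apply_eq_comp, prj_dl, zero_apply]
  by_cases ha : a ∈ W'
  · rw [if_pos ha, prj_dl, if_neg]
    exact fun ha' => (Set.disjoint_left.1 h) ha' ha
  · rw [if_neg ha, map_zero]

omit [Group Γ] in
theorem prj_ne_zero {W : Set Γ} (h : W.Nonempty) : prj W ≠ 0 := by
  obtain ⟨a, ha⟩ := h
  intro h0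
  have := prj_dl_mem ha
  rw [h0] at this
  have h1 := norm_dl a
  rw [← this] at h1
  simp at h1

omit [Group Γ] in
open Classical in
theorem coef_mul_prj (W : Set Γ) (T : BB Γ) (a b : Γ) :
    coef (T * prj W) a b = if b ∈ W then coef T a b else 0 := by
  simp only [coef, mul_apply_eq_comp, prj_dl]
  split_ifs with h
  · rfl
  · simp

omit [Group Γ] in
open Classical in
theorem coef_prj_mul (W : Set Γ) (T : BB Γ) (a b : Γ) :
    coef (prj W * T) a b = if a ∈ W then coef T a b else 0 := by
  have h : prj W * T = star (star T * prj W) := by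
    rw [star_mul, star_star, (prj_isStarProjection W).isSelfAdjoint.star_eq]
  rw [h, coef_star, coef_mul_prj]
  split_ifs with h
  · rw [coef_star, star_star]
  · simp

/-! ### the trace -/

theorem tau_one : tau (1 : BB Γ) = 1 := by
  rw [tau_eq, coef_one, if_pos rfl]

theorem tau_comm {S T : BB Γ} (hS : S ∈ UU (⊤ : Subgroup Γ)) (hT : T ∈ UU (⊤ : Subgroup Γ)) :
    tau (S * T) = tau (T * S) := by
  rw [tau_eq, tau_eq]
  have h1 := hasSum_coef_mul S T 1 1
  have h2 := hasSum_coef_mul T S 1 1
  rw [← (Equiv.inv Γ).hasSum_iff] at h2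
  refine h1.unique ?_
  convert h2 using 1
  ext c
  simp only [Function.comp, Equiv.inv_apply]
  have e1 := hS.1 1 c c⁻¹
  have e2 := hT.1 c 1 c⁻¹
  simp only [one_mul, mul_inv_cancel] at e1 e2
  rw [← e1, ← e2, mul_comm]

/-- for `T ∈ UU ⊤`, `‖T δ_a‖² = τ(T⋆T)`. -/
theorem norm_apply_dl_sq {T : BB Γ} (hT : T ∈ UU (⊤ : Subgroup Γ)) (a : Γ) :
    ((‖T (dl a)‖ ^ 2 : ℝ) : ℂ) = tau (star T * T) := by
  have h1 : star T * T ∈ UU (⊤ : Subgroup Γ) := mul_mem (star_mem hT) hT
  have h2 := h1.1 1 1 a
  rw [one_mul] at h2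
  rw [tau_eq, ← h2]
  simp only [coef, mul_apply_eq_comp]
  rw [ContinuousLinearMap.star_eq_adjoint, ContinuousLinearMap.adjoint_inner_right,
    inner_self_eq_norm_sq_to_K]
  simp

theorem tau_faithful {T : BB Γ} (hT : T ∈ UU (⊤ : Subgroup Γ)) (h : tau (star T * T) = 0) :
    T = 0 := by
  apply ext_on_dl
  intro a
  have := norm_apply_dl_sq hT a
  rw [h] at this
  have h2 : ‖T (dl a)‖ ^ 2 = 0 := by exact_mod_cast this
  simpa using h2

omit [Group Γ] in
/-- uniformly bounded operators going to `0` on the basis go to `0` strongly. -/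
theorem tendsto_apply_zero {S : ℕ → BB Γ} {C : ℝ} (hC : ∀ n, ‖S n‖ ≤ C)
    (h : ∀ a : Γ, Tendsto (fun n => S n (dl a)) atTop (𝓝 0)) (ζ : HH Γ) :
    Tendsto (fun n => S n ζ) atTop (𝓝 0) := by
  have hC0 : 0 ≤ C := le_trans (norm_nonneg _) (hC 0)
  -- the set of good vectors is a closed subspace
  have hspan : ∀ v ∈ Submodule.span ℂ (Set.range (bs Γ)),
      Tendsto (fun n => S n v) atTop (𝓝 0) := by
    intro v hv
    induction hv using Submodule.span_induction with
    | mem x hx =>
      obtain ⟨a, rfl⟩ := hx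
      exact h a
    | zero => simp
    | add x y _ _ hx hy => simpa using hx.add hy
    | smul c x _ hx => simpa using hx.const_smul c
  have hd : ζ ∈ closure (Submodule.span ℂ (Set.range (bs Γ)) : Set (HH Γ)) := by
    have := (bs Γ).dense_span
    rw [← Submodule.topologicalClosure_coe, this]
    trivial
  rw [Metric.tendsto_atTop]
  intro ε hε
  have hε2 : 0 < ε / (2 * (C + 1)) := by positivity
  obtain ⟨v, hv, hvd⟩ := Metric.mem_closure_iff.1 hd _ hε2
  obtain ⟨N, hN⟩ := Metric.tendsto_atTop.1 (hspan v hv) (ε / 2) (by positivity)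
  refine ⟨N, fun n hn => ?_⟩
  have h1 := hN n hn
  rw [dist_zero_right] at h1 ⊢
  have h2 : S n ζ = S n (ζ - v) + S n v := by simp
  calc ‖S n ζ‖ ≤ ‖S n (ζ - v)‖ + ‖S n v‖ := by rw [h2]; exact norm_add_le _ _
    _ ≤ C * ‖ζ - v‖ + ‖S n v‖ := by
        gcongr
        exact ((S n).le_opNorm _).trans (by gcongr; exact hC n)
    _ < C * ‖ζ - v‖ + ε / 2 := by gcongr
    _ ≤ (C + 1) * (ε / (2 * (C + 1))) + ε / 2 := by
        rw [dist_eq_norm] at hvd
        gcongr
        linarith
    _ = ε := by field_simp; ring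

/-- projections in `UU ⊤` with trace going to zero go to zero strongly. -/
theorem tendsto_proj_apply_zero {e : ℕ → BB Γ} (he : ∀ n, IsStarProjection (e n))
    (hU : ∀ n, e n ∈ UU (⊤ : Subgroup Γ)) (h : Tendsto (fun n => tau (e n)) atTop (𝓝 0))
    (ζ : HH Γ) : Tendsto (fun n => e n ζ) atTop (𝓝 0) := by
  apply tendsto_apply_zero (C := 1) (fun n => (he n).norm_le)
  intro a
  rw [tendsto_zero_iff_norm_tendsto_zero]
  have h1 : ∀ n, ‖e n (dl a)‖ ^ 2 = (tau (e n)).re := by
    intro n
    have := norm_apply_dl_sq (hU n) a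
    rw [(he n).isSelfAdjoint.star_eq, (he n).isIdempotentElem.eq] at this
    rw [← this, Complex.ofReal_re]
  have h2 : Tendsto (fun n => ‖e n (dl a)‖ ^ 2) atTop (𝓝 0) := by
    simp only [h1]
    have := (Complex.continuous_re.tendsto 0).comp h
    rw [Complex.zero_re] at this
    exact this
  have h3 := h2.sqrt
  simpa [Real.sqrt_sq] using h3

/-! ### the fields of `PP` proved here -/

variable {X : Type} (D : PPG Γ X)

theorem PPG.W_nonempty (x : X) : (D.W x).Nonempty := by
  by_cases h : (1 : Γ) ∈ D.W x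
  · exact ⟨1, h⟩
  · exact ⟨D.g x * 1, (D.g_iff x 1).2 h⟩

theorem PPG.W_disjoint {x x' : X} (h : x ≠ x') : Disjoint (D.W x) (D.W x') := by
  rw [Set.disjoint_left]
  intro γ h1 h2
  exact h (D.ping ∅ x x' 1 γ (by simp) (by simp) (one_mem _) h2 (by simpa using h1)).2

theorem PPG.G_eq (x : X) :
    lam (D.g x) = prj (D.W x) * lam (D.g x) + lam (D.g x) * prj (D.W x) := by
  classical
  apply ext_on_dl
  intro a
  simp only [add_apply, mul_apply_eq_comp, lam_dl, prj_dl]
  by_cases h : a ∈ D.W x
  · have h' : D.g x * a ∉ D.W x := fun h' => (D.g_iff x a).1 h' h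
    rw [if_pos h, if_neg h', lam_dl, zero_add]
  · have h' : D.g x * a ∈ D.W x := (D.g_iff x a).2 h
    rw [if_neg h, if_pos h', map_zero, add_zero]

theorem PPG.PTP_same (Y : Set X) (x : X) (T : BB Γ) (hx : x ∉ Y) (hT : T ∈ UU (D.L Y)) :
    prj (D.W x) * T * prj (D.W x) = tau T • prj (D.W x) := by
  classical
  apply ext_coef
  intro a b
  rw [coef_mul_prj, coef_prj_mul, coef_smul]
  have hp : coef (prj (D.W x)) a b = if b ∈ D.W x then (if a = b then 1 else 0) else 0 := by
    have := coef_mul_prj (D.W x) (1 : BB Γ) a b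
    rw [one_mul] at this
    rw [this, coef_one]
  rw [hp]
  by_cases hb : b ∈ D.W x
  · rw [if_pos hb, if_pos hb]
    by_cases ha : a ∈ D.W x
    · rw [if_pos ha]
      by_cases hab : a = b
      · subst hab
        rw [if_pos rfl, mul_one, tau_eq]
        have := hT.1 1 1 a
        rw [one_mul] at this
        exact this
      · rw [if_neg hab, mul_zero]
        apply hT.2
        intro hl
        apply hab
        have := (D.ping Y x x (a * b⁻¹) b hx hx hl hb (by simpa using ha)).1
        exact mul_inv_eq_one.1 this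
    · rw [if_neg ha, if_neg, mul_zero]
      rintro rfl
      exact ha hb
  · rw [if_neg hb, if_neg hb, mul_zero]

theorem PPG.PTP_ne (Y : Set X) (x x' : X) (T : BB Γ) (hx : x ∉ Y) (hx' : x' ∉ Y) (hne : x ≠ x')
    (hT : T ∈ UU (D.L Y)) : prj (D.W x) * T * prj (D.W x') = 0 := by
  classical
  apply ext_coef
  intro a b
  have h0 : coef (0 : BB Γ) a b = 0 := by simp [coef]
  rw [coef_mul_prj, coef_prj_mul, h0]
  split_ifs with hb ha
  · apply hT.2
    intro hl
    exact hne (D.ping Y x x' (a * b⁻¹) b hx hx' hl hb (by simpa using ha)).2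
  · rfl
  · rfl

end Crest.Agent.R120
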