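import Mathlib

/-!
# Row 120: abstract ping-pong data on a group (blueprint section 0)
-/

set_option autoImplicit false

namespace Crest.Agent.R120

/-- Ping-pong data on a group `Γ`: free involutions `g x`, commuting involutions `k n`,
`K s = ∏_{i ∈ s} k i`, the sets `W x` of reduced words starting with `g x`,
and the subgroups `Λ Y` generated by the `k n` and the `g y`, `y ∈ Y`. -/
structure PPGroup (Γ : Type) [Group Γ] (X : Type) where
  /-- the free involutions -/
  g : X → Γ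
  /-- the commuting involutions -/
  k : ℕ → Γ
  /-- finite products of the commuting involutions -/
  K : Finset ℕ → Γ
  /-- the embedding of the base group -/
  κ : Multiplicative (ℕ →₀ ZMod 2) →* Γ
  /-- the words starting with `g x` -/
  W : X → Set Γ
  /-- the subgroup generated by all `k n` and `g y`, `y ∈ Y` -/
  Λ : Set X → Subgroup Γ
  g_sq : ∀ x, g x * g x = 1
  k_sq : ∀ n, k n * k n = 1
  k_comm : ∀ m n, k m * k n = k n * k m
  K_empty : K ∅ = 1
  K_insert : ∀ n s, n ∉ s → K (insert n s) = k n * K s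
  K_eq_one : ∀ s, K s = 1 → s = ∅
  k_injective : Function.Injective k
  κ_injective : Function.Injective κ
  κ_single : ∀ n, κ (Multiplicative.ofAdd (Finsupp.single n 1)) = k n
  Λ_eq : ∀ Y, Λ Y = Subgroup.closure (Set.range k ∪ g '' Y)
  Λ_mono : ∀ Y Z, Y ⊆ Z → Λ Y ≤ Λ Z
  k_mem : ∀ n Y, k n ∈ Λ Y
  g_mem : ∀ x Y, x ∈ Y → g x ∈ Λ Y
  W_disj : ∀ x x' γ, γ ∈ W x → γ ∈ W x' → x = x'
  g_mem_W : ∀ x, g x ∈ W x
  one_notMem_W : ∀ x, 1 ∉ W x
  g_mul_mem_W : ∀ x γ, g x * γ ∈ W x ↔ γ ∉ W x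
  pingpong : ∀ (Y : Set X) (x x' : X) (l γ : Γ), x ∉ Y → x' ∉ Y → l ∈ Λ Y →
    γ ∈ W x' → l * γ ∈ W x → l = 1 ∧ x = x'

end Crest.Agent.R120
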