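import Crest.Agent.R120.Sys
import Crest.Agent.R120.Irrep

/-!
# Reflection (blueprint section 6, (E4))
-/

set_option autoImplicit false

namespace Crest.Agent.R120

open scoped ComplexOrder
open Filter Topology

variable {𝔹 : Type} [CStarAlgebra 𝔹] [PartialOrder 𝔹] [StarOrderedRing 𝔹] {X : Type}
variable {M : PP 𝔹 X} {I : Type} [LinearOrder I] [WellFoundedLT I] (Sg : Sys M I)

/-- countable sets are contained in countable closed sets -/
theorem Sys.exists_cl {S : Set I} (hS : S.Countable) :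
    ∃ T : Set I, S ⊆ T ∧ T.Countable ∧ IsCl Sg.ch T := by
  let D : ℕ → Set I := fun n => Nat.rec S (fun _ T => T ∪ ⋃ i ∈ T, Sg.ch i) n
  have hD : ∀ n, (D n).Countable := by
    intro n
    induction n with
    | zero => exact hS
    | succ n ih => exact ih.union (ih.biUnion fun i _ => Sg.ch_countable i)
  refine ⟨⋃ n, D n, Set.subset_iUnion D 0, Set.countable_iUnion hD, ?_⟩
  intro i hi
  obtain ⟨n, hn⟩ := Set.mem_iUnion.mp hi
  refine Set.Subset.trans ?_ (Set.subset_iUnion D (n + 1))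
  exact Set.Subset.trans (Set.subset_biUnion_of_mem (u := fun i => Sg.ch i) hn)
    Set.subset_union_right

theorem Sys.A_mono_R {K L : Set I} (h : K ⊆ L) : Sg.A K ≤ Sg.A L :=
  cs_mono (Set.union_subset_union_right _ (Set.image_mono h))

theorem Sys.A_closed_R (K : Set I) : IsClosed (Sg.A K : Set 𝔹) := cs_isClosed _

/-- each element of the big algebra lives on a countable closed set -/
theorem Sys.exists_support {x : 𝔹} (hx : x ∈ Sg.A Set.univ) :
    ∃ T : Set I, T.Countable ∧ IsCl Sg.ch T ∧ x ∈ Sg.A T := by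
  let ι := {T : Set I // T.Countable ∧ IsCl Sg.ch T}
  have hne : Nonempty ι := ⟨⟨∅, Set.countable_empty, fun i hi => absurd hi (Set.notMem_empty i)⟩⟩
  let S : ι → Set 𝔹 := fun T => M.base ∪ Sg.u '' T.1
  have hdir : Directed (· ⊆ ·) S := by
    intro T T'
    refine ⟨⟨T.1 ∪ T'.1, T.2.1.union T'.2.1, ?_⟩, ?_, ?_⟩
    · intro i hi
      rcases hi with hi | hi
      · exact (T.2.2 i hi).trans Set.subset_union_left
      · exact (T'.2.2 i hi).trans Set.subset_union_right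
    · exact Set.union_subset_union_right _ (Set.image_mono Set.subset_union_left)
    · exact Set.union_subset_union_right _ (Set.image_mono Set.subset_union_right)
  have hU : M.base ∪ Sg.u '' Set.univ ⊆ ⋃ T, S T := by
    rintro y (hy | ⟨i, -, rfl⟩)
    · exact Set.mem_iUnion.mpr ⟨hne.some, Or.inl hy⟩
    · obtain ⟨T, hiT, hTc, hTcl⟩ := Sg.exists_cl (Set.countable_singleton i)
      exact Set.mem_iUnion.mpr ⟨⟨T, hTc, hTcl⟩, Or.inr ⟨i, hiT rfl, rfl⟩⟩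
  refine mem_of_directed hdir (W := {x | ∃ T : Set I, T.Countable ∧ IsCl Sg.ch T ∧ x ∈ Sg.A T})
    ?_ ?_ x (cs_mono hU hx)
  · rw [← isSeqClosed_iff_isClosed]
    intro y y₀ hy hlim
    choose T hTc hTcl hyT using hy
    refine ⟨⋃ n, T n, Set.countable_iUnion hTc, ?_, ?_⟩
    · intro i hi
      obtain ⟨n, hn⟩ := Set.mem_iUnion.mp hi
      exact (hTcl n i hn).trans (Set.subset_iUnion T n)
    · exact (Sg.A_closed_R _).mem_of_tendsto hlim
        (Eventually.of_forall fun n => Sg.A_mono_R (Set.subset_iUnion T n) (hyT n))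
  · intro T y hy
    exact ⟨T.1, T.2.1, T.2.2, hy⟩

/-- `ψ` is excised on `F` up to `ε` by an element of `B`. -/
def GoodEx (B : StarSubalgebra ℂ 𝔹) (ψ : 𝔹 →ₚ[ℂ] ℂ) (F : Finset 𝔹) (ε : ℝ) : Prop :=
  ∃ a ∈ B, 0 ≤ a ∧ a ≤ 1 ∧ 1 - ε ≤ (ψ a).re ∧ ∀ b ∈ F, ‖a * (b - ψ b • 1) * a‖ ≤ ε

theorem norm_le_one_of_le_one {a : 𝔹} (h0 : 0 ≤ a) (h1 : a ≤ 1) : ‖a‖ ≤ 1 := by
  rcases subsingleton_or_nontrivial 𝔹 with h | h
  · rw [Subsingleton.elim a 0]; simp
  · exact (CStarAlgebra.norm_le_norm_of_nonneg_of_le h0 h1).trans (by simp)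

theorem norm_exc_sub_le {ψ : 𝔹 →ₚ[ℂ] ℂ} (h1 : ψ 1 = 1) {a b c : 𝔹} (ha : 0 ≤ a) (ha1 : a ≤ 1) :
    ‖a * (b - ψ b • 1) * a‖ ≤ ‖a * (c - ψ c • 1) * a‖ + 2 * ‖b - c‖ := by
  have hna := norm_le_one_of_le_one ha ha1
  have hnt : ‖(1 : 𝔹)‖ ≤ 1 := norm_le_one_of_le_one (ha.trans ha1) le_rfl
  have e : a * (b - ψ b • 1) * a = a * (c - ψ c • 1) * a +
      a * ((b - c) - ψ (b - c) • 1) * a := by
    rw [map_sub, sub_smul]; noncomm_ring
  rw [e]
  refine (norm_add_le _ _).trans ?_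
  gcongr
  have h2 : ‖(b - c) - ψ (b - c) • (1 : 𝔹)‖ ≤ 2 * ‖b - c‖ := by
    refine (norm_sub_le _ _).trans ?_
    rw [norm_smul]
    have h3 := norm_apply_le ψ h1 (b - c)
    have h4 : ‖ψ (b - c)‖ * ‖(1 : 𝔹)‖ ≤ ‖b - c‖ * 1 := by gcongr
    linarith
  calc ‖a * ((b - c) - ψ (b - c) • 1) * a‖
      ≤ ‖a‖ * ‖(b - c) - ψ (b - c) • (1 : 𝔹)‖ * ‖a‖ :=
        (norm_mul_le _ _).trans (mul_le_mul_of_nonneg_right (norm_mul_le _ _) (norm_nonneg _))
    _ ≤ 1 * ‖(b - c) - ψ (b - c) • (1 : 𝔹)‖ * 1 := by gcongr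
    _ ≤ 2 * ‖b - c‖ := by rw [one_mul, mul_one]; exact h2

theorem GoodEx.approx {B : StarSubalgebra ℂ 𝔹} {ψ : 𝔹 →ₚ[ℂ] ℂ} (h1 : ψ 1 = 1) {F : Finset 𝔹}
    {ε : ℝ} (hε : 0 ≤ ε) (f : 𝔹 → 𝔹) (hf : ∀ b ∈ F, ‖b - f b‖ ≤ ε / 3) [DecidableEq 𝔹]
    (h : GoodEx B ψ (F.image f) (ε / 3)) : GoodEx B ψ F ε := by
  obtain ⟨a, haB, ha0, ha1, hψ, hF⟩ := h
  refine ⟨a, haB, ha0, ha1, by linarith, fun b hb => ?_⟩
  have h2 := hF (f b) (Finset.mem_image_of_mem f hb)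
  have h3 := norm_exc_sub_le h1 ha0 ha1 (b := b) (c := f b)
  have h4 := hf b hb
  linarith

/-- one step of the reflection -/
theorem Sys.reflect_step {ψ : 𝔹 →ₚ[ℂ] ℂ} (h1 : ψ 1 = 1)
    (hex : ∀ F : Finset 𝔹, (∀ b ∈ F, b ∈ Sg.A Set.univ) → ∀ ε > 0,
      GoodEx (Sg.A Set.univ) ψ F ε) {T : Set I} (hT : T.Countable) :
    ∃ T' : Set I, T ⊆ T' ∧ T'.Countable ∧ IsCl Sg.ch T' ∧
      ∀ F : Finset 𝔹, (∀ b ∈ F, b ∈ Sg.A T) → ∀ ε > 0, GoodEx (Sg.A T') ψ F ε := by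
  classical
  obtain ⟨d, hd, hdd⟩ := exists_dense_seq (M.base_countable.union (hT.image Sg.u))
  have hd' : ∀ n, d n ∈ Sg.A Set.univ := fun n => Sg.A_mono_R (Set.subset_univ T) (hd n)
  have h2 : ∀ (s : Finset ℕ) (k : ℕ), ∃ T₁ : Set I, T₁.Countable ∧
      GoodEx (Sg.A T₁) ψ (s.image d) (1 / ((k : ℝ) + 1)) := by
    intro s k
    obtain ⟨a, haA, ha0, ha1, haψ, haF⟩ := hex (s.image d) (by
      intro b hb
      obtain ⟨n, -, rfl⟩ := Finset.mem_image.mp hb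
      exact hd' n) (1 / ((k : ℝ) + 1)) (by positivity)
    obtain ⟨T₁, hT₁c, -, haT₁⟩ := Sg.exists_support haA
    exact ⟨T₁, hT₁c, a, haT₁, ha0, ha1, haψ, haF⟩
  choose T₁ hT₁c hT₁ using h2
  obtain ⟨T', hTT', hT'c, hT'cl⟩ := Sg.exists_cl
    (hT.union (Set.countable_iUnion fun s : Finset ℕ => Set.countable_iUnion fun k => hT₁c s k))
  refine ⟨T', Set.subset_union_left.trans hTT', hT'c, hT'cl, ?_⟩
  intro F hF ε hε
  have h3 : ∀ b : 𝔹, ∃ n : ℕ, b ∈ F → ‖b - d n‖ ≤ ε / 3 := by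
    intro b
    by_cases hb : b ∈ F
    · obtain ⟨n, hn⟩ := hdd b (hF b hb) (ε / 3) (by positivity)
      exact ⟨n, fun _ => hn.le⟩
    · exact ⟨0, fun h => absurd h hb⟩
  choose j hj using h3
  obtain ⟨k, hk⟩ := exists_nat_one_div_lt (show (0 : ℝ) < ε / 3 by positivity)
  refine GoodEx.approx h1 hε.le (fun b => d (j b)) hj ?_
  have h4 := hT₁ (F.image j) k
  rw [Finset.image_image] at h4
  obtain ⟨a, haA, ha0, ha1, haψ, haF⟩ := h4
  refine ⟨a, ?_, ha0, ha1, by linarith, fun b hb => (haF b hb).trans hk.le⟩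
  refine Sg.A_mono_R ?_ haA
  refine Set.Subset.trans ?_ hTT'
  exact ((Set.subset_iUnion (fun k => T₁ (F.image j) k) k).trans
    (Set.subset_iUnion (fun s => ⋃ k, T₁ s k) (F.image j))).trans Set.subset_union_right

/-- (E4): `ψ` is a state of `𝔹` which is approximately excised on `A_univ` (finitely many elements
at a time); then there is a countable closed set `T` and a sequence in `A_T` excising `ψ`. -/
theorem Sys.reflect {ψ : 𝔹 →ₚ[ℂ] ℂ} (h1 : ψ 1 = 1)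
    (hex : ∀ F : Finset 𝔹, (∀ b ∈ F, b ∈ Sg.A Set.univ) → ∀ ε > 0, ∃ a ∈ Sg.A Set.univ,
      0 ≤ a ∧ a ≤ 1 ∧ 1 - ε ≤ (ψ a).re ∧ ∀ b ∈ F, ‖a * (b - ψ b • 1) * a‖ ≤ ε)
    {S : Set I} (hS : S.Countable) :
    ∃ T : Set I, S ⊆ T ∧ T.Countable ∧ IsCl Sg.ch T ∧ ∃ a : ℕ → 𝔹, Exc (Sg.A T) ψ a := by
  classical
  have hstep : ∀ T : {T : Set I // T.Countable}, ∃ T' : {T : Set I // T.Countable}, T.1 ⊆ T'.1 ∧
      IsCl Sg.ch T'.1 ∧
      ∀ F : Finset 𝔹, (∀ b ∈ F, b ∈ Sg.A T.1) → ∀ ε > 0, GoodEx (Sg.A T'.1) ψ F ε := by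
    rintro ⟨T, hT⟩
    obtain ⟨T', h2, h3, h4, h5⟩ := Sg.reflect_step h1 hex hT
    exact ⟨⟨T', h3⟩, h2, h4, h5⟩
  choose st hst hstcl hstex using hstep
  let D : ℕ → {T : Set I // T.Countable} := fun n => Nat.rec ⟨S, hS⟩ (fun _ T => st T) n
  have hDs : ∀ n, D (n + 1) = st (D n) := fun n => rfl
  have hmono : Monotone fun n => (D n).1 := monotone_nat_of_le_succ fun n => by
    rw [hDs]; exact hst (D n)
  set T : Set I := ⋃ n, (D n).1 with hTdef
  have hTc : T.Countable := Set.countable_iUnion fun n => (D n).2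
  have hTcl : IsCl Sg.ch T := by
    intro i hi
    obtain ⟨n, hn⟩ := Set.mem_iUnion.mp hi
    have h2 : IsCl Sg.ch (D (n + 1)).1 := by rw [hDs]; exact hstcl (D n)
    have h3 : i ∈ (D (n + 1)).1 := hmono (Nat.le_succ n) hn
    exact (h2 i h3).trans (Set.subset_iUnion (fun n => (D n).1) (n + 1))
  -- approximation of elements of `A_T`
  have happ : ∀ x ∈ Sg.A T, ∀ ε > 0, ∃ n, ∃ y ∈ Sg.A (D n).1, ‖x - y‖ ≤ ε := by
    let S' : ℕ → Set 𝔹 := fun n => M.base ∪ Sg.u '' (D n).1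
    have hdir : Directed (· ⊆ ·) S' := by
      intro n m
      exact ⟨max n m, Set.union_subset_union_right _ (Set.image_mono (hmono (le_max_left _ _))),
        Set.union_subset_union_right _ (Set.image_mono (hmono (le_max_right _ _)))⟩
    have hU : M.base ∪ Sg.u '' T ⊆ ⋃ n, S' n := by
      rintro y (hy | ⟨i, hi, rfl⟩)
      · exact Set.mem_iUnion.mpr ⟨0, Or.inl hy⟩
      · obtain ⟨n, hn⟩ := Set.mem_iUnion.mp hi
        exact Set.mem_iUnion.mpr ⟨n, Or.inr ⟨i, hn, rfl⟩⟩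
    intro x hx
    refine mem_of_directed hdir (W := {x | ∀ ε > 0, ∃ n, ∃ y ∈ Sg.A (D n).1, ‖x - y‖ ≤ ε})
      ?_ ?_ x (cs_mono hU hx)
    · rw [← isSeqClosed_iff_isClosed]
      intro y y₀ hy hlim ε hε
      obtain ⟨m, hm⟩ := ((Metric.tendsto_atTop.mp hlim) (ε / 2) (by positivity))
      obtain ⟨n, z, hz, hyz⟩ := hy m (ε / 2) (by positivity)
      refine ⟨n, z, hz, ?_⟩
      have h5 := hm m le_rfl
      rw [dist_eq_norm, norm_sub_rev] at h5
      calc ‖y₀ - z‖ = ‖(y₀ - y m) + (y m - z)‖ := by congr 1; abel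
        _ ≤ ‖y₀ - y m‖ + ‖y m - z‖ := norm_add_le _ _
        _ ≤ ε := by linarith
    · intro n y hy ε hε
      exact ⟨n, y, hy, by rw [sub_self, norm_zero]; exact hε.le⟩
  have hgood : ∀ F : Finset 𝔹, (∀ b ∈ F, b ∈ Sg.A T) → ∀ ε > 0, GoodEx (Sg.A T) ψ F ε := by
    intro F hF ε hε
    have h3 : ∀ b : 𝔹, ∃ n, ∃ y, b ∈ F → (y ∈ Sg.A (D n).1 ∧ ‖b - y‖ ≤ ε / 3) := by
      intro b
      by_cases hb : b ∈ F
      · obtain ⟨n, y, hy, hby⟩ := happ b (hF b hb) (ε / 3) (by positivity)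
        exact ⟨n, y, fun _ => ⟨hy, hby⟩⟩
      · exact ⟨0, 0, fun h => absurd h hb⟩
    choose n f hf using h3
    refine GoodEx.approx h1 hε.le f (fun b hb => (hf b hb).2) ?_
    have h4 := hstex (D (F.sup n)) (F.image f) (by
      intro b hb
      obtain ⟨c, hc, rfl⟩ := Finset.mem_image.mp hb
      exact Sg.A_mono_R (hmono (Finset.le_sup hc)) (hf c hc).1) (ε / 3) (by positivity)
    obtain ⟨a, haA, ha⟩ := h4
    refine ⟨a, Sg.A_mono_R ?_ haA, ha⟩
    rw [← hDs]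
    exact Set.subset_iUnion (fun n => (D n).1) (F.sup n + 1)
  obtain ⟨d, hd, hdd⟩ := exists_dense_seq (M.base_countable.union (hTc.image Sg.u))
  have hsel : ∀ n : ℕ, GoodEx (Sg.A T) ψ ((Finset.range (n + 1)).image d) (1 / ((n : ℝ) + 1)) := by
    intro n
    refine hgood _ ?_ _ (by positivity)
    intro b hb
    obtain ⟨k, -, rfl⟩ := Finset.mem_image.mp hb
    exact hd k
  choose a haA ha0 ha1 haψ haF using hsel
  refine ⟨T, Set.subset_iUnion (fun n => (D n).1) 0, hTc, hTcl, a, h1, haA, ha0, ha1, ?_, ?_⟩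
  · -- `ψ (a j) → 1`
    have hreal : ∀ j, ψ (a j) = ((ψ (a j)).re : ℂ) := by
      intro j
      have h2 : 0 ≤ ψ (a j) := by
        have := OrderHomClass.mono ψ (ha0 j)
        rwa [map_zero] at this
      exact (Complex.eq_re_of_ofReal_le (r := 0) (by simpa using h2))
    have hle : ∀ j, (ψ (a j)).re ≤ 1 := by
      intro j
      have h2 := OrderHomClass.mono ψ (ha1 j)
      rw [h1] at h2
      simpa using (Complex.le_def.mp h2).1
    have h3 : Tendsto (fun j : ℕ => (ψ (a j)).re) atTop (𝓝 1) := by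
      have h4 : Tendsto (fun j : ℕ => 1 - 1 / ((j : ℝ) + 1)) atTop (𝓝 (1 - 0)) :=
        tendsto_const_nhds.sub tendsto_one_div_add_atTop_nhds_zero_nat
      rw [sub_zero] at h4
      exact tendsto_of_tendsto_of_tendsto_of_le_of_le h4 tendsto_const_nhds haψ hle
    have h5 := (Complex.continuous_ofReal.tendsto (1 : ℝ)).comp h3
    rw [Complex.ofReal_one] at h5
    refine h5.congr fun j => ?_
    exact (hreal j).symm
  · intro b hb
    have e : ∀ j, a j * b * a j - ψ b • (a j * a j) = a j * (b - ψ b • 1) * a j := by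
      intro j
      rw [mul_sub, sub_mul, mul_smul_comm, mul_one, smul_mul_assoc]
    simp_rw [e]
    rw [Metric.tendsto_atTop]
    intro ε hε
    obtain ⟨k, hk⟩ := hdd b hb (ε / 4) (by positivity)
    obtain ⟨N, hN⟩ := exists_nat_one_div_lt (show (0 : ℝ) < ε / 4 by positivity)
    refine ⟨max k N, fun n hn => ?_⟩
    rw [dist_zero_right, norm_norm]
    have h2 := haF n (d k) (Finset.mem_image_of_mem d
      (Finset.mem_range.mpr (Nat.lt_succ_of_le ((le_max_left _ _).trans hn))))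
    have h3 := norm_exc_sub_le h1 (ha0 n) (ha1 n) (b := b) (c := d k)
    have h4 : 1 / ((n : ℝ) + 1) ≤ 1 / ((N : ℝ) + 1) := by
      apply one_div_le_one_div_of_le (by positivity)
      have : (N : ℝ) ≤ n := by exact_mod_cast (le_max_right _ _).trans hn
      linarith
    linarith

end Crest.Agent.R120
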