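import Crest.Agent.R120.Defs

/-!
# Abstract regular representation (row 120, concrete model)
-/

set_option autoImplicit false

namespace Crest.Agent.R120

open scoped ComplexOrder InnerProductSpace
open Filter Topology

/-- The regular representation of `Γ` on `H` with canonical orthonormal basis `δ`, left translations
`lam` and right translations `rho`. -/
structure RegRep (Γ : Type) [Group Γ] (H : Type) [NormedAddCommGroup H] [InnerProductSpace ℂ H]
    [CompleteSpace H] where
  δ : Γ → H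
  lam : Γ → (H →L[ℂ] H)
  rho : Γ → (H →L[ℂ] H)
  ortho : Orthonormal ℂ δ
  dense : (Submodule.span ℂ (Set.range δ)).topologicalClosure = ⊤
  lam_δ : ∀ g h, lam g (δ h) = δ (g * h)
  rho_δ : ∀ g h, rho g (δ h) = δ (h * g⁻¹)

section VecState

variable {H : Type} [NormedAddCommGroup H] [InnerProductSpace ℂ H] [CompleteSpace H]

/-- The vector functional `T ↦ ⟪ξ, T ξ⟫`. -/
noncomputable def vecState (ξ : H) : (H →L[ℂ] H) →ₚ[ℂ] ℂ :=
  PositiveLinearMap.mk₀
    { toFun := fun T => ⟪ξ, T ξ⟫_ℂ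
      map_add' := fun S T => by simp [inner_add_right]
      map_smul' := fun c T => by simp [inner_smul_right] } (by
    intro T hT
    have h := (ContinuousLinearMap.nonneg_iff_isPositive T).1 hT
    exact h.inner_nonneg_right ξ)

theorem vecState_apply (ξ : H) (T : H →L[ℂ] H) : vecState ξ T = ⟪ξ, T ξ⟫_ℂ := rfl

theorem vecState_one {ξ : H} (h : ‖ξ‖ = 1) : vecState ξ 1 = 1 := by
  rw [vecState_apply]
  simp [inner_self_eq_norm_sq_to_K, h]

/-- extension by density: bounded operators agreeing on a set with dense span are equal -/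
theorem clm_ext {ι : Type} {δ : ι → H}
    (hd : (Submodule.span ℂ (Set.range δ)).topologicalClosure = ⊤) {S T : H →L[ℂ] H}
    (h : ∀ i, S (δ i) = T (δ i)) : S = T := by
  apply ContinuousLinearMap.ext_on
    (s := Set.range δ)
  · rw [← Submodule.dense_iff_topologicalClosure_eq_top] at hd
    exact hd
  · rintro _ ⟨i, rfl⟩
    exact h i

/-- vectors orthogonal to a total family vanish; equality of vectors tested against `δ` -/
theorem vec_ext {ι : Type} {δ : ι → H}
    (hd : (Submodule.span ℂ (Set.range δ)).topologicalClosure = ⊤) {x y : H}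
    (h : ∀ i, ⟪δ i, x⟫_ℂ = ⟪δ i, y⟫_ℂ) : x = y := by
  rw [← sub_eq_zero]
  have hz : ∀ v : H, ⟪v, x - y⟫_ℂ = 0 := by
    intro v
    have hv : v ∈ (Submodule.span ℂ (Set.range δ)).topologicalClosure := by
      rw [hd]; trivial
    have hcl : IsClosed {v : H | ⟪v, x - y⟫_ℂ = 0} :=
      isClosed_eq (by fun_prop) continuous_const
    have hsub : (Submodule.span ℂ (Set.range δ) : Set H) ⊆ {v : H | ⟪v, x - y⟫_ℂ = 0} := by
      intro w hw
      refine Submodule.span_induction (p := fun w _ => ⟪w, x - y⟫_ℂ = 0) ?_ ?_ ?_ ?_ hw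
      · rintro _ ⟨i, rfl⟩
        rw [inner_sub_right, h i, sub_self]
      · simp
      · intro a b _ _ ha hb
        rw [inner_add_left, ha, hb, add_zero]
      · intro c a _ ha
        rw [inner_smul_left, ha, mul_zero]
    exact closure_minimal hsub hcl hv
  exact inner_self_eq_zero.1 (hz (x - y))

end VecState

namespace RegRep

variable {Γ : Type} [Group Γ] {H : Type} [NormedAddCommGroup H] [InnerProductSpace ℂ H]
  [CompleteSpace H] (R : RegRep Γ H)

theorem inner_δ [DecidableEq Γ] (g h : Γ) : ⟪R.δ g, R.δ h⟫_ℂ = if g = h then 1 else 0 :=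
  orthonormal_iff_ite.1 R.ortho g h

theorem norm_δ (g : Γ) : ‖R.δ g‖ = 1 := R.ortho.norm_eq_one g

theorem ext_δ {S T : H →L[ℂ] H} (h : ∀ g, S (R.δ g) = T (R.δ g)) : S = T :=
  clm_ext R.dense h

theorem lam_mul (g h : Γ) : R.lam (g * h) = R.lam g * R.lam h := by
  apply R.ext_δ
  intro x
  rw [ContinuousLinearMap.mul_apply, R.lam_δ, R.lam_δ, R.lam_δ, mul_assoc]

theorem lam_one : R.lam 1 = 1 := by
  apply R.ext_δ
  intro x
  rw [R.lam_δ, one_mul, ContinuousLinearMap.one_apply]

theorem rho_mul (g h : Γ) : R.rho (g * h) = R.rho g * R.rho h := by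
  apply R.ext_δ
  intro x
  rw [ContinuousLinearMap.mul_apply, R.rho_δ, R.rho_δ, R.rho_δ, mul_inv_rev, mul_assoc]

theorem rho_one : R.rho 1 = 1 := by
  apply R.ext_δ
  intro x
  rw [R.rho_δ, inv_one, mul_one, ContinuousLinearMap.one_apply]

theorem star_lam (g : Γ) : star (R.lam g) = R.lam g⁻¹ := by
  classical
  apply R.ext_δ
  intro x
  apply vec_ext R.dense
  intro y
  rw [ContinuousLinearMap.star_eq_adjoint, ContinuousLinearMap.adjoint_inner_right, R.lam_δ,
    R.lam_δ, R.inner_δ, R.inner_δ]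
  congr 1
  rw [eq_iff_iff]
  constructor
  · rintro rfl; simp
  · rintro rfl; simp

theorem star_rho (g : Γ) : star (R.rho g) = R.rho g⁻¹ := by
  classical
  apply R.ext_δ
  intro x
  apply vec_ext R.dense
  intro y
  rw [ContinuousLinearMap.star_eq_adjoint, ContinuousLinearMap.adjoint_inner_right, R.rho_δ,
    R.rho_δ, R.inner_δ, R.inner_δ]
  congr 1
  rw [eq_iff_iff]
  constructor
  · rintro rfl; simp
  · rintro rfl; simp

theorem commute_lam_rho (g h : Γ) : Commute (R.lam g) (R.rho h) := by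
  apply R.ext_δ
  intro x
  rw [ContinuousLinearMap.mul_apply, ContinuousLinearMap.mul_apply, R.lam_δ, R.rho_δ, R.rho_δ,
    R.lam_δ, mul_assoc]

theorem lam_mem_unitary (g : Γ) : R.lam g ∈ unitary (H →L[ℂ] H) := by
  rw [Unitary.mem_iff, star_lam, ← lam_mul, ← lam_mul]
  simp [lam_one]

theorem rho_mem_unitary (g : Γ) : R.rho g ∈ unitary (H →L[ℂ] H) := by
  rw [Unitary.mem_iff, star_rho, ← rho_mul, ← rho_mul]
  simp [rho_one]

theorem norm_rho_apply (g : Γ) (x : H) : ‖R.rho g x‖ = ‖x‖ :=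
  ContinuousLinearMap.norm_map_of_mem_unitary (R.rho_mem_unitary g) x

theorem norm_lam_apply (g : Γ) (x : H) : ‖R.lam g x‖ = ‖x‖ :=
  ContinuousLinearMap.norm_map_of_mem_unitary (R.lam_mem_unitary g) x

/-- the canonical trace -/
noncomputable def tr : (H →L[ℂ] H) →ₚ[ℂ] ℂ := vecState (R.δ 1)

theorem tr_apply (T : H →L[ℂ] H) : R.tr T = ⟪R.δ 1, T (R.δ 1)⟫_ℂ := rfl

theorem tr_one : R.tr 1 = 1 := vecState_one (R.norm_δ 1)

theorem tr_lam [DecidableEq Γ] (g : Γ) : R.tr (R.lam g) = if g = 1 then 1 else 0 := by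
  rw [tr_apply, lam_δ, mul_one, inner_δ]
  congr 1
  exact propext ⟨Eq.symm, Eq.symm⟩

theorem δ_eq_rho (g : Γ) : R.δ g = R.rho g⁻¹ (R.δ 1) := by
  rw [rho_δ, inv_inv, one_mul]

/-- operators commuting with right translations are determined by their value at `δ 1` -/
theorem apply_δ_of_commute {T : H →L[ℂ] H} (hT : ∀ g, Commute T (R.rho g)) (g : Γ) :
    T (R.δ g) = R.rho g⁻¹ (T (R.δ 1)) := by
  rw [R.δ_eq_rho]
  have := congrArg (fun S => S (R.δ 1)) (hT g⁻¹).eq
  simpa using this

theorem norm_apply_δ_of_commute {T : H →L[ℂ] H} (hT : ∀ g, Commute T (R.rho g)) (g : Γ) :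
    ‖T (R.δ g)‖ = ‖T (R.δ 1)‖ := by
  rw [R.apply_δ_of_commute hT, norm_rho_apply]

end RegRep

end Crest.Agent.R120
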