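import Crest.Agent.R120.Reflect

/-!
# Simplicity (Powers averaging) (blueprint section 7)
-/

set_option autoImplicit false

namespace Crest.Agent.R120

open scoped ComplexOrder
open Filter Topology

variable {𝔹 : Type} [CStarAlgebra 𝔹] [PartialOrder 𝔹] [StarOrderedRing 𝔹] {X : Type}
variable {M : PP 𝔹 X} {I : Type} [LinearOrder I] [WellFoundedLT I] (Sg : Sys M I)

omit [PartialOrder 𝔹] [StarOrderedRing 𝔹] in
/-- orthogonal left ranges: `‖∑ P_k A_k‖² ≤ n C²` -/
theorem norm_sum_proj_mul_le {P A : ℕ → 𝔹} {C : ℝ} (hP : ∀ k, IsStarProjection (P k))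
    (horth : ∀ k l, k ≠ l → P k * P l = 0) (hA : ∀ k, ‖A k‖ ≤ C) (n : ℕ) :
    ‖∑ k ∈ Finset.range n, P k * A k‖ ≤ Real.sqrt n * C := by
  have hC : 0 ≤ C := (norm_nonneg _).trans (hA 0)
  have h1 : star (∑ k ∈ Finset.range n, P k * A k) * (∑ k ∈ Finset.range n, P k * A k)
      = ∑ k ∈ Finset.range n, star (A k) * (P k * A k) := by
    rw [star_sum, Finset.sum_mul]
    refine Finset.sum_congr rfl fun k hk => ?_
    rw [Finset.mul_sum, Finset.sum_eq_single k]
    · rw [star_mul, (hP k).isSelfAdjoint.star_eq]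
      have := (hP k).isIdempotentElem.eq
      rw [mul_assoc, ← mul_assoc (P k), this]
    · intro l _ hl
      rw [star_mul, (hP k).isSelfAdjoint.star_eq, mul_assoc, ← mul_assoc (P k),
        horth k l (Ne.symm hl), zero_mul, mul_zero]
    · intro h; exact absurd hk h
  have h2 : ‖∑ k ∈ Finset.range n, P k * A k‖ ^ 2 ≤ (Real.sqrt n * C) ^ 2 := by
    rw [sq, ← CStarRing.norm_star_mul_self, h1, mul_pow, Real.sq_sqrt (Nat.cast_nonneg n)]
    refine (norm_sum_le _ _).trans ?_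
    calc ∑ k ∈ Finset.range n, ‖star (A k) * (P k * A k)‖
        ≤ ∑ k ∈ Finset.range n, C ^ 2 := by
          refine Finset.sum_le_sum fun k _ => ?_
          calc ‖star (A k) * (P k * A k)‖ ≤ ‖star (A k)‖ * (‖P k‖ * ‖A k‖) :=
                (norm_mul_le _ _).trans (mul_le_mul_of_nonneg_left (norm_mul_le _ _)
                  (norm_nonneg _))
            _ ≤ C * (1 * C) := by
                rw [norm_star]
                have h3 : ‖P k‖ ≤ 1 := (hP k).norm_le
                gcongr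
                · exact hA k
                · exact hA k
            _ = C ^ 2 := by ring
      _ = n * C ^ 2 := by simp
  exact le_of_sq_le_sq h2 (by positivity)

omit [PartialOrder 𝔹] [StarOrderedRing 𝔹] in
theorem norm_sum_mul_proj_le {P A : ℕ → 𝔹} {C : ℝ} (hP : ∀ k, IsStarProjection (P k))
    (horth : ∀ k l, k ≠ l → P k * P l = 0) (hA : ∀ k, ‖A k‖ ≤ C) (n : ℕ) :
    ‖∑ k ∈ Finset.range n, A k * P k‖ ≤ Real.sqrt n * C := by
  have h := norm_sum_proj_mul_le (A := fun k => star (A k)) hP horth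
    (fun k => by rw [norm_star]; exact hA k) n
  rw [← norm_star, star_sum]
  simpa [star_mul, (hP _).isSelfAdjoint.star_eq] using h

/-- averaging over free involutions -/
theorem PP.averaging (M : PP 𝔹 X) {Y : Set X} (x : ℕ → X) (hinj : Function.Injective x)
    (hx : ∀ n, x n ∉ Y) {T : 𝔹} (hT : T ∈ M.U Y) :
    Tendsto (fun n : ℕ => ‖((n + 1 : ℂ)⁻¹ • ∑ k ∈ Finset.range (n + 1),
      M.G (x k) * T * M.G (x k)) - M.τ T • 1‖) atTop (𝓝 0) := by
  have hnt : Nontrivial 𝔹 := ⟨⟨M.P (x 0), 0, M.P_ne _⟩⟩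
  have hG : ∀ k, ‖M.G k‖ ≤ 1 := by
    intro k
    have : ‖M.G k‖ * ‖M.G k‖ = 1 := by
      rw [← CStarRing.norm_star_mul_self, M.G_sa, M.G_sq, CStarRing.norm_one]
    nlinarith [norm_nonneg (M.G k)]
  set T₀ : 𝔹 := T - M.τ T • 1 with hT₀
  have hT₀U : T₀ ∈ M.U Y := sub_mem hT ((M.U Y).smul_mem (one_mem _) _)
  have hτ₀ : M.τ T₀ = 0 := by
    rw [hT₀, map_sub, map_smul, M.τ_one]; simp
  have hdec : ∀ k, M.G (x k) * T * M.G (x k) - M.τ T • 1 =
      M.P (x k) * (M.G (x k) * T₀ * M.G (x k)) +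
        (M.G (x k) * M.P (x k) * T₀ * M.G (x k)) * M.P (x k) := by
    intro k
    have e1 : M.G (x k) * T * M.G (x k) - M.τ T • 1 = M.G (x k) * T₀ * M.G (x k) := by
      rw [hT₀, mul_sub, sub_mul, mul_smul_comm, mul_one, smul_mul_assoc, M.G_sq]
    have hP0 : M.P (x k) * T₀ * M.P (x k) = 0 := by
      rw [M.PTP_same Y (x k) T₀ (hx k) hT₀U, hτ₀, zero_smul]
    set G := M.G (x k) with hGdef
    set P := M.P (x k) with hPdef
    have hGe : G = P * G + G * P := M.G_eq (x k)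
    have e2 : P * T₀ * G = P * T₀ * G * P := by
      calc P * T₀ * G = P * T₀ * (P * G + G * P) := by rw [← hGe]
        _ = (P * T₀ * P) * G + P * T₀ * G * P := by noncomm_ring
        _ = P * T₀ * G * P := by rw [hP0, zero_mul, zero_add]
    rw [e1]
    calc G * T₀ * G = (P * G + G * P) * T₀ * G := by rw [← hGe]
      _ = P * (G * T₀ * G) + G * (P * T₀ * G) := by noncomm_ring
      _ = P * (G * T₀ * G) + G * (P * T₀ * G * P) := by rw [← e2]
      _ = P * (G * T₀ * G) + (G * P * T₀ * G) * P := by noncomm_ring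
  have hbd : ∀ n : ℕ, ‖((n + 1 : ℂ)⁻¹ • ∑ k ∈ Finset.range (n + 1),
      M.G (x k) * T * M.G (x k)) - M.τ T • 1‖ ≤ 2 * ‖T₀‖ / Real.sqrt (n + 1) := by
    intro n
    have hn : ((n : ℂ) + 1) ≠ 0 := Nat.cast_add_one_ne_zero n
    have e3 : ((n + 1 : ℂ)⁻¹ • ∑ k ∈ Finset.range (n + 1),
        M.G (x k) * T * M.G (x k)) - M.τ T • 1 =
        (n + 1 : ℂ)⁻¹ • (∑ k ∈ Finset.range (n + 1),
          M.P (x k) * (M.G (x k) * T₀ * M.G (x k)) +
          ∑ k ∈ Finset.range (n + 1),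
          (M.G (x k) * M.P (x k) * T₀ * M.G (x k)) * M.P (x k)) := by
      rw [← Finset.sum_add_distrib]
      rw [← Finset.sum_congr rfl (fun k _ => hdec k)]
      rw [Finset.sum_sub_distrib, smul_sub]
      congr 1
      rw [Finset.sum_const, Finset.card_range, ← Nat.cast_smul_eq_nsmul ℂ, smul_smul,
        Nat.cast_add, Nat.cast_one, inv_mul_cancel₀ hn, one_smul]
    rw [e3, norm_smul]
    have hPp : ∀ k, IsStarProjection (M.P (x k)) := fun k => M.P_proj _
    have horth : ∀ k l, k ≠ l → M.P (x k) * M.P (x l) = 0 :=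
      fun k l hkl => M.P_orth _ _ (fun h => hkl (hinj h))
    have hPn : ∀ k, ‖M.P (x k)‖ ≤ 1 := fun k => (hPp k).norm_le
    have b1 : ∀ k, ‖M.G (x k) * T₀ * M.G (x k)‖ ≤ ‖T₀‖ := by
      intro k
      calc ‖M.G (x k) * T₀ * M.G (x k)‖ ≤ ‖M.G (x k)‖ * ‖T₀‖ * ‖M.G (x k)‖ :=
            (norm_mul_le _ _).trans (mul_le_mul_of_nonneg_right (norm_mul_le _ _) (norm_nonneg _))
        _ ≤ 1 * ‖T₀‖ * 1 := by
            gcongr
            · exact hG _
            · exact hG _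
        _ = ‖T₀‖ := by ring
    have b2 : ∀ k, ‖M.G (x k) * M.P (x k) * T₀ * M.G (x k)‖ ≤ ‖T₀‖ := by
      intro k
      calc ‖M.G (x k) * M.P (x k) * T₀ * M.G (x k)‖
          ≤ ‖M.G (x k)‖ * ‖M.P (x k)‖ * ‖T₀‖ * ‖M.G (x k)‖ :=
            (norm_mul_le _ _).trans (mul_le_mul_of_nonneg_right
              ((norm_mul_le _ _).trans (mul_le_mul_of_nonneg_right (norm_mul_le _ _)
                (norm_nonneg _))) (norm_nonneg _))
        _ ≤ 1 * 1 * ‖T₀‖ * 1 := by
            gcongr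
            · exact hG _
            · exact hPn _
            · exact hG _
        _ = ‖T₀‖ := by ring
    have c1 := norm_sum_proj_mul_le hPp horth b1 (n + 1)
    have c2 := norm_sum_mul_proj_le hPp horth b2 (n + 1)
    have hs : 0 < Real.sqrt (n + 1) := Real.sqrt_pos.mpr (by positivity)
    have hs2 : Real.sqrt (n + 1) * Real.sqrt (n + 1) = (n : ℝ) + 1 :=
      Real.mul_self_sqrt (by positivity)
    have hninv : ‖((n : ℂ) + 1)⁻¹‖ = ((n : ℝ) + 1)⁻¹ := by
      rw [norm_inv]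
      congr 1
      have : ((n : ℂ) + 1) = (((n : ℝ) + 1 : ℝ) : ℂ) := by push_cast; rfl
      rw [this, Complex.norm_real, Real.norm_of_nonneg (by positivity)]
    rw [hninv]
    push_cast at c1 c2
    calc ((n : ℝ) + 1)⁻¹ * ‖_ + _‖ ≤ ((n : ℝ) + 1)⁻¹ *
          (Real.sqrt (n + 1) * ‖T₀‖ + Real.sqrt (n + 1) * ‖T₀‖) := by
          gcongr
          exact (norm_add_le _ _).trans (add_le_add c1 c2)
      _ = 2 * ‖T₀‖ / Real.sqrt (n + 1) := by
          have hs3 : ((n : ℝ) + 1)⁻¹ = (Real.sqrt (n + 1) * Real.sqrt (n + 1))⁻¹ := by rw [hs2]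
          rw [hs3]
          generalize Real.sqrt ((n : ℝ) + 1) = s at hs
          field_simp
          ring
  refine squeeze_zero (fun n => norm_nonneg _) hbd ?_
  have h3 : Tendsto (fun n : ℕ => Real.sqrt ((n : ℝ) + 1)) atTop atTop := by
    have h4 : Tendsto (fun n : ℕ => (n : ℝ) + 1) atTop atTop :=
      tendsto_atTop_add_const_right _ _ tendsto_natCast_atTop_atTop
    exact Real.tendsto_sqrt_atTop.comp h4
  exact h3.const_div_atTop _

/-- the big algebra is simple -/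
theorem Sys.simple [Uncountable X] (J : TwoSidedIdeal (Sg.A Set.univ))
    (hJ : IsClosed (J : Set (Sg.A Set.univ))) : J = ⊥ ∨ J = ⊤ := by
  by_cases hbot : J = ⊥
  · exact Or.inl hbot
  right
  have hcl : IsCl Sg.ch Set.univ := fun i _ j _ => Set.mem_univ j
  have hX' : Sg.X' Set.univ = Set.univ := by ext x; simp [Sys.X']
  have hAU : Sg.A Set.univ ≤ M.U Set.univ := by
    have := Sg.A_le_U hcl
    rwa [hX'] at this
  -- a nonzero element
  obtain ⟨x, hxJ, hx0⟩ : ∃ x ∈ J, x ≠ 0 := by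
    by_contra hcon
    push Not at hcon
    apply hbot
    apply le_antisymm _ bot_le
    intro x hx
    rw [hcon x hx]
    exact TwoSidedIdeal.zero_mem _
  have hzJ : star x * x ∈ J := J.mul_mem_left _ _ hxJ
  set z : Sg.A Set.univ := star x * x with hz
  have hτ : M.τ (z : 𝔹) ≠ 0 := by
    intro h0
    apply hx0
    have h1 : (z : 𝔹) = star (x : 𝔹) * (x : 𝔹) := by rw [hz]; rfl
    rw [h1] at h0
    have h2 := M.τ_faithful (x : 𝔹) (hAU x.2) h0
    exact Subtype.ext h2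
  obtain ⟨T, hTc, hTcl, hzT⟩ := Sg.exists_support z.2
  have hzU : (z : 𝔹) ∈ M.U (Sg.X' T) := Sg.A_le_U hTcl hzT
  have hXc : (Sg.X' T).Countable := hTc.preimage_of_injOn Sg.gen_inj.injOn
  have hinf : (Sg.X' T)ᶜ.Infinite := by
    intro hfin
    have : (Set.univ : Set X).Countable := by
      rw [← Set.union_compl_self (Sg.X' T)]
      exact hXc.union hfin.countable
    exact (Set.not_countable_univ_iff.mpr inferInstance) this
  obtain ⟨f⟩ : Nonempty (ℕ ↪ ((Sg.X' T)ᶜ : Set X)) := ⟨hinf.natEmbedding⟩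
  set g : ℕ → X := fun n => (f n : X) with hg
  have hginj : Function.Injective g := fun a b hab => f.injective (Subtype.ext hab)
  have hgx : ∀ n, g n ∉ Sg.X' T := fun n => (f n).2
  have hav := M.averaging g hginj hgx hzU
  have hGA : ∀ x : X, M.G x ∈ Sg.A Set.univ := by
    intro x
    rw [← Sg.u_gen x]
    exact subset_cs _ (Or.inr ⟨Sg.gen x, Set.mem_univ _, rfl⟩)
  have hsm : ∀ (c : ℂ) (y : Sg.A Set.univ), y ∈ J → c • y ∈ J := by
    intro c y hy
    have : c • y = (c • (1 : Sg.A Set.univ)) * y := by rw [smul_mul_assoc, one_mul]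
    rw [this]
    exact J.mul_mem_left _ _ hy
  have hsum : ∀ n : ℕ, ∃ w ∈ J, (w : 𝔹) = ((n + 1 : ℂ)⁻¹ • ∑ k ∈ Finset.range (n + 1),
      M.G (g k) * (z : 𝔹) * M.G (g k)) := by
    intro n
    refine ⟨((n + 1 : ℂ)⁻¹ • ∑ k ∈ Finset.range (n + 1),
      (⟨M.G (g k), hGA _⟩ : Sg.A Set.univ) * z * ⟨M.G (g k), hGA _⟩), ?_, ?_⟩
    · apply hsm
      refine sum_mem fun k _ => ?_
      exact J.mul_mem_right _ _ (J.mul_mem_left _ _ hzJ)
    · push_cast
      rfl
  choose w hwJ hw using hsum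
  have hlim : Tendsto w atTop (𝓝 (M.τ (z : 𝔹) • (1 : Sg.A Set.univ))) := by
    rw [tendsto_iff_norm_sub_tendsto_zero]
    refine hav.congr fun n => ?_
    rw [← hw n]
    rfl
  have hmem : M.τ (z : 𝔹) • (1 : Sg.A Set.univ) ∈ J :=
    hJ.mem_of_tendsto hlim (Eventually.of_forall hwJ)
  have h1 : (1 : Sg.A Set.univ) ∈ J := by
    have := hsm (M.τ (z : 𝔹))⁻¹ _ hmem
    rwa [smul_smul, inv_mul_cancel₀ hτ, one_smul] at this
  apply le_antisymm le_top
  intro y _
  have := J.mul_mem_left y 1 h1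
  rwa [mul_one] at this

end Crest.Agent.R120
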