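import Crest.Agent.R120.Defs

/-! Module D, part 2 (helper820): generated C*-algebras, chain induction over a well-ordered set of
generators, and the disjointness lemma (DISJ). -/

set_option autoImplicit false

open Filter Topology
open scoped ComplexOrder

namespace Crest.Agent.R120

section gen

variable {M : Type} [CStarAlgebra M]


lemma subset_cs' (S : Set M) : S ⊆ (cs S : Set M) :=
  (StarAlgebra.subset_adjoin ℂ S).trans (StarSubalgebra.le_topologicalClosure _)

lemma isClosed_cs' (S : Set M) : IsClosed (cs S : Set M) :=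
  StarSubalgebra.isClosed_topologicalClosure _

lemma cs_le' {S : Set M} {B : StarSubalgebra ℂ M} (hB : IsClosed (B : Set M))
    (h : S ⊆ (B : Set M)) : cs S ≤ B :=
  StarSubalgebra.topologicalClosure_minimal (StarAlgebra.adjoin_le h) hB

lemma cs_mono' {S T : Set M} (h : S ⊆ T) : cs S ≤ cs T :=
  cs_le' (isClosed_cs' T) (h.trans (subset_cs' T))

lemma cs_induction_closed' {S : Set M} {P : M → Prop} (hP : IsClosed {x | P x})
    (h : ∀ x ∈ StarAlgebra.adjoin ℂ S, P x) : ∀ x ∈ cs S, P x := by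
  intro x hx
  have : closure ((StarAlgebra.adjoin ℂ S : StarSubalgebra ℂ M) : Set M) ⊆ {x | P x} :=
    closure_minimal (fun y hy => h y hy) hP
  exact this hx

/-- If a closed additive subgroup (closed under scalars) contains `1` and is stable under left
multiplication by the generators and their adjoints, it contains the generated C*-algebra. -/
lemma cs_subset_of_left_stable' {S : Set M} (X : Submodule ℂ M) (hX : IsClosed (X : Set M))
    (h1 : (1 : M) ∈ X) (hS : ∀ s ∈ S, ∀ x ∈ X, s * x ∈ X)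
    (hS' : ∀ s ∈ S, ∀ x ∈ X, star s * x ∈ X) : ∀ x ∈ cs S, x ∈ X := by
  have key : ∀ z ∈ StarAlgebra.adjoin ℂ S, ∀ x ∈ X, z * x ∈ X := by
    intro z hz
    rw [← StarSubalgebra.mem_toSubalgebra, StarAlgebra.adjoin_toSubalgebra] at hz
    induction hz using Algebra.adjoin_induction with
    | mem z hz =>
      rcases hz with hz | hz
      · exact hS z hz
      · intro x hx
        have := hS' (star z) hz x hx
        simpa using this
    | algebraMap r =>
      intro x hx
      rw [← Algebra.smul_def]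
      exact X.smul_mem r hx
    | add a b _ _ ha hb =>
      intro x hx
      rw [add_mul]
      exact X.add_mem (ha x hx) (hb x hx)
    | mul a b _ _ ha hb =>
      intro x hx
      rw [mul_assoc]
      exact ha _ (hb x hx)
  refine cs_induction_closed' (P := fun x => x ∈ X) hX ?_
  intro x hx
  have := key x hx 1 h1
  simpa using this

end gen

section alg

variable {M : Type} [CStarAlgebra M] {ι : Type*}

/-- The C*-algebra generated by a base set and the `u i`, `i ∈ L`. -/
noncomputable def Alg (base : Set M) (u : ι → M) (L : Set ι) : StarSubalgebra ℂ M :=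
  cs (base ∪ u '' L)

lemma Alg_mono (base : Set M) (u : ι → M) {K L : Set ι} (h : K ⊆ L) :
    Alg base u K ≤ Alg base u L :=
  cs_mono' (Set.union_subset_union_right _ (Set.image_mono h))

lemma isClosed_Alg (base : Set M) (u : ι → M) (L : Set ι) :
    IsClosed (Alg base u L : Set M) := isClosed_cs' _

lemma base_mem_Alg {base : Set M} {u : ι → M} {L : Set ι} {x : M} (h : x ∈ base) :
    x ∈ Alg base u L := subset_cs' _ (Or.inl h)

lemma u_mem_Alg {base : Set M} {u : ι → M} {L : Set ι} {i : ι} (h : i ∈ L) :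
    u i ∈ Alg base u L := subset_cs' _ (Or.inr ⟨i, h, rfl⟩)

lemma Alg_le {base : Set M} {u : ι → M} {L : Set ι} {B : StarSubalgebra ℂ M}
    (hB : IsClosed (B : Set M)) (hbase : base ⊆ (B : Set M)) (hu : ∀ i ∈ L, u i ∈ B) :
    Alg base u L ≤ B := by
  refine cs_le' hB ?_
  rintro x (hx | ⟨i, hi, rfl⟩)
  · exact hbase hx
  · exact hu i hi

/-- Adding one generator. -/
lemma Alg_insert_le (base : Set M) (u : ι → M) (L : Set ι) (j : ι) :
    Alg base u (insert j L) ≤ cs ((Alg base u L : Set M) ∪ {u j}) := by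
  refine Alg_le (isClosed_cs' _) ?_ ?_
  · intro x hx
    exact subset_cs' _ (Or.inl (base_mem_Alg hx))
  · rintro i (rfl | hi)
    · exact subset_cs' _ (Or.inr rfl)
    · exact subset_cs' _ (Or.inl (u_mem_Alg hi))

lemma cs_insert_le' (base : Set M) (u : ι → M) (L : Set ι) (j : ι) :
    cs ((Alg base u L : Set M) ∪ {u j}) ≤ Alg base u (insert j L) := by
  refine cs_le' (isClosed_Alg _ _ _) ?_
  rintro x (hx | hx)
  · exact Alg_mono base u (Set.subset_insert j L) hx
  · rw [Set.mem_singleton_iff] at hx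
    rw [hx]
    exact u_mem_Alg (Set.mem_insert j L)

end alg

section tower

variable {M : Type} [CStarAlgebra M] {ι : Type*} [LinearOrder ι] [WellFoundedLT ι]

/-- CHAIN INDUCTION. -/
theorem chain_induction (base : Set M) (u : ι → M) {K L : Set ι} (hKL : K ⊆ L)
    {P : M → Prop} (hP : IsClosed {x | P x})
    (h0 : ∀ x ∈ Alg base u K, P x)
    (hstep : ∀ j ∈ L, j ∉ K → (∀ x ∈ Alg base u (K ∪ {l ∈ L | l < j}), P x) →
      ∀ x ∈ Alg base u (insert j (K ∪ {l ∈ L | l < j})), P x) :
    ∀ x ∈ Alg base u L, P x := by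
  -- auxiliary: for a set `D` of allowed new indices
  have aux : ∀ D : Set ι, (∀ j ∈ D, ∀ i, i ≤ j → i ∈ D) →
      (∀ j ∈ D, j ∈ L → j ∉ K → ∀ x ∈ Alg base u (insert j (K ∪ {l ∈ L | l < j})), P x) →
      ∀ x ∈ Alg base u (K ∪ {l ∈ L | l ∈ D}), P x := by
    intro D hD hQ
    refine cs_induction_closed' hP ?_
    intro x hx
    have hx' : x ∈ Alg base u K ∨ ∃ j ∈ D, j ∈ L ∧ j ∉ K ∧
        x ∈ Alg base u (insert j (K ∪ {l ∈ L | l < j})) := by
      have hmono : ∀ j₁ j₂ : ι, j₁ ∈ L → j₁ ≤ j₂ → Alg base u (insert j₁ (K ∪ {l ∈ L | l < j₁})) ≤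
          Alg base u (insert j₂ (K ∪ {l ∈ L | l < j₂})) := by
        intro j₁ j₂ hj₁ h12
        refine Alg_mono base u ?_
        rintro l (rfl | hl | hl)
        · rcases eq_or_lt_of_le h12 with h | h
          · left; exact h
          · right; right; exact ⟨hj₁, h⟩
        · right; left; exact hl
        · right; right; exact ⟨hl.1, lt_of_lt_of_le hl.2 h12⟩
      have hmono0 : ∀ j : ι, Alg base u K ≤ Alg base u (insert j (K ∪ {l ∈ L | l < j})) := by
        intro j
        exact Alg_mono base u (Set.subset_union_left.trans (Set.subset_insert _ _))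
      -- binary closure
      have bin : ∀ (f : M → M → M),
          (∀ (B : StarSubalgebra ℂ M) (a b : M), a ∈ B → b ∈ B → f a b ∈ B) →
          ∀ a b : M, (a ∈ Alg base u K ∨ ∃ j ∈ D, j ∈ L ∧ j ∉ K ∧
            a ∈ Alg base u (insert j (K ∪ {l ∈ L | l < j}))) →
          (b ∈ Alg base u K ∨ ∃ j ∈ D, j ∈ L ∧ j ∉ K ∧
            b ∈ Alg base u (insert j (K ∪ {l ∈ L | l < j}))) →
          (f a b ∈ Alg base u K ∨ ∃ j ∈ D, j ∈ L ∧ j ∉ K ∧
            f a b ∈ Alg base u (insert j (K ∪ {l ∈ L | l < j}))) := by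
        intro f hf a b ha hb
        rcases ha with ha | ⟨j, hjD, hjL, hjK, ha⟩
        · rcases hb with hb | ⟨j', hjD', hjL', hjK', hb⟩
          · exact Or.inl (hf _ _ _ ha hb)
          · exact Or.inr ⟨j', hjD', hjL', hjK', hf _ _ _ (hmono0 j' ha) hb⟩
        · rcases hb with hb | ⟨j', hjD', hjL', hjK', hb⟩
          · exact Or.inr ⟨j, hjD, hjL, hjK, hf _ _ _ ha (hmono0 j hb)⟩
          · rcases le_total j j' with h | h
            · exact Or.inr ⟨j', hjD', hjL', hjK', hf _ _ _ (hmono j j' hjL h ha) hb⟩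
            · exact Or.inr ⟨j, hjD, hjL, hjK, hf _ _ _ ha (hmono j' j hjL' h hb)⟩
      induction hx using StarAlgebra.adjoin_induction with
      | mem x hx =>
        rcases hx with hx | ⟨i, hi, rfl⟩
        · exact Or.inl (base_mem_Alg hx)
        · by_cases hiK : i ∈ K
          · exact Or.inl (u_mem_Alg hiK)
          · rcases hi with hi | hi
            · exact absurd hi hiK
            · exact Or.inr ⟨i, hi.2, hi.1, hiK, u_mem_Alg (Set.mem_insert _ _)⟩
      | algebraMap r => exact Or.inl (algebraMap_mem _ r)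
      | add a b _ _ ha hb => exact bin (· + ·) (fun B a b ha hb => add_mem ha hb) a b ha hb
      | mul a b _ _ ha hb => exact bin (· * ·) (fun B a b ha hb => mul_mem ha hb) a b ha hb
      | star a _ ha =>
        rcases ha with ha | ⟨j, hjD, hjL, hjK, ha⟩
        · exact Or.inl (star_mem ha)
        · exact Or.inr ⟨j, hjD, hjL, hjK, star_mem ha⟩
    rcases hx' with hx' | ⟨j, hjD, hjL, hjK, hx'⟩
    · exact h0 x hx'
    · exact hQ j hjD hjL hjK x hx'
  -- well-founded induction
  have main : ∀ j : ι, ∀ x ∈ Alg base u (K ∪ {l ∈ L | l < j}), P x := by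
    intro j
    induction j using WellFoundedLT.induction with
    | ind j IH =>
      refine aux {l | l < j} (fun a ha b hb => lt_of_le_of_lt hb ha) ?_
      intro i hi hiL hiK
      exact hstep i hiL hiK (IH i hi)
  have := aux Set.univ (fun _ _ _ _ => trivial) (fun j _ hjL hjK => hstep j hjL hjK (main j))
  have hset : K ∪ {l ∈ L | l ∈ (Set.univ : Set ι)} = L := by
    ext l
    constructor
    · rintro (h | h)
      · exact hKL h
      · exact h.1
    · intro h
      exact Or.inr ⟨h, trivial⟩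
  rw [hset] at this
  exact this

end tower

section approx

variable {M : Type} [CStarAlgebra M]

/-- Elements that, in front of the sequence `z`, are approximable by elements of `B`. -/
def approxSub (B : StarSubalgebra ℂ M) (z : ℕ → M) (hz : ∀ n, ‖z n‖ ≤ 1) : Submodule ℂ M where
  carrier := {x | ∀ ε : ℝ, 0 < ε → ∃ b ∈ B, ∀ᶠ n in atTop, ‖(x - b) * z n‖ ≤ ε}
  zero_mem' := by
    intro ε hε
    exact ⟨0, zero_mem B, Eventually.of_forall fun n => by simpa using hε.le⟩
  add_mem' := by
    intro x y hx hy ε hε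
    obtain ⟨b, hb, hxb⟩ := hx (ε / 2) (by positivity)
    obtain ⟨c, hc, hyc⟩ := hy (ε / 2) (by positivity)
    refine ⟨b + c, add_mem hb hc, ?_⟩
    filter_upwards [hxb, hyc] with n h1 h2
    have : (x + y - (b + c)) * z n = (x - b) * z n + (y - c) * z n := by noncomm_ring
    rw [this]
    calc ‖(x - b) * z n + (y - c) * z n‖ ≤ ‖(x - b) * z n‖ + ‖(y - c) * z n‖ := norm_add_le _ _
      _ ≤ ε / 2 + ε / 2 := add_le_add h1 h2
      _ = ε := by ring
  smul_mem' := by
    intro r x hx ε hε
    obtain ⟨b, hb, hxb⟩ := hx (ε / (‖r‖ + 1)) (by positivity)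
    refine ⟨r • b, B.smul_mem hb r, ?_⟩
    filter_upwards [hxb] with n h1
    have : (r • x - r • b) * z n = r • ((x - b) * z n) := by
      rw [← smul_sub, smul_mul_assoc]
    rw [this, norm_smul]
    calc ‖r‖ * ‖(x - b) * z n‖ ≤ (‖r‖ + 1) * (ε / (‖r‖ + 1)) := by
          apply mul_le_mul _ h1 (norm_nonneg _) (by positivity)
          linarith
      _ = ε := by field_simp

lemma mem_approxSub {B : StarSubalgebra ℂ M} {z : ℕ → M} {hz : ∀ n, ‖z n‖ ≤ 1} {x : M} :
    x ∈ approxSub B z hz ↔ ∀ ε : ℝ, 0 < ε → ∃ b ∈ B, ∀ᶠ n in atTop, ‖(x - b) * z n‖ ≤ ε :=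
  Iff.rfl

lemma self_mem_approxSub {B : StarSubalgebra ℂ M} {z : ℕ → M} {hz : ∀ n, ‖z n‖ ≤ 1} {x : M}
    (hx : x ∈ B) : x ∈ approxSub B z hz := by
  intro ε hε
  exact ⟨x, hx, Eventually.of_forall fun n => by simpa using hε.le⟩

lemma approxSub_approx {B : StarSubalgebra ℂ M} {z : ℕ → M} {hz : ∀ n, ‖z n‖ ≤ 1} {x : M}
    (h : ∀ ε : ℝ, 0 < ε → ∃ x' ∈ approxSub B z hz, ∀ᶠ n in atTop, ‖(x - x') * z n‖ ≤ ε) :
    x ∈ approxSub B z hz := by
  intro ε hε
  obtain ⟨x', hx', h'⟩ := h (ε / 2) (by positivity)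
  obtain ⟨b, hb, hb'⟩ := hx' (ε / 2) (by positivity)
  refine ⟨b, hb, ?_⟩
  filter_upwards [h', hb'] with n h1 h2
  have : (x - b) * z n = (x - x') * z n + (x' - b) * z n := by noncomm_ring
  rw [this]
  calc _ ≤ ‖(x - x') * z n‖ + ‖(x' - b) * z n‖ := norm_add_le _ _
    _ ≤ ε / 2 + ε / 2 := add_le_add h1 h2
    _ = ε := by ring

lemma isClosed_approxSub {B : StarSubalgebra ℂ M} {z : ℕ → M} {hz : ∀ n, ‖z n‖ ≤ 1} :
    IsClosed (approxSub B z hz : Set M) := by
  refine isClosed_of_closure_subset ?_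
  intro x hx
  refine approxSub_approx ?_
  intro ε hε
  obtain ⟨x', hx', hd⟩ := Metric.mem_closure_iff.1 hx ε hε
  refine ⟨x', hx', Eventually.of_forall fun n => ?_⟩
  calc ‖(x - x') * z n‖ ≤ ‖x - x'‖ * ‖z n‖ := norm_mul_le _ _
    _ ≤ ‖x - x'‖ * 1 := by gcongr; exact hz n
    _ ≤ ε := by
      rw [mul_one, ← dist_eq_norm]
      exact hd.le

/-- Stability under left multiplication by `c` follows from `c * b ∈ approxSub` for `b ∈ B`. -/
lemma approxSub_mul_left {B : StarSubalgebra ℂ M} {z : ℕ → M} {hz : ∀ n, ‖z n‖ ≤ 1} {c : M}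
    (hc : ∀ b ∈ B, c * b ∈ approxSub B z hz) :
    ∀ x ∈ approxSub B z hz, c * x ∈ approxSub B z hz := by
  intro x hx
  refine approxSub_approx ?_
  intro ε hε
  obtain ⟨b, hb, hb'⟩ := hx (ε / (‖c‖ + 1)) (by positivity)
  refine ⟨c * b, hc b hb, ?_⟩
  filter_upwards [hb'] with n h1
  have : (c * x - c * b) * z n = c * ((x - b) * z n) := by noncomm_ring
  rw [this]
  calc ‖c * ((x - b) * z n)‖ ≤ ‖c‖ * ‖(x - b) * z n‖ := norm_mul_le _ _
    _ ≤ (‖c‖ + 1) * (ε / (‖c‖ + 1)) := by
      apply mul_le_mul _ h1 (norm_nonneg _) (by positivity)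
      linarith
    _ = ε := by field_simp

end approx

section proj

variable {M : Type} [CStarAlgebra M]

lemma projT_norm_le {q : M} (hq : IsStarProjection q) : ‖q‖ ≤ 1 := by
  have h : ‖q‖ = ‖q‖ * ‖q‖ := by
    conv_lhs => rw [← hq.isIdempotentElem.eq]
    have := CStarRing.norm_star_mul_self (x := q)
    rwa [hq.isSelfAdjoint.star_eq] at this
  rcases eq_or_lt_of_le (norm_nonneg q) with h0 | h0
  · rw [← h0]; norm_num
  · have : 1 = ‖q‖ := by
      have h2 : ‖q‖ * 1 = ‖q‖ * ‖q‖ := by rw [mul_one]; exact h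
      exact mul_left_cancel₀ h0.ne' h2
    exact this.symm.le

variable {p : ℕ → M}

lemma DecProj.normT_le (hp : DecProj p) (n : ℕ) : ‖p n‖ ≤ 1 := projT_norm_le (hp.proj n)

lemma DecProj.starT_eq (hp : DecProj p) (n : ℕ) : star (p n) = p n :=
  (hp.proj n).isSelfAdjoint.star_eq

lemma DecProj.antiT (hp : DecProj p) {m n : ℕ} (h : m ≤ n) : p n * p m = p n := by
  have := congrArg star (hp.mul m n h)
  rwa [star_mul, hp.starT_eq, hp.starT_eq] at this

lemma DecProj.idemT (hp : DecProj p) (n : ℕ) : p n * p n = p n := (hp.proj n).isIdempotentElem.eq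

/-- right compression is monotone -/
lemma DecProj.normT_mul_right_le (hp : DecProj p) (x : M) {m n : ℕ} (h : m ≤ n) :
    ‖x * p n‖ ≤ ‖x * p m‖ := by
  have : x * p n = (x * p m) * p n := by rw [mul_assoc, hp.mul m n h]
  rw [this]
  calc _ ≤ ‖x * p m‖ * ‖p n‖ := norm_mul_le _ _
    _ ≤ ‖x * p m‖ * 1 := by gcongr; exact hp.normT_le n
    _ = _ := mul_one _

/-- DISJ, one step. -/
lemma disj_step (hp : DecProj p) {B : StarSubalgebra ℂ M} {y yh : M} (hy : y ∈ unitary M)
    (hyh : ‖yh‖ ≤ 1) (ha : ∀ n, y * (1 - p n) ∈ B)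
    (h1 : ∀ b ∈ B, Tendsto (fun n => ‖p n * b * yh * p n‖) atTop (𝓝 0))
    (h2 : ∀ b ∈ B, Tendsto (fun n => ‖p n * star (b * yh) * y * p n‖) atTop (𝓝 0)) :
    ∀ x ∈ cs ((B : Set M) ∪ {y}), Tendsto (fun n => ‖p n * x * yh * p n‖) atTop (𝓝 0) := by
  have hyn : ‖y‖ ≤ 1 := by
    rcases subsingleton_or_nontrivial M with h | h
    · rw [Subsingleton.elim y 0]; simp
    · exact (CStarRing.norm_of_mem_unitary hy).le
  have hz : ∀ n, ‖yh * p n‖ ≤ 1 := fun n =>
    calc ‖yh * p n‖ ≤ ‖yh‖ * ‖p n‖ := norm_mul_le _ _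
      _ ≤ 1 * 1 := mul_le_mul hyh (hp.normT_le n) (norm_nonneg _) zero_le_one
      _ = 1 := one_mul 1
  have hX : ∀ x ∈ cs ((B : Set M) ∪ {y}), x ∈ approxSub B (fun n => yh * p n) hz := by
    have hyB : ∀ x ∈ approxSub B (fun n => yh * p n) hz, y * x ∈ approxSub B (fun n => yh * p n) hz := by
      refine approxSub_mul_left ?_
      intro b hb ε hε
      have := (h1 b hb).eventually (ge_mem_nhds hε)
      obtain ⟨m, hm⟩ := this.exists
      refine ⟨y * (1 - p m) * b, mul_mem (ha m) hb, ?_⟩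
      filter_upwards [eventually_ge_atTop m] with n hn
      have e : (y * b - y * (1 - p m) * b) * (yh * p n) = y * ((p m * b * yh) * p n) := by noncomm_ring
      rw [e]
      calc ‖y * ((p m * b * yh) * p n)‖ ≤ ‖y‖ * ‖(p m * b * yh) * p n‖ := norm_mul_le _ _
        _ ≤ 1 * ‖(p m * b * yh) * p m‖ := by
          apply mul_le_mul hyn (hp.normT_mul_right_le _ hn) (norm_nonneg _) zero_le_one
        _ ≤ ε := by rw [one_mul]; exact hm
    have hyB' : ∀ x ∈ approxSub B (fun n => yh * p n) hz,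
        star y * x ∈ approxSub B (fun n => yh * p n) hz := by
      refine approxSub_mul_left ?_
      intro b hb ε hε
      have := (h2 b hb).eventually (ge_mem_nhds hε)
      obtain ⟨m, hm⟩ := this.exists
      have hmem : (1 - p m) * star y ∈ B := by
        have := star_mem (ha m)
        rwa [star_mul, star_sub, star_one, hp.starT_eq] at this
      refine ⟨(1 - p m) * star y * b, mul_mem hmem hb, ?_⟩
      filter_upwards [eventually_ge_atTop m] with n hn
      have e : (star y * b - (1 - p m) * star y * b) * (yh * p n)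
          = (p m * star y * b * yh) * p n := by noncomm_ring
      rw [e]
      have e2 : ‖(p m * star y * b * yh) * p m‖ = ‖p m * star (b * yh) * y * p m‖ := by
        rw [← norm_star]
        congr 1
        simp only [star_mul, star_star, hp.starT_eq]
        noncomm_ring
      calc ‖(p m * star y * b * yh) * p n‖ ≤ ‖(p m * star y * b * yh) * p m‖ :=
            hp.normT_mul_right_le _ hn
        _ ≤ ε := by rw [e2]; exact hm
    refine cs_subset_of_left_stable' _ isClosed_approxSub (self_mem_approxSub (one_mem B)) ?_ ?_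
    · rintro s (hs | hs)
      · refine approxSub_mul_left ?_
        intro b hb
        exact self_mem_approxSub (mul_mem hs hb)
      · rw [Set.mem_singleton_iff] at hs
        subst hs
        exact hyB
    · rintro s (hs | hs)
      · refine approxSub_mul_left ?_
        intro b hb
        exact self_mem_approxSub (mul_mem (star_mem hs) hb)
      · rw [Set.mem_singleton_iff] at hs
        subst hs
        exact hyB'
  intro x hx
  rw [Metric.tendsto_atTop']
  intro ε hε
  obtain ⟨b, hb, hb'⟩ := hX x hx (ε / 3) (by positivity)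
  have h3 := (h1 b hb).eventually (ge_mem_nhds (show (0:ℝ) < ε / 3 by positivity))
  obtain ⟨N, hN⟩ := (hb'.and h3).exists_forall_of_atTop
  refine ⟨N, fun n hn => ?_⟩
  obtain ⟨hn1, hn2⟩ := hN n hn.le
  rw [Real.dist_eq, sub_zero, abs_of_nonneg (norm_nonneg _)]
  have e : p n * x * yh * p n = p n * ((x - b) * (yh * p n)) + p n * b * yh * p n := by noncomm_ring
  rw [e]
  calc _ ≤ ‖p n * ((x - b) * (yh * p n))‖ + ‖p n * b * yh * p n‖ := norm_add_le _ _
    _ ≤ ‖p n‖ * ‖(x - b) * (yh * p n)‖ + ‖p n * b * yh * p n‖ := by gcongr; exact norm_mul_le _ _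
    _ ≤ 1 * (ε / 3) + ε / 3 := by
      gcongr
      exact hp.normT_le n
    _ < ε := by linarith

end proj

end Crest.Agent.R120
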