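import Crest.Agent.R120.ExcBasic

/-!
# Type II extensions (blueprint section 3)
-/

set_option autoImplicit false

namespace Crest.Agent.R120

open scoped ComplexOrder
open Filter Topology

/-! ### general approximation lemma -/

section approx

variable {𝔹 : Type} [CStarAlgebra 𝔹]

/-- If a linear set `A0` of approximants is approximately stable (when tested on the right against
the contractions `t n`) under left multiplication by the generators and their adjoints, then every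
element of the generated algebra is approximated by an element of `A0`. -/
theorem approx_of_left_stable {S A0 : Set 𝔹} {t : ℕ → 𝔹} (ht : ∀ n, ‖t n‖ ≤ 1)
    (hadd : ∀ x ∈ A0, ∀ y ∈ A0, x + y ∈ A0) (hsmul : ∀ (c : ℂ), ∀ x ∈ A0, c • x ∈ A0)
    (h1 : (1 : 𝔹) ∈ A0)
    (hs : ∀ s ∈ S, ∀ w ∈ A0, ∀ ε > 0, ∃ w' ∈ A0, ∀ᶠ n in atTop, ‖(s * w - w') * t n‖ ≤ ε)
    (hs' : ∀ s ∈ S, ∀ w ∈ A0, ∀ ε > 0, ∃ w' ∈ A0, ∀ᶠ n in atTop, ‖(star s * w - w') * t n‖ ≤ ε) :
    ∀ x ∈ cs S, ∀ ε > 0, ∃ w ∈ A0, ∀ᶠ n in atTop, ‖(x - w) * t n‖ ≤ ε := by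
  set W : Set 𝔹 := {x | ∀ ε > 0, ∃ w ∈ A0, ∀ᶠ n in atTop, ‖(x - w) * t n‖ ≤ ε} with hW
  have hstep : ∀ s : 𝔹, (∀ w ∈ A0, ∀ ε > 0, ∃ w' ∈ A0, ∀ᶠ n in atTop,
      ‖(s * w - w') * t n‖ ≤ ε) → ∀ x ∈ W, s * x ∈ W := by
    intro s hs x hx ε hε
    obtain ⟨w, hw, hwx⟩ := hx (ε / (2 * (‖s‖ + 1))) (by positivity)
    obtain ⟨w', hw', hww'⟩ := hs w hw (ε / 2) (by positivity)
    refine ⟨w', hw', ?_⟩
    filter_upwards [hwx, hww'] with n h2 h3
    have e : (s * x - w') * t n = s * ((x - w) * t n) + (s * w - w') * t n := by noncomm_ring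
    rw [e]
    have h4 : ‖s * ((x - w) * t n)‖ ≤ ε / 2 := by
      calc _ ≤ ‖s‖ * ‖(x - w) * t n‖ := norm_mul_le _ _
        _ ≤ (‖s‖ + 1) * (ε / (2 * (‖s‖ + 1))) := by
            gcongr
            linarith
        _ = ε / 2 := by field_simp
    calc _ ≤ _ := norm_add_le _ _
      _ ≤ ε / 2 + ε / 2 := add_le_add h4 h3
      _ = ε := by ring
  have hWc : IsClosed W := by
    rw [← closure_subset_iff_isClosed]
    intro x hx ε hε
    obtain ⟨z, hz, hxz⟩ := Metric.mem_closure_iff.mp hx (ε / 2) (by positivity)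
    rw [dist_eq_norm] at hxz
    obtain ⟨w, hw, hwz⟩ := hz (ε / 2) (by positivity)
    refine ⟨w, hw, ?_⟩
    filter_upwards [hwz] with n hn
    have e : (x - w) * t n = (x - z) * t n + (z - w) * t n := by noncomm_ring
    rw [e]
    have h4 : ‖(x - z) * t n‖ ≤ ε / 2 := by
      calc _ ≤ ‖x - z‖ * ‖t n‖ := norm_mul_le _ _
        _ ≤ (ε / 2) * 1 := by gcongr; exact ht n
        _ = _ := mul_one _
    calc _ ≤ _ := norm_add_le _ _
      _ ≤ ε / 2 + ε / 2 := add_le_add h4 hn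
      _ = ε := by ring
  refine mem_of_left_stable (W := W) hWc ?_ ?_ ?_ ?_ ?_
  · intro x hx y hy ε hε
    obtain ⟨w, hw, hwx⟩ := hx (ε / 2) (by positivity)
    obtain ⟨w', hw', hwy⟩ := hy (ε / 2) (by positivity)
    refine ⟨w + w', hadd _ hw _ hw', ?_⟩
    filter_upwards [hwx, hwy] with n h2 h3
    have e : (x + y - (w + w')) * t n = (x - w) * t n + (y - w') * t n := by noncomm_ring
    rw [e]
    calc _ ≤ _ := norm_add_le _ _
      _ ≤ ε / 2 + ε / 2 := add_le_add h2 h3
      _ = ε := by ring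
  · intro c x hx ε hε
    obtain ⟨w, hw, hwx⟩ := hx (ε / (‖c‖ + 1)) (by positivity)
    refine ⟨c • w, hsmul _ _ hw, ?_⟩
    filter_upwards [hwx] with n h2
    rw [← smul_sub, smul_mul_assoc, norm_smul]
    calc ‖c‖ * ‖(x - w) * t n‖ ≤ (‖c‖ + 1) * (ε / (‖c‖ + 1)) := by gcongr; linarith
      _ = ε := by field_simp
  · intro ε hε
    refine ⟨1, h1, Eventually.of_forall (fun n => ?_)⟩
    simpa using hε.le
  · intro s hsS x hx
    exact hstep s (hs s hsS) x hx
  · intro s hsS x hx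
    exact hstep (star s) (hs' s hsS) x hx

theorem DecProj.norm_le_one {p : ℕ → 𝔹} (hp : DecProj p) (n : ℕ) : ‖p n‖ ≤ 1 := by
  have h1 := CStarRing.norm_star_mul_self (x := p n)
  rw [(hp.proj n).isSelfAdjoint.star_eq, (hp.proj n).isIdempotentElem.eq] at h1
  by_contra hcon
  push Not at hcon
  nlinarith [norm_nonneg (p n)]

theorem DecProj.star_eq {p : ℕ → 𝔹} (hp : DecProj p) (n : ℕ) : star (p n) = p n :=
  (hp.proj n).isSelfAdjoint.star_eq

theorem DecProj.mul' {p : ℕ → 𝔹} (hp : DecProj p) {n m : ℕ} (h : n ≤ m) : p m * p n = p m := by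
  have := congrArg star (hp.mul n m h)
  rwa [star_mul, hp.star_eq, hp.star_eq] at this

theorem DecProj.norm_mul_le {p : ℕ → 𝔹} (hp : DecProj p) (n : ℕ) (x : 𝔹) : ‖p n * x‖ ≤ ‖x‖ := by
  calc _ ≤ ‖p n‖ * ‖x‖ := _root_.norm_mul_le _ _
    _ ≤ 1 * ‖x‖ := by gcongr; exact hp.norm_le_one n
    _ = _ := one_mul _

theorem DecProj.norm_mul_le' {p : ℕ → 𝔹} (hp : DecProj p) (n : ℕ) (x : 𝔹) : ‖x * p n‖ ≤ ‖x‖ := by
  calc _ ≤ ‖x‖ * ‖p n‖ := _root_.norm_mul_le _ _
    _ ≤ ‖x‖ * 1 := by gcongr; exact hp.norm_le_one n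
    _ = _ := mul_one _

/-- conjugating a decreasing sequence of projections by a unitary -/
theorem DecProj.conj {p : ℕ → 𝔹} (hp : DecProj p) {y : 𝔹} (hy : y ∈ unitary 𝔹) :
    DecProj (fun n => y * p n * star y) := by
  have hyy' : star y * y = 1 := Unitary.star_mul_self_of_mem hy
  have hmul : ∀ n m, y * p n * star y * (y * p m * star y) = y * (p n * p m) * star y := by
    intro n m
    calc y * p n * star y * (y * p m * star y) = y * p n * (star y * y) * p m * star y := by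
          simp only [mul_assoc]
      _ = _ := by rw [hyy']; simp only [mul_one, mul_assoc]
  refine ⟨fun n => ⟨?_, ?_⟩, fun n m hnm => ?_⟩
  · change _ * _ = _
    rw [hmul, (hp.proj n).isIdempotentElem.eq]
  · change star _ = _
    rw [star_mul, star_mul, star_star, hp.star_eq]
    simp only [mul_assoc]
  · change _ * _ = _
    rw [hmul, hp.mul n m hnm]

end approx

variable {𝔹 : Type} [CStarAlgebra 𝔹] [PartialOrder 𝔹] [StarOrderedRing 𝔹]
variable {B : StarSubalgebra ℂ 𝔹} {p : ℕ → 𝔹} {φ : 𝔹 →ₚ[ℂ] ℂ} {y : 𝔹}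

/-! ### states with `φ (p n) = 1` -/

theorem sn_one_sub_eq_zero (hφ1 : φ 1 = 1) {q : 𝔹} (hq : IsStarProjection q) (h : φ q = 1) :
    sn φ (1 - q) = 0 := by
  have h1 := sn_proj_sq φ hq.one_sub
  rw [map_sub, hφ1, h] at h1
  simpa using h1

theorem apply_eq_compress (hφ1 : φ 1 = 1) {q : 𝔹} (hq : IsStarProjection q) (h : φ q = 1)
    (T : 𝔹) : φ T = φ (q * T * q) := by
  have hs := sn_one_sub_eq_zero hφ1 hq h
  have e : T = q * T * q + ((1 - q) * T + q * T * (1 - q)) := by noncomm_ring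
  have h1 : φ ((1 - q) * T) = 0 := by
    have := norm_mul_le_sn_star hφ1 (1 - q) T
    rw [star_sub, star_one, hq.isSelfAdjoint.star_eq, hs, zero_mul] at this
    exact norm_le_zero_iff.mp this
  have h2 : φ (q * T * (1 - q)) = 0 := by
    have := norm_mul_le_sn hφ1 (q * T) (1 - q)
    rw [hs, mul_zero] at this
    exact norm_le_zero_iff.mp this
  conv_lhs => rw [e]
  rw [map_add, map_add, h1, h2]
  simp

theorem norm_apply_le_compress (hφ1 : φ 1 = 1) {q : 𝔹} (hq : IsStarProjection q) (h : φ q = 1)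
    (T : 𝔹) : ‖φ T‖ ≤ ‖q * T * q‖ := by
  rw [apply_eq_compress hφ1 hq h T]
  exact norm_apply_le φ hφ1 _

theorem apply_eq_zero_of_C0 (hφ1 : φ 1 = 1) (hp : DecProj p) (h : ∀ n, φ (p n) = 1) {T : 𝔹}
    (hT : T ∈ C0 p) : φ T = 0 := by
  have h1 : ‖φ T‖ ≤ 0 :=
    ge_of_tendsto (show Tendsto _ _ _ from hT) (Eventually.of_forall
      (fun n => norm_apply_le_compress hφ1 (hp.proj n) (h n) T))
  exact norm_le_zero_iff.mp h1

theorem N0_unitary_iff (hy : y ∈ unitary 𝔹) {x : 𝔹} :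
    x ∈ N0 (fun n => y * p n * star y) (conj φ y) ↔ star y * x * y ∈ N0 p φ := by
  have e : ∀ n, ‖y * p n * star y * x * (y * p n * star y) - conj φ y x • (y * p n * star y)‖ =
      ‖p n * (star y * x * y) * p n - φ (star y * x * y) • p n‖ := by
    intro n
    have e1 : y * p n * star y * x * (y * p n * star y) - conj φ y x • (y * p n * star y) =
        y * (p n * (star y * x * y) * p n - φ (star y * x * y) • p n) * star y := by
      rw [conj_apply]
      simp only [mul_sub, sub_mul, mul_smul_comm, smul_mul_assoc, mul_assoc]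
    rw [e1, CStarRing.norm_mul_mem_unitary _ (Unitary.star_mem hy),
      CStarRing.norm_mem_unitary_mul _ hy]
  constructor
  · intro h
    exact (show Tendsto _ _ _ from h).congr e
  · intro h
    exact (show Tendsto _ _ _ from h).congr (fun n => (e n).symm)

namespace TII

theorem norm_y_mul (h : TII B p φ y) (x : 𝔹) : ‖y * x‖ = ‖x‖ :=
  CStarRing.norm_mem_unitary_mul _ h.uni

theorem norm_star_y_mul (h : TII B p φ y) (x : 𝔹) : ‖star y * x‖ = ‖x‖ :=
  CStarRing.norm_mem_unitary_mul _ (Unitary.star_mem h.uni)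

theorem star_mul_y (h : TII B p φ y) : star y * y = 1 := Unitary.star_mul_self_of_mem h.uni

theorem y_mul_star (h : TII B p φ y) : y * star y = 1 := Unitary.mul_star_self_of_mem h.uni

theorem starmem (h : TII B p φ y) (n : ℕ) : (1 - p n) * star y ∈ B := by
  have := star_mem (h.ymem n)
  rwa [star_mul, star_sub, star_one, h.dec.star_eq] at this

theorem emem (h : TII B p φ y) (n : ℕ) : y * p n * star y ∈ B := by
  have h1 := mul_mem (h.ymem n) (h.starmem n)
  have h2 : y * (1 - p n) * ((1 - p n) * star y) = 1 - y * p n * star y := by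
    have hi : (1 - p n) * (1 - p n) = 1 - p n := (h.dec.proj n).one_sub.isIdempotentElem.eq
    calc y * (1 - p n) * ((1 - p n) * star y) = y * ((1 - p n) * (1 - p n)) * star y := by
          simp only [mul_assoc]
      _ = y * star y - y * p n * star y := by rw [hi]; noncomm_ring
      _ = _ := by rw [h.y_mul_star]
  rw [h2] at h1
  have h3 := sub_mem (one_mem B) h1
  simpa using h3

/-- (0~) -/
theorem N0_ext (h : TII B p φ y) : ∀ x ∈ cs ((B : Set 𝔹) ∪ {y}), x ∈ N0 p φ := by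
  have hp := h.dec
  set A0 : Set 𝔹 := {w | ∃ b ∈ B, ∃ b' ∈ B, w = b + b' * y} with hA0
  have key : ∀ x ∈ cs ((B : Set 𝔹) ∪ {y}), ∀ ε > 0, ∃ w ∈ A0, ∀ᶠ n in atTop,
      ‖(x - w) * p n‖ ≤ ε := by
    have hBstep : ∀ s ∈ B, ∀ w ∈ A0, ∀ ε > 0, ∃ w' ∈ A0, ∀ᶠ n in atTop,
        ‖(s * w - w') * p n‖ ≤ ε := by
      rintro s hs w ⟨b, hb, b', hb', rfl⟩ ε hε
      refine ⟨s * (b + b' * y), ⟨s * b, mul_mem hs hb, s * b', mul_mem hs hb', by noncomm_ring⟩, ?_⟩
      refine Eventually.of_forall (fun n => ?_)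
      simpa using hε.le
    refine approx_of_left_stable (t := p) hp.norm_le_one ?_ ?_ ?_ ?_ ?_
    · rintro _ ⟨b, hb, b', hb', rfl⟩ _ ⟨c, hc, c', hc', rfl⟩
      exact ⟨b + c, add_mem hb hc, b' + c', add_mem hb' hc', by noncomm_ring⟩
    · rintro c _ ⟨b, hb, b', hb', rfl⟩
      exact ⟨c • b, B.smul_mem hb c, c • b', B.smul_mem hb' c, by
        rw [smul_add, smul_mul_assoc]⟩
    · exact ⟨1, one_mem _, 0, zero_mem _, by simp⟩
    · rintro s (hs | hs) w hw ε hε
      · exact hBstep s hs w hw ε hε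
      · obtain rfl : s = y := hs
        obtain ⟨b, hb, b', hb', rfl⟩ := hw
        -- y b ≈ y (1 - p_m) b + φ(b) y ;  y b' y ≈ y (1 - p_m) b' y
        have h1 : Tendsto (fun n => ‖p n * b * p n - φ b • p n‖) atTop (𝓝 0) := h.h0 b hb
        have h2 : Tendsto (fun n => ‖p n * (b' * s) * p n‖) atTop (𝓝 0) := h.hc b' hb'
        obtain ⟨m, hm1, hm2⟩ := ((h1.eventually (gt_mem_nhds (half_pos hε))).and
          (h2.eventually (gt_mem_nhds (half_pos hε)))).exists
        refine ⟨s * (1 - p m) * b + (φ b • (1 : 𝔹) + s * (1 - p m) * b') * s,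
          ⟨_, mul_mem (h.ymem m) hb, _, add_mem (B.smul_mem (one_mem B) _)
            (mul_mem (h.ymem m) hb'), rfl⟩, ?_⟩
        filter_upwards [eventually_ge_atTop m] with n hn
        have hmn : p m * p n = p n := hp.mul m n hn
        have e : (s * (b + b' * s) - (s * (1 - p m) * b +
            (φ b • (1 : 𝔹) + s * (1 - p m) * b') * s)) * p n =
            s * ((p m * b * p m - φ b • p m) * p n) + s * ((p m * (b' * s) * p m) * p n) := by
          have e1 : (p m * b * p m - φ b • p m) * p n = p m * b * p n - φ b • p n := by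
            rw [sub_mul, mul_assoc (p m * b), hmn, smul_mul_assoc, hmn]
          have e2 : (p m * (b' * s) * p m) * p n = p m * (b' * s) * p n := by
            rw [mul_assoc (p m * (b' * s)), hmn]
          rw [e1, e2]
          simp only [mul_sub, sub_mul, mul_add, add_mul, mul_one, one_mul, smul_mul_assoc,
            mul_smul_comm, mul_assoc]
          abel
        rw [e]
        refine (norm_add_le _ _).trans ?_
        rw [h.norm_y_mul, h.norm_y_mul]
        have h3 := hp.norm_mul_le' n (p m * b * p m - φ b • p m)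
        have h4 := hp.norm_mul_le' n (p m * (b' * s) * p m)
        linarith
    · rintro s (hs | hs) w hw ε hε
      · exact hBstep _ (star_mem hs) w hw ε hε
      · obtain rfl : s = y := hs
        obtain ⟨b, hb, b', hb', rfl⟩ := hw
        -- y* b ≈ (1 - p_m) y* b ; y* b' y ≈ (1-p_m) y* b' y + φ(y* b' y)
        have h1 : Tendsto (fun n => ‖p n * (star s * b' * s) * p n - φ (star s * b' * s) • p n‖)
          atTop (𝓝 0) := h.hb b' hb'
        have h2 : Tendsto (fun n => ‖p n * (star b * s) * p n‖) atTop (𝓝 0) :=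
          h.hc _ (star_mem hb)
        obtain ⟨m, hm1, hm2⟩ := ((h1.eventually (gt_mem_nhds (half_pos hε))).and
          (h2.eventually (gt_mem_nhds (half_pos hε)))).exists
        have hm2' : ‖p m * (star s * b) * p m‖ < ε / 2 := by
          have : p m * (star s * b) * p m = star (p m * (star b * s) * p m) := by
            simp only [star_mul, star_star, hp.star_eq, mul_assoc]
          rw [this, norm_star]; exact hm2
        refine ⟨((1 - p m) * star s * b + φ (star s * b' * s) • (1 : 𝔹)) +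
          ((1 - p m) * star s * b') * s,
          ⟨_, add_mem (mul_mem (h.starmem m) hb) (B.smul_mem (one_mem B) _), _,
            (mul_mem (h.starmem m) hb'), rfl⟩, ?_⟩
        filter_upwards [eventually_ge_atTop m] with n hn
        have hmn : p m * p n = p n := hp.mul m n hn
        have e : (star s * (b + b' * s) - (((1 - p m) * star s * b +
            φ (star s * b' * s) • (1 : 𝔹)) + ((1 - p m) * star s * b') * s)) * p n =
            (p m * (star s * b' * s) * p m - φ (star s * b' * s) • p m) * p n +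
            (p m * (star s * b) * p m) * p n := by
          have e1 : (p m * (star s * b' * s) * p m - φ (star s * b' * s) • p m) * p n =
              p m * (star s * b' * s) * p n - φ (star s * b' * s) • p n := by
            rw [sub_mul, mul_assoc (p m * (star s * b' * s)), hmn, smul_mul_assoc, hmn]
          have e2 : (p m * (star s * b) * p m) * p n = p m * (star s * b) * p n := by
            rw [mul_assoc (p m * (star s * b)), hmn]
          rw [e1, e2]
          simp only [mul_sub, sub_mul, mul_add, add_mul, mul_one, one_mul, smul_mul_assoc,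
            mul_smul_comm, mul_assoc]
          abel
        rw [e]
        refine (norm_add_le _ _).trans ?_
        have h3 := hp.norm_mul_le' n (p m * (star s * b' * s) * p m - φ (star s * b' * s) • p m)
        have h4 := hp.norm_mul_le' n (p m * (star s * b) * p m)
        linarith
  intro x hx
  change Tendsto _ _ _
  rw [Metric.tendsto_atTop]
  intro ε hε
  obtain ⟨w, ⟨b, hb, b', hb', rfl⟩, hw⟩ := key x hx (ε / 8) (by positivity)
  have h1 : Tendsto (fun n => ‖p n * b * p n - φ b • p n‖) atTop (𝓝 0) := h.h0 b hb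
  have h2 : Tendsto (fun n => ‖p n * (b' * y) * p n‖) atTop (𝓝 0) := h.hc b' hb'
  have hφb' : φ (b' * y) = 0 := apply_eq_zero_of_C0 h.φ_one hp h.φ_p (h.hc b' hb')
  obtain ⟨N, hN⟩ := eventually_atTop.mp ((hw.and (h1.eventually (gt_mem_nhds
    (show (0 : ℝ) < ε / 8 by positivity)))).and (h2.eventually (gt_mem_nhds
    (show (0 : ℝ) < ε / 8 by positivity))))
  have hφx : ‖φ x - φ b‖ ≤ ε / 8 := by
    have e : φ x - φ b = φ (x - (b + b' * y)) := by simp [hφb']
    rw [e]
    refine (norm_apply_le_compress h.φ_one (hp.proj N) (h.φ_p N) _).trans ?_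
    rw [mul_assoc]
    exact (hp.norm_mul_le N _).trans (hN N le_rfl).1.1
  refine ⟨N, fun n hn => ?_⟩
  obtain ⟨⟨g1, g2⟩, g3⟩ := hN n hn
  rw [dist_zero_right, norm_norm]
  have e : p n * x * p n - φ x • p n = p n * ((x - (b + b' * y)) * p n) +
      (p n * b * p n - φ b • p n) + p n * (b' * y) * p n - (φ x - φ b) • p n := by
    simp only [mul_sub, sub_mul, mul_add, add_mul, sub_smul, mul_assoc]
    abel
  rw [e]
  have g4 : ‖p n * ((x - (b + b' * y)) * p n)‖ ≤ ε / 8 := (hp.norm_mul_le n _).trans g1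
  have g5 : ‖(φ x - φ b) • p n‖ ≤ ε / 8 := by
    rw [norm_smul]
    calc _ ≤ ε / 8 * 1 := by gcongr; exact hp.norm_le_one n
      _ = _ := mul_one _
  calc _ ≤ ‖p n * ((x - (b + b' * y)) * p n)‖ + ‖p n * b * p n - φ b • p n‖ +
        ‖p n * (b' * y) * p n‖ + ‖(φ x - φ b) • p n‖ := by
        refine (norm_sub_le _ _).trans ?_
        gcongr
        exact norm_add₃_le
    _ < ε := by linarith

end TII

theorem mul_self_le_norm_smul {E : 𝔹} (hE : 0 ≤ E) : E * E ≤ ‖E‖ • E := by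
  have hs : 0 ≤ CFC.sqrt E := CFC.sqrt_nonneg E
  have hss : CFC.sqrt E * CFC.sqrt E = E := CFC.sqrt_mul_sqrt_self E hE
  set s := CFC.sqrt E with hsdef
  have hsst : star s = s := (IsSelfAdjoint.of_nonneg hs).star_eq
  have h2 := CStarAlgebra.star_left_conjugate_le_norm_smul (a := s) (b := E)
    (hb := .of_nonneg hE)
  rw [hsst, hss] at h2
  have h3 : s * E * s = E * E := by
    calc s * E * s = s * (s * s) * s := by rw [hss]
      _ = (s * s) * (s * s) := by simp only [mul_assoc]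
      _ = E * E := by rw [hss]
  rwa [h3] at h2

/-- the final norm estimate of the transfer lemma -/
theorem transfer_est {aj x E : 𝔹} {μ : ℂ} {r ε : ℝ} (haj : ‖aj‖ ≤ 1) (hj : ‖(1 - E) * aj‖ ≤ r)
    (hj' : ‖aj * (1 - E)‖ ≤ r) (hE2 : ‖E‖ ≤ 2) (hExE : ‖E * x * E - μ • E‖ ≤ ε) (hr0 : 0 ≤ r)
    (hε0 : 0 ≤ ε) :
    ‖aj * x * aj - μ • (aj * aj)‖ ≤ (3 * ‖x‖ + ‖μ‖) * r + ε := by
  have e1 : aj * x * aj - μ • (aj * aj) =
      (aj * (1 - E)) * (x * aj) + aj * (E * x) * ((1 - E) * aj) +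
      aj * (E * x * E - μ • E) * aj - μ • (aj * ((1 - E) * aj)) := by
    simp only [mul_sub, sub_mul, smul_sub, mul_one, one_mul, mul_smul_comm,
      smul_mul_assoc, mul_assoc]
    abel
  have g1 : ‖(aj * (1 - E)) * (x * aj)‖ ≤ r * ‖x‖ := by
    calc _ ≤ ‖aj * (1 - E)‖ * ‖x * aj‖ := norm_mul_le _ _
      _ ≤ r * (‖x‖ * 1) := by
          gcongr
          exact (norm_mul_le _ _).trans (by gcongr)
      _ = _ := by rw [mul_one]
  have g2 : ‖aj * (E * x) * ((1 - E) * aj)‖ ≤ 2 * ‖x‖ * r := by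
    calc _ ≤ ‖aj * (E * x)‖ * ‖(1 - E) * aj‖ := norm_mul_le _ _
      _ ≤ (1 * (2 * ‖x‖)) * r := by
          gcongr
          refine (norm_mul_le _ _).trans ?_
          gcongr
          exact (norm_mul_le _ _).trans (by gcongr)
      _ = _ := by ring
  have g3 : ‖aj * (E * x * E - μ • E) * aj‖ ≤ ε := by
    calc _ ≤ ‖aj * (E * x * E - μ • E)‖ * ‖aj‖ := norm_mul_le _ _
      _ ≤ (1 * ε) * 1 := by
          gcongr
          exact (norm_mul_le _ _).trans (by gcongr)
      _ = _ := by ring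
  have g4 : ‖μ • (aj * ((1 - E) * aj))‖ ≤ ‖μ‖ * r := by
    rw [norm_smul]
    calc _ ≤ ‖μ‖ * (1 * r) := by
          gcongr
          exact (norm_mul_le _ _).trans (by gcongr)
      _ = _ := by ring
  rw [e1]
  calc _ ≤ ‖(aj * (1 - E)) * (x * aj)‖ + ‖aj * (E * x) * ((1 - E) * aj)‖ +
        ‖aj * (E * x * E - μ • E) * aj‖ + ‖μ • (aj * ((1 - E) * aj))‖ := by
        refine (norm_sub_le _ _).trans ?_
        gcongr
        exact norm_add₃_le
    _ ≤ r * ‖x‖ + 2 * ‖x‖ * r + ε + ‖μ‖ * r := by gcongr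
    _ = _ := by ring

/-- TRANSFER LEMMA -/
theorem Exc.transfer {B' : StarSubalgebra ℂ 𝔹} {e : ℕ → 𝔹} {ρ : 𝔹 →ₚ[ℂ] ℂ} (hBB : B ≤ B')
    (he : DecProj e) (heB : ∀ n, e n ∈ B) (hρ1 : ρ 1 = 1)
    (h0 : ∀ x ∈ B', x ∈ N0 e ρ) {ψ : 𝔹 →ₚ[ℂ] ℂ} {a : ℕ → 𝔹} (ha : Exc B ψ a) {c : 𝔹}
    (hc : c ∈ B) {δ : ℝ} (hδ : 0 < δ) (hδc : ∀ n, δ ≤ sn ψ (e n * c)) : Exc B' ψ a := by
  have hp := ha.peak
  -- the sequence q n = sn ψ (e n * c) ^ 2 is decreasing
  set q : ℕ → ℝ := fun n => sn ψ (e n * c) ^ 2 with hq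
  have hqanti : ∀ n m, n ≤ m → q m ≤ q n := by
    intro n m hnm
    have h1 : e m * c = e m * (e n * c) := by rw [← mul_assoc, he.mul' hnm]
    have h2 : sn ψ (e m * c) ≤ sn ψ (e n * c) := by
      rw [h1]
      calc _ ≤ ‖e m‖ * sn ψ (e n * c) := sn_mul_le _ _ _
        _ ≤ 1 * sn ψ (e n * c) := by
            gcongr
            · exact sn_nonneg _ _
            · exact he.norm_le_one m
        _ = _ := one_mul _
    simp only [hq]
    gcongr
    exact sn_nonneg _ _
  have hqlow : ∀ n, δ ^ 2 ≤ q n := fun n => by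
    simp only [hq]
    gcongr
    exact hδc n
  set L : ℝ := ⨅ n, q n with hL
  have hbdd : BddBelow (Set.range q) := ⟨δ ^ 2, by rintro _ ⟨n, rfl⟩; exact hqlow n⟩
  have hLq : ∀ n, L ≤ q n := fun n => ciInf_le hbdd n
  have hL0 : 0 < L := lt_of_lt_of_le (by positivity) (le_ciInf hqlow)
  refine ha.of_approx hBB (fun x hx ε₀ hε₀ => ?_)
  -- constants
  set K : ℝ := 4 * ‖x‖ + ‖c‖ ^ 2 * ‖x‖ / L with hK
  have hK0 : 0 ≤ K := by positivity
  set r : ℝ := ε₀ / (2 * (K + 1)) with hr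
  have hr0 : 0 < r := by positivity
  set ε : ℝ := min (min (1 / 2) (ε₀ / 2)) (r ^ 2 / 4) with hε
  have hε0 : 0 < ε := by positivity
  have hε1 : ε ≤ 1 / 2 := (min_le_left _ _).trans (min_le_left _ _)
  have hε2 : ε ≤ ε₀ / 2 := (min_le_left _ _).trans (min_le_right _ _)
  have hε3 : ε ≤ r ^ 2 / 4 := min_le_right _ _
  -- choose n0
  obtain ⟨n0, hn0⟩ : ∃ n0, q n0 < (1 + ε) * L := exists_lt_of_ciInf_lt (by nlinarith)
  -- choose k
  have hF0 : Tendsto (fun j => ‖e n0 * c * a j‖ ^ 2) atTop (𝓝 (q n0)) :=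
    (ha.norm_mul_tendsto (mul_mem (heB n0) hc)).pow 2
  have hsn : Tendsto (fun j => 2 * ‖c‖ ^ 2 * sn ψ (1 - a j)) atTop (𝓝 0) := by
    simpa using hp.sn_one_sub.const_mul (2 * ‖c‖ ^ 2)
  obtain ⟨k, hk1, hk2⟩ := ((hF0.eventually (gt_mem_nhds (show q n0 < (1 + 2 * ε) * L by
    nlinarith))).and (hsn.eventually (gt_mem_nhds (show 0 < ε * L by positivity)))).exists
  have hak : star (a k) = a k := ha.star_eq k
  -- choose n
  set w : 𝔹 := c * a k * x * a k * star c with hw
  have hwB : w ∈ B' := by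
    have h1 := hBB hc
    have h2 := hBB (ha.mem k)
    exact mul_mem (mul_mem (mul_mem (mul_mem h1 h2) hx) h2) (star_mem h1)
  have hw0 : Tendsto (fun n => ‖e n * w * e n - ρ w • e n‖) atTop (𝓝 0) := h0 w hwB
  obtain ⟨n, hn1, hn2⟩ := ((hw0.eventually (gt_mem_nhds (show
    0 < ε * L ^ 2 / (‖c‖ ^ 2 + 1) by positivity))).and (eventually_ge_atTop n0)).exists
  set E0 : 𝔹 := a k * (star c * e n * c) * a k with hE0
  set E : 𝔹 := (L⁻¹ : ℝ) • E0 with hE
  have hen : e n * e n = e n := (he.proj n).isIdempotentElem.eq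
  have hE0' : E0 = star (e n * c * a k) * (e n * c * a k) := by
    rw [star_mul, star_mul, he.star_eq, hak]
    calc E0 = a k * (star c * (e n * e n) * c) * a k := by rw [hen]
      _ = _ := by simp only [mul_assoc]
  have hE0n : ‖E0‖ ≤ (1 + 2 * ε) * L := by
    rw [hE0', CStarRing.norm_star_mul_self, ← sq]
    have h1 : e n * c * a k = e n * (e n0 * c * a k) := by
      simp only [← mul_assoc]; rw [he.mul' hn2]
    have h2 : ‖e n * c * a k‖ ≤ ‖e n0 * c * a k‖ := by
      rw [h1]; exact he.norm_mul_le n _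
    calc ‖e n * c * a k‖ ^ 2 ≤ ‖e n0 * c * a k‖ ^ 2 := by gcongr
      _ ≤ _ := hk1.le
  have hE00 : 0 ≤ E0 := by rw [hE0']; exact star_mul_self_nonneg _
  have hEn : ‖E‖ ≤ 1 + 2 * ε := by
    rw [hE, norm_smul, norm_inv, Real.norm_of_nonneg hL0.le]
    calc L⁻¹ * ‖E0‖ ≤ L⁻¹ * ((1 + 2 * ε) * L) := by gcongr
      _ = 1 + 2 * ε := by field_simp
  have hE00' : 0 ≤ E := smul_nonneg (by positivity) hE00
  have hEsa : star E = E := (IsSelfAdjoint.of_nonneg hE00').star_eq
  have hEc : E = ((L⁻¹ : ℝ) : ℂ) • E0 := (Complex.coe_smul _ _).symm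
  have hEB : E ∈ B := by
    rw [hEc]
    exact B.smul_mem (mul_mem (mul_mem (ha.mem k) (mul_mem (mul_mem (star_mem hc) (heB n)) hc))
      (ha.mem k)) _
  -- ψ E ≥ 1 - ε
  have hqn : q n = (ψ (star c * e n * c)).re := by
    simp only [hq]
    rw [sn_sq, star_mul, he.star_eq]
    congr 2
    calc star c * e n * (e n * c) = star c * (e n * e n) * c := by simp only [mul_assoc]
      _ = _ := by rw [hen]
  have hψE : 1 - ε ≤ (ψ E).re := by
    have h1 := hp.norm_sub_le (star c * e n * c) k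
    have h2 : ‖star c * e n * c‖ ≤ ‖c‖ ^ 2 := by
      calc ‖star c * e n * c‖ ≤ ‖star c * e n‖ * ‖c‖ := _root_.norm_mul_le _ _
        _ ≤ ‖star c‖ * ‖c‖ := by gcongr; exact he.norm_mul_le' n _
        _ = ‖c‖ ^ 2 := by rw [norm_star, sq]
    have h3 : ‖ψ (star c * e n * c) - ψ E0‖ ≤ ε * L := by
      refine h1.trans (le_trans ?_ hk2.le)
      have := sn_nonneg ψ (1 - a k)
      gcongr
    have h4 : (ψ (star c * e n * c)).re - (ψ E0).re ≤ ε * L := by
      have := (Complex.abs_re_le_norm (ψ (star c * e n * c) - ψ E0)).trans h3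
      rw [Complex.sub_re] at this
      exact (le_abs_self _).trans this
    have h5 : (ψ E).re = L⁻¹ * (ψ E0).re := by
      rw [hEc, map_smul, smul_eq_mul, Complex.re_ofReal_mul]
    rw [h5, ← hqn] at *
    have h6 : (1 - ε) * L ≤ (ψ E0).re := by
      have := hLq n
      nlinarith
    calc 1 - ε = L⁻¹ * ((1 - ε) * L) := by field_simp
      _ ≤ L⁻¹ * (ψ E0).re := by gcongr
  have hψE2 : (ψ (E * E)).re ≤ (1 + 2 * ε) * (ψ E).re := by
    have h1 : E * E ≤ ‖E‖ • E := mul_self_le_norm_smul hE00'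
    have h4 := apply_re_mono ψ h1
    rw [← Complex.coe_smul, map_smul, smul_eq_mul, Complex.re_ofReal_mul] at h4
    refine h4.trans ?_
    gcongr
    exact apply_re_nonneg ψ hE00'
  have hsnE : sn ψ (1 - E) < r := by
    have h1 : sn ψ (1 - E) ^ 2 ≤ 3 * ε := by
      rw [sn_sq, star_sub, star_one, hEsa]
      have h2 : (1 - E) * (1 - E) = 1 - (E + E) + E * E := by noncomm_ring
      rw [h2, map_add, map_sub, map_add, hp.one]
      simp only [Complex.add_re, Complex.sub_re, Complex.one_re]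
      nlinarith
    have h3 : sn ψ (1 - E) ^ 2 < r ^ 2 := by nlinarith
    exact lt_of_pow_lt_pow_left₀ 2 hr0.le h3
  have hEaj : ∀ᶠ j in atTop, ‖(1 - E) * a j‖ ≤ r := by
    have := (ha.norm_mul_tendsto (sub_mem (one_mem B) hEB)).eventually (gt_mem_nhds hsnE)
    filter_upwards [this] with j hj
    exact hj.le
  -- E x E ≈ μ E
  set μ : ℂ := ((L⁻¹ : ℝ) : ℂ) * ρ w with hμ
  have hμn : ‖μ‖ ≤ ‖c‖ ^ 2 * ‖x‖ / L := by
    rw [hμ, norm_mul, Complex.norm_real, norm_inv, Real.norm_of_nonneg hL0.le]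
    have h1 : ‖w‖ ≤ ‖c‖ ^ 2 * ‖x‖ := by
      calc ‖w‖ ≤ ‖c * a k * x * a k‖ * ‖star c‖ := _root_.norm_mul_le _ _
        _ ≤ (‖c‖ * ‖a k‖ * ‖x‖ * ‖a k‖) * ‖c‖ := by
            rw [norm_star]
            gcongr
            refine (_root_.norm_mul_le _ _).trans ?_
            gcongr
            refine (_root_.norm_mul_le _ _).trans ?_
            gcongr
            exact _root_.norm_mul_le _ _
        _ ≤ (‖c‖ * 1 * ‖x‖ * 1) * ‖c‖ := by
            have := hp.norm_le_one k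
            gcongr
        _ = _ := by ring
    calc L⁻¹ * ‖ρ w‖ ≤ L⁻¹ * (‖c‖ ^ 2 * ‖x‖) := by
          gcongr
          exact (norm_apply_le ρ hρ1 w).trans h1
      _ = _ := by rw [div_eq_inv_mul]
  have hExE : ‖E * x * E - μ • E‖ ≤ ε := by
    have h1 : E * x * E - μ • E = (((L⁻¹ : ℝ) : ℂ) * ((L⁻¹ : ℝ) : ℂ)) •
        (a k * star c * (e n * w * e n - ρ w • e n) * (c * a k)) := by
      rw [hEc, hμ]
      simp only [hE0, hw, smul_mul_assoc, mul_smul_comm, smul_smul, mul_sub, sub_mul, smul_sub,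
        mul_assoc]
      congr 2
      ring
    rw [h1, norm_smul, norm_mul, Complex.norm_real, norm_inv, Real.norm_of_nonneg hL0.le]
    have h2 : ‖a k * star c * (e n * w * e n - ρ w • e n) * (c * a k)‖ ≤
        ‖c‖ ^ 2 * (ε * L ^ 2 / (‖c‖ ^ 2 + 1)) := by
      have h3 : ‖a k * star c‖ ≤ ‖c‖ := by
        calc _ ≤ ‖a k‖ * ‖star c‖ := _root_.norm_mul_le _ _
          _ ≤ 1 * ‖star c‖ := by gcongr; exact hp.norm_le_one k
          _ = _ := by rw [one_mul, norm_star]
      have h4 : ‖c * a k‖ ≤ ‖c‖ := by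
        calc _ ≤ ‖c‖ * ‖a k‖ := _root_.norm_mul_le _ _
          _ ≤ ‖c‖ * 1 := by gcongr; exact hp.norm_le_one k
          _ = _ := mul_one _
      calc _ ≤ ‖a k * star c * (e n * w * e n - ρ w • e n)‖ * ‖c * a k‖ := _root_.norm_mul_le _ _
        _ ≤ (‖a k * star c‖ * ‖e n * w * e n - ρ w • e n‖) * ‖c * a k‖ := by
            gcongr; exact _root_.norm_mul_le _ _
        _ ≤ (‖c‖ * (ε * L ^ 2 / (‖c‖ ^ 2 + 1))) * ‖c‖ := by gcongr
        _ = _ := by ring
    calc L⁻¹ * L⁻¹ * ‖a k * star c * (e n * w * e n - ρ w • e n) * (c * a k)‖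
        ≤ L⁻¹ * L⁻¹ * (‖c‖ ^ 2 * (ε * L ^ 2 / (‖c‖ ^ 2 + 1))) := by gcongr
      _ = ε * (‖c‖ ^ 2 / (‖c‖ ^ 2 + 1)) := by field_simp
      _ ≤ ε * 1 := by
          gcongr
          rw [div_le_one (by positivity)]
          linarith
      _ = ε := mul_one _
  refine ⟨μ, ?_⟩
  filter_upwards [hEaj] with j hj
  have hj' : ‖a j * (1 - E)‖ ≤ r := by
    have : a j * (1 - E) = star ((1 - E) * a j) := by
      rw [star_mul, star_sub, star_one, hEsa, ha.star_eq]
    rw [this, norm_star]; exact hj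
  have haj := hp.norm_le_one j
  have hE2 : ‖E‖ ≤ 2 := hEn.trans (by linarith)
  refine (transfer_est haj hj hj' hE2 hExE hr0.le hε0.le).trans ?_
  calc (3 * ‖x‖ + ‖μ‖) * r + ε ≤ (K + 1) * r + ε₀ / 2 := by
        have : 3 * ‖x‖ + ‖μ‖ ≤ K + 1 := by
          rw [hK]
          nlinarith [norm_nonneg x]
        gcongr
    _ = ε₀ / 2 + ε₀ / 2 := by
        rw [hr]
        field_simp
    _ = ε₀ := by ring

namespace TII

/-- THEOREM TII -/
theorem exc_ext (h : TII B p φ y) {ψ : 𝔹 →ₚ[ℂ] ℂ} {a : ℕ → 𝔹} (ha : Exc B ψ a) :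
    Exc (cs ((B : Set 𝔹) ∪ {y})) ψ a := by
  have hBB : B ≤ cs ((B : Set 𝔹) ∪ {y}) := fun b hb => subset_cs _ (Or.inl hb)
  have hyB : y ∈ cs ((B : Set 𝔹) ∪ {y}) := subset_cs _ (Or.inr rfl)
  by_cases hA : ∃ c ∈ B, ∃ δ > 0, ∀ n, δ ≤ sn ψ (p n * c)
  · obtain ⟨c, hc, δ, hδ, hδc⟩ := hA
    exact ha.transfer hBB h.dec h.pmem h.φ_one h.N0_ext hc hδ hδc
  by_cases hA' : ∃ c ∈ B, ∃ δ > 0, ∀ n, δ ≤ sn ψ (y * p n * star y * c)
  · obtain ⟨c, hc, δ, hδ, hδc⟩ := hA'
    refine ha.transfer (ρ := conj φ y) (e := fun n => y * p n * star y) hBB (h.dec.conj h.uni)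
      h.emem ?_ ?_ hc hδ hδc
    · simp [h.star_mul_y, h.φ_one]
    · intro x hx
      rw [N0_unitary_iff h.uni]
      exact h.N0_ext _ (mul_mem (mul_mem (star_mem hyB) hx) hyB)
  push Not at hA hA'
  have hp := ha.peak
  have key : ∀ x ∈ cs ((B : Set 𝔹) ∪ {y}), ∀ ε > 0, ∃ b ∈ (B : Set 𝔹), ∀ᶠ n in atTop,
      ‖(x - b) * a n‖ ≤ ε := by
    have hBstep : ∀ s ∈ B, ∀ w ∈ (B : Set 𝔹), ∀ ε > 0, ∃ w' ∈ (B : Set 𝔹), ∀ᶠ n in atTop,
        ‖(s * w - w') * a n‖ ≤ ε := by
      intro s hs w hw ε hε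
      exact ⟨s * w, mul_mem hs hw, Eventually.of_forall (fun n => by simpa using hε.le)⟩
    refine approx_of_left_stable (t := a) hp.norm_le_one (fun _ hx _ hy => add_mem hx hy)
      (fun c _ hx => B.smul_mem hx c) (one_mem B) ?_ ?_
    · rintro s (hs | hs) w hw ε hε
      · exact hBstep s hs w hw ε hε
      · obtain rfl : s = y := hs
        obtain ⟨m, hm⟩ := hA w hw ε hε
        refine ⟨s * (1 - p m) * w, mul_mem (h.ymem m) hw, ?_⟩
        have := (ha.norm_mul_tendsto (mul_mem (h.pmem m) hw)).eventually (gt_mem_nhds hm)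
        filter_upwards [this] with j hj
        have e : (s * w - s * (1 - p m) * w) * a j = s * (p m * w * a j) := by noncomm_ring
        rw [e, h.norm_y_mul]
        exact hj.le
    · rintro s (hs | hs) w hw ε hε
      · exact hBstep _ (star_mem hs) w hw ε hε
      · obtain rfl : s = y := hs
        obtain ⟨m, hm⟩ := hA' w hw ε hε
        refine ⟨(1 - p m) * star s * w, mul_mem (h.starmem m) hw, ?_⟩
        have := (ha.norm_mul_tendsto (mul_mem (h.emem m) hw)).eventually (gt_mem_nhds hm)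
        filter_upwards [this] with j hj
        have e : (star s * w - (1 - p m) * star s * w) * a j = p m * (star s * w * a j) := by
          noncomm_ring
        have e2 : s * p m * star s * w * a j = s * (p m * (star s * w * a j)) := by
          simp only [mul_assoc]
        rw [e2, h.norm_y_mul] at hj
        rw [e]
        exact hj.le
  refine ha.of_approx hBB (fun x hx ε hε => ?_)
  obtain ⟨b, hb, hxb⟩ := key x hx (ε / 2) (by positivity)
  refine ⟨ψ b, ?_⟩
  filter_upwards [hxb, (ha.exc b hb).eventually (gt_mem_nhds (half_pos hε))] with j h1 h2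
  have e : a j * x * a j - ψ b • (a j * a j) =
      a j * ((x - b) * a j) + (a j * b * a j - ψ b • (a j * a j)) := by noncomm_ring
  rw [e]
  have h3 : ‖a j * ((x - b) * a j)‖ ≤ ε / 2 := by
    calc _ ≤ ‖a j‖ * ‖(x - b) * a j‖ := _root_.norm_mul_le _ _
      _ ≤ 1 * (ε / 2) := by gcongr; exact hp.norm_le_one j
      _ = _ := one_mul _
  calc _ ≤ _ := norm_add_le _ _
    _ ≤ ε / 2 + ε / 2 := add_le_add h3 h2.le
    _ = ε := by ring

/-- The step of the disjointness induction. -/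
theorem disj_ext (h : TII B p φ y) {z : 𝔹} (hz : z ∈ unitary 𝔹)
    (h1 : ∀ b ∈ B, b * z ∈ C0 p) (h2 : ∀ b ∈ B, star (b * z) * y ∈ C0 p) :
    ∀ x ∈ cs ((B : Set 𝔹) ∪ {y}), x * z ∈ C0 p := by
  have hp := h.dec
  have hzn : ∀ n, ‖z * p n‖ ≤ 1 := fun n => by
    rw [CStarRing.norm_mem_unitary_mul _ hz]; exact hp.norm_le_one n
  have key : ∀ x ∈ cs ((B : Set 𝔹) ∪ {y}), ∀ ε > 0, ∃ b ∈ (B : Set 𝔹), ∀ᶠ n in atTop,
      ‖(x - b) * (z * p n)‖ ≤ ε := by
    have hBstep : ∀ s ∈ B, ∀ w ∈ (B : Set 𝔹), ∀ ε > 0, ∃ w' ∈ (B : Set 𝔹), ∀ᶠ n in atTop,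
        ‖(s * w - w') * (z * p n)‖ ≤ ε := by
      intro s hs w hw ε hε
      exact ⟨s * w, mul_mem hs hw, Eventually.of_forall (fun n => by simpa using hε.le)⟩
    refine approx_of_left_stable (t := fun n => z * p n) hzn (fun _ hx _ hy => add_mem hx hy)
      (fun c _ hx => B.smul_mem hx c) (one_mem B) ?_ ?_
    · rintro s (hs | hs) w hw ε hε
      · exact hBstep s hs w hw ε hε
      · obtain rfl : s = y := hs
        have h3 : Tendsto (fun n => ‖p n * (w * z) * p n‖) atTop (𝓝 0) := h1 w hw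
        obtain ⟨m, hm⟩ := (h3.eventually (gt_mem_nhds hε)).exists
        refine ⟨s * (1 - p m) * w, mul_mem (h.ymem m) hw, ?_⟩
        filter_upwards [eventually_ge_atTop m] with n hn
        have hmn : p m * p n = p n := hp.mul m n hn
        have e : (s * w - s * (1 - p m) * w) * (z * p n) = s * ((p m * (w * z) * p m) * p n) := by
          rw [mul_assoc (p m * (w * z)), hmn]
          noncomm_ring
        rw [e, h.norm_y_mul]
        exact (hp.norm_mul_le' n _).trans hm.le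
    · rintro s (hs | hs) w hw ε hε
      · exact hBstep _ (star_mem hs) w hw ε hε
      · obtain rfl : s = y := hs
        have h3 : Tendsto (fun n => ‖p n * (star (w * z) * s) * p n‖) atTop (𝓝 0) := h2 w hw
        obtain ⟨m, hm⟩ := (h3.eventually (gt_mem_nhds hε)).exists
        have hm' : ‖p m * (star s * w * z) * p m‖ < ε := by
          have : p m * (star s * w * z) * p m = star (p m * (star (w * z) * s) * p m) := by
            simp only [star_mul, star_star, hp.star_eq, mul_assoc]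
          rw [this, norm_star]; exact hm
        refine ⟨(1 - p m) * star s * w, mul_mem (h.starmem m) hw, ?_⟩
        filter_upwards [eventually_ge_atTop m] with n hn
        have hmn : p m * p n = p n := hp.mul m n hn
        have e : (star s * w - (1 - p m) * star s * w) * (z * p n) =
            (p m * (star s * w * z) * p m) * p n := by
          rw [mul_assoc (p m * (star s * w * z)), hmn]
          noncomm_ring
        rw [e]
        exact (hp.norm_mul_le' n _).trans hm'.le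
  intro x hx
  change Tendsto _ _ _
  rw [Metric.tendsto_atTop]
  intro ε hε
  obtain ⟨b, hb, hxb⟩ := key x hx (ε / 4) (by positivity)
  have h3 : Tendsto (fun n => ‖p n * (b * z) * p n‖) atTop (𝓝 0) := h1 b hb
  obtain ⟨N, hN⟩ := eventually_atTop.mp (hxb.and (h3.eventually (gt_mem_nhds
    (show (0 : ℝ) < ε / 4 by positivity))))
  refine ⟨N, fun n hn => ?_⟩
  obtain ⟨g1, g2⟩ := hN n hn
  rw [dist_zero_right, norm_norm]
  have e : p n * (x * z) * p n = p n * ((x - b) * (z * p n)) + p n * (b * z) * p n := by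
    noncomm_ring
  rw [e]
  calc _ ≤ ‖p n * ((x - b) * (z * p n))‖ + ‖p n * (b * z) * p n‖ := norm_add_le _ _
    _ ≤ ε / 4 + ε / 4 := add_le_add ((hp.norm_mul_le n _).trans g1) g2.le
    _ < ε := by linarith

end TII

end Crest.Agent.R120
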