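import Crest.Agent.R120.TypeI
import Crest.Agent.R120.TypeII
import Crest.Agent.R120.Tower

/-!
# Systems of extensions (blueprint section 5)
-/

set_option autoImplicit false

namespace Crest.Agent.R120

open scoped ComplexOrder
open Filter Topology

variable {𝔹 : Type} [CStarAlgebra 𝔹] [PartialOrder 𝔹] [StarOrderedRing 𝔹] {X : Type}

/-- The algebra generated by the base and the `u i`, `i ∈ L`. -/
noncomputable def PP.alg (M : PP 𝔹 X) {I : Type} (u : I → 𝔹) (L : Set I) :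
    StarSubalgebra ℂ 𝔹 := cs (M.base ∪ u '' L)

/-- a set of indices closed under supports -/
def IsCl {I : Type} (ch : I → Set I) (L : Set I) : Prop := ∀ i ∈ L, ch i ⊆ L

/-- `y` is an admissible unitary at the index `i` -/
structure PP.ValidAt (M : PP 𝔹 X) {I : Type} [LinearOrder I] (u : I → 𝔹) (ch : I → Set I)
    (i : I) (y : 𝔹) : Prop where
  cl : IsCl ch (ch i)
  uni : y ∈ unitary 𝔹
  a : ∀ n, y * (1 - M.p n) ∈ M.alg u (ch i)
  b : ∀ b ∈ M.alg u (ch i), star y * b * y ∈ N0 M.p M.φ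
  c : ∀ b ∈ M.alg u {j | j < i}, b * y ∈ C0 M.p

/-- A system of extensions over the ambient structure `M`. -/
structure Sys (M : PP 𝔹 X) (I : Type) [LinearOrder I] [WellFoundedLT I] where
  gen : X → I
  gen_inj : Function.Injective gen
  u : I → 𝔹
  ch : I → Set I
  ch_lt : ∀ i, ∀ j ∈ ch i, j < i
  ch_countable : ∀ i, (ch i).Countable
  u_gen : ∀ x, u (gen x) = M.G x
  ch_gen : ∀ x, ch (gen x) = ∅
  gen_lt : ∀ x i, (∀ x', i ≠ gen x') → gen x < i
  /-- the indices at which a genuine unitary is added -/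
  valid : I → Prop
  valid_not_gen : ∀ i x, valid i → i ≠ gen x
  valid_at : ∀ i, valid i → M.ValidAt u ch i (u i)
  not_valid : ∀ i, ¬ valid i → (∃ x, i = gen x) ∨ u i = 1

variable {M : PP 𝔹 X} {I : Type} [LinearOrder I] [WellFoundedLT I] (Sg : Sys M I)

/-- the algebra of an index set -/
noncomputable def Sys.A (L : Set I) : StarSubalgebra ℂ 𝔹 := M.alg Sg.u L

/-- generators in an index set -/
def Sys.X' (L : Set I) : Set X := {x | Sg.gen x ∈ L}

theorem Sys.isCl_lt {L : Set I} (hL : IsCl Sg.ch L) (j : I) :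
    IsCl Sg.ch {l ∈ L | l < j} := by
  rintro i ⟨hi, hij⟩ k hk
  exact ⟨hL i hi hk, (Sg.ch_lt i k hk).trans hij⟩

theorem IsCl.union {ch : I → Set I} {K L : Set I} (hK : IsCl ch K) (hL : IsCl ch L) :
    IsCl ch (K ∪ L) := by
  rintro i (hi | hi)
  · exact (hK i hi).trans Set.subset_union_left
  · exact (hL i hi).trans Set.subset_union_right

theorem PP.isClosed_alg (M : PP 𝔹 X) {I : Type} (u : I → 𝔹) (L : Set I) :
    IsClosed (M.alg u L : Set 𝔹) := isClosed_cs' _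

theorem PP.alg_mono (M : PP 𝔹 X) {I : Type} (u : I → 𝔹) {K L : Set I} (h : K ⊆ L) :
    M.alg u K ≤ M.alg u L := Alg_mono _ u h

theorem PP.cs_base_le_alg (M : PP 𝔹 X) {I : Type} (u : I → 𝔹) (L : Set I) :
    cs M.base ≤ M.alg u L := cs_mono' Set.subset_union_left

theorem PP.p_mem_alg (M : PP 𝔹 X) {I : Type} (u : I → 𝔹) (L : Set I) (n : ℕ) :
    M.p n ∈ M.alg u L := M.cs_base_le_alg u L (M.p_mem n)

theorem Sys.A_le_U {L : Set I} (hL : IsCl Sg.ch L) : Sg.A L ≤ M.U (Sg.X' L) := by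
  have key : ∀ i : I, ∀ L : Set I, IsCl Sg.ch L → i ∈ L → Sg.u i ∈ M.U (Sg.X' L) := by
    intro i
    induction i using WellFoundedLT.induction with
    | ind i IH =>
      intro L hL hi
      by_cases hv : Sg.valid i
      · have hV := Sg.valid_at i hv
        refine M.sc _ _ ?_
        intro n
        have h1 := hV.a n
        have h2 : M.alg Sg.u (Sg.ch i) ≤ M.U (Sg.X' (Sg.ch i)) := by
          refine Alg_le (M.U_closed _) ?_ ?_
          · exact M.base_mem.trans (M.U_mono _ _ (Set.empty_subset _))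
          · intro j hj
            exact IH j (Sg.ch_lt i j hj) _ hV.cl hj
        have h3 : Sg.X' (Sg.ch i) ⊆ Sg.X' L := fun x hx => hL i hi hx
        exact M.U_mono _ _ h3 (h2 h1)
      · rcases Sg.not_valid i hv with ⟨x, rfl⟩ | h1
        · rw [Sg.u_gen]
          exact M.G_mem x _ hi
        · rw [h1]
          exact one_mem _
  refine Alg_le (M.U_closed _) ?_ ?_
  · exact M.base_mem.trans (M.U_mono _ _ (Set.empty_subset _))
  · intro i hi
    exact key i L hL hi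

/-- A set of elements on which `1`-Lipschitz functionals tend to zero is closed. -/
theorem Sys.isClosed_tendsto_zero {E : Type*} [SeminormedAddCommGroup E] {f : ℕ → E → ℝ} {C : ℝ}
    (hC : 0 ≤ C) (hf : ∀ n x y, |f n x - f n y| ≤ C * ‖x - y‖) :
    IsClosed {x | Tendsto (fun n => f n x) atTop (𝓝 0)} := by
  refine isClosed_of_closure_subset ?_
  intro x hx
  rw [Set.mem_ofPred_eq, Metric.tendsto_atTop]
  intro ε hε
  obtain ⟨y, hy, hxy⟩ := Metric.mem_closure_iff.1 hx (ε / (2 * (C + 1))) (by positivity)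
  rw [Set.mem_ofPred_eq, Metric.tendsto_atTop] at hy
  obtain ⟨N, hN⟩ := hy (ε / 2) (by positivity)
  refine ⟨N, fun n hn => ?_⟩
  have h1 := hN n hn
  rw [Real.dist_eq, sub_zero] at h1 ⊢
  have h2 := hf n x y
  rw [dist_eq_norm] at hxy
  have h3 : C * ‖x - y‖ ≤ ε / 2 := by
    calc C * ‖x - y‖ ≤ (C + 1) * (ε / (2 * (C + 1))) := by
          apply mul_le_mul _ hxy.le (norm_nonneg _) (by positivity)
          linarith
      _ = ε / 2 := by field_simp
  have h4 : |f n x| ≤ |f n x - f n y| + |f n y| := by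
    have := abs_add_le (f n x - f n y) (f n y)
    simpa using this
  linarith

theorem Sys.isClosed_mul_C0 {p : ℕ → 𝔹} (hp : DecProj p) {z : 𝔹} (hz : ‖z‖ ≤ 1) :
    IsClosed {c : 𝔹 | c * z ∈ C0 p} := by
  refine Sys.isClosed_tendsto_zero (f := fun n c => ‖p n * (c * z) * p n‖) zero_le_one ?_
  intro n x y
  refine (abs_norm_sub_norm_le _ _).trans ?_
  have e : p n * (x * z) * p n - p n * (y * z) * p n = p n * ((x - y) * z) * p n := by
    noncomm_ring
  rw [e, one_mul]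
  have h1 := hp.normT_le n
  calc ‖p n * ((x - y) * z) * p n‖ ≤ ‖p n‖ * (‖x - y‖ * ‖z‖) * ‖p n‖ := by
        refine (norm_mul_le _ _).trans ?_
        gcongr
        refine (norm_mul_le _ _).trans ?_
        gcongr
        exact norm_mul_le _ _
    _ ≤ 1 * (‖x - y‖ * 1) * 1 := by gcongr
    _ = ‖x - y‖ := by ring

/-- DISJ -/
theorem Sys.disj {L : Set I} (hL : IsCl Sg.ch L) {i : I} (hi : Sg.valid i) (hiL : i ∉ L) :
    ∀ c ∈ Sg.A L, c * Sg.u i ∈ C0 M.p := by
  have hVi := Sg.valid_at i hi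
  have hui : ‖Sg.u i‖ ≤ 1 := by
    rcases subsingleton_or_nontrivial 𝔹 with h | h
    · rw [Subsingleton.elim (Sg.u i) 0]; simp
    · exact (CStarRing.norm_of_mem_unitary hVi.uni).le
  refine chain_induction M.base Sg.u (K := {l ∈ L | l < i}) (L := L) (fun l hl => hl.1)
    (P := fun c => c * Sg.u i ∈ C0 M.p) (Sys.isClosed_mul_C0 M.p_dec hui) ?_ ?_
  · intro x hx
    refine hVi.c x (M.alg_mono Sg.u ?_ hx)
    exact fun l hl => hl.2
  · intro j hjL hjK IH x hx
    have hij : i < j := by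
      rcases lt_trichotomy j i with h | h | h
      · exact absurd ⟨hjL, h⟩ hjK
      · exact absurd (h ▸ hjL) hiL
      · exact h
    set B := Alg M.base Sg.u ({l ∈ L | l < i} ∪ {l ∈ L | l < j}) with hB
    have hx' := Alg_insert_le _ _ _ _ hx
    by_cases hv : Sg.valid j
    · have hVj := Sg.valid_at j hv
      have ha : ∀ n, Sg.u j * (1 - M.p n) ∈ B := by
        intro n
        refine M.alg_mono Sg.u ?_ (hVj.a n)
        intro l hl
        exact Or.inr ⟨hL j hjL hl, Sg.ch_lt j l hl⟩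
      have := disj_step M.p_dec (B := B) hVj.uni hui ha (fun b hb => ?_) (fun b hb => ?_) x hx'
      · simpa only [C0, Set.mem_ofPred_eq, mul_assoc] using this
      · simpa only [C0, Set.mem_ofPred_eq, mul_assoc] using IH b hb
      · have h1 : star (b * Sg.u i) ∈ M.alg Sg.u {l | l < j} := by
          refine star_mem (mul_mem ?_ ?_)
          · refine M.alg_mono Sg.u ?_ hb
            rintro l (hl | hl)
            · exact hl.2.trans hij
            · exact hl.2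
          · exact u_mem_Alg hij
        simpa only [C0, Set.mem_ofPred_eq, mul_assoc] using hVj.c _ h1
    · rcases Sg.not_valid j hv with ⟨x, rfl⟩ | h1
      · exact absurd (Sg.gen_lt x i (fun x' => Sg.valid_not_gen i x' hi)) hij.not_gt
      · refine IH x ?_
        refine cs_le' (isClosed_Alg _ _ _) ?_ hx'
        rintro y (hy | hy)
        · exact hy
        · rw [Set.mem_singleton_iff] at hy
          rw [hy, h1]
          exact one_mem _

/-- Property (*) of an index. -/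
def Sys.Star (j : I) : Prop :=
  ∀ L : Set I, IsCl Sg.ch L → (∀ l ∈ L, l < j) → Sg.ch j ⊆ L →
    ∀ b ∈ Sg.A L, star (Sg.u j) * b * Sg.u j ∈ N0 M.p M.φ

theorem Sys.norm_unitary_le {y : 𝔹} (hy : y ∈ unitary 𝔹) : ‖y‖ ≤ 1 := by
  rcases subsingleton_or_nontrivial 𝔹 with h | h
  · rw [Subsingleton.elim y 0]; simp
  · exact (CStarRing.norm_of_mem_unitary hy).le

theorem Sys.N0_eq' {p : ℕ → 𝔹} (hp : DecProj p) (φ : 𝔹 →ₚ[ℂ] ℂ) :
    N0 p φ = {x : 𝔹 | Tendsto (fun j => ‖p j * x * p j - φ x • (p j * p j)‖) atTop (𝓝 0)} := by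
  ext x
  simp only [N0, Set.mem_ofPred_eq, hp.idemT]

theorem Sys.isClosed_N0' {p : ℕ → 𝔹} (hp : DecProj p) {φ : 𝔹 →ₚ[ℂ] ℂ} (hφ : φ 1 = 1) :
    IsClosed (N0 p φ) := by
  rw [Sys.N0_eq' hp]
  exact Exc.isClosed_set hφ (fun j => hp.normT_le j)

/-- The type II data at a valid index. -/
theorem Sys.TII_at {B : StarSubalgebra ℂ 𝔹} (hBcl : IsClosed (B : Set 𝔹))
    (hbase : cs M.base ≤ B) {j : I} (hj : Sg.valid j)
    (hch : M.alg Sg.u (Sg.ch j) ≤ B) (h0 : ∀ b ∈ B, b ∈ N0 M.p M.φ)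
    (hb : ∀ b ∈ B, star (Sg.u j) * b * Sg.u j ∈ N0 M.p M.φ)
    (hc : ∀ b ∈ B, b * Sg.u j ∈ C0 M.p) : TII B M.p M.φ (Sg.u j) where
  closed := hBcl
  dec := M.p_dec
  pmem n := hbase (M.p_mem n)
  φ_one := M.φ_one
  φ_p := M.φ_p
  uni := (Sg.valid_at j hj).uni
  ymem n := hch ((Sg.valid_at j hj).a n)
  h0 := h0
  hb := hb
  hc := hc

/-- Generators are below every valid index. -/
theorem Sys.gen_lt_valid {j : I} (hj : Sg.valid j) (x : X) : Sg.gen x < j :=
  Sg.gen_lt x j (fun x' => Sg.valid_not_gen j x' hj)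

/-- `p` excises the algebra of the base and the free involutions. -/
theorem Sys.N0_gens (N : Set X) : ∀ c ∈ Sg.A (Sg.gen '' N), c ∈ N0 M.p M.φ := by
  have h1 : Exc (cs M.base) (conj M.φ 1) (fun n => 1 * M.p n * star 1) := by
    refine exc_of_N0 M.p_dec M.φ_one M.φ_p (one_mem _) ?_ ?_
    · intro n
      simpa using M.p_mem n
    · intro b hb
      simpa using M.base_N0 b hb
  have h2 : cs M.base ≤ M.U ∅ := cs_le' (M.U_closed _) M.base_mem
  have h3 := M.typeI (Y := ∅) (N := N) (Set.empty_disjoint N) (isClosed_cs' _) h2 le_rfl h1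
  have h4 := N0_of_exc M.p_dec (one_mem _) h3
  intro c hc
  have h5 : c ∈ cs ((cs M.base : Set 𝔹) ∪ M.G '' N) := by
    refine Alg_le (isClosed_cs' _) ?_ ?_ hc
    · intro b hb
      exact subset_cs' _ (Or.inl (subset_cs' _ hb))
    · rintro i ⟨x, hx, rfl⟩
      rw [Sg.u_gen]
      exact subset_cs' _ (Or.inr ⟨x, hx, rfl⟩)
  simpa using h4 c h5

/-- Lemma A. -/
theorem Sys.N0_of_star {L : Set I} (hL : IsCl Sg.ch L) (hS : ∀ j ∈ L, Sg.valid j → Sg.Star j) :
    ∀ c ∈ Sg.A L, c ∈ N0 M.p M.φ := by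
  refine chain_induction M.base Sg.u (K := Sg.gen '' (Sg.X' L)) (L := L) ?_
    (P := fun c => c ∈ N0 M.p M.φ) (Sys.isClosed_N0' M.p_dec M.φ_one) (Sg.N0_gens _) ?_
  · rintro l ⟨x, hx, rfl⟩
    exact hx
  · intro j hjL hjK IH x hx
    have hx' := Alg_insert_le _ _ _ _ hx
    by_cases hv : Sg.valid j
    · have hset : (Sg.gen '' (Sg.X' L) ∪ {l ∈ L | l < j}) = {l ∈ L | l < j} := by
        refine Set.union_eq_self_of_subset_left ?_
        rintro l ⟨x, hx, rfl⟩
        exact ⟨hx, Sg.gen_lt_valid hv x⟩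
      have hcl := Sg.isCl_lt hL j
      have hch : Sg.ch j ⊆ {l ∈ L | l < j} := fun l hl => ⟨hL j hjL hl, Sg.ch_lt j l hl⟩
      rw [hset] at IH hx'
      have hT : TII (Alg M.base Sg.u {l ∈ L | l < j}) M.p M.φ (Sg.u j) := by
        refine Sg.TII_at (isClosed_Alg _ _ _) (M.cs_base_le_alg _ _) hv (M.alg_mono _ hch) IH ?_ ?_
        · exact hS j hjL hv _ hcl (fun l hl => hl.2) hch
        · intro b hb
          refine (Sg.valid_at j hv).c b (M.alg_mono _ ?_ hb)
          exact fun l hl => hl.2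
      exact hT.N0_ext x hx'
    · rcases Sg.not_valid j hv with ⟨y, rfl⟩ | h1
      · exact absurd ⟨y, hjL, rfl⟩ hjK
      · refine IH x ?_
        refine cs_le' (isClosed_Alg _ _ _) ?_ hx'
        rintro y (hy | hy)
        · exact hy
        · rw [Set.mem_singleton_iff] at hy
          rw [hy, h1]
          exact one_mem _

/-- The chain lemma. -/
theorem Sys.exc_chain {K L : Set I} (hK : IsCl Sg.ch K) (hL : IsCl Sg.ch L) (hKL : K ⊆ L)
    (hgen : ∀ x, Sg.gen x ∈ L → Sg.gen x ∈ K)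
    (hN0 : ∀ c ∈ Sg.A L, c ∈ N0 M.p M.φ)
    (hSt : ∀ j ∈ L, j ∉ K → Sg.valid j →
      ∀ b ∈ Sg.A (K ∪ {l ∈ L | l < j}), star (Sg.u j) * b * Sg.u j ∈ N0 M.p M.φ)
    {ψ : 𝔹 →ₚ[ℂ] ℂ} {a : ℕ → 𝔹} (h : Exc (Sg.A K) ψ a) : Exc (Sg.A L) ψ a := by
  have hP := Exc.isClosed_set (ψ := ψ) (a := a) h.one h.norm_le_one
  refine ⟨h.one, fun j => M.alg_mono _ hKL (h.mem j), h.nonneg, h.le_one, h.tend, ?_⟩
  refine chain_induction M.base Sg.u hKL
    (P := fun x => Tendsto (fun j => ‖a j * x * a j - ψ x • (a j * a j)‖) atTop (𝓝 0)) hP h.exc ?_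
  intro j hjL hjK IH x hx
  set B := Alg M.base Sg.u (K ∪ {l ∈ L | l < j}) with hB
  have hx' := Alg_insert_le _ _ _ _ hx
  have hcl : IsCl Sg.ch (K ∪ {l ∈ L | l < j}) := hK.union (Sg.isCl_lt hL j)
  have hsub : (K ∪ {l ∈ L | l < j}) ⊆ L := Set.union_subset hKL (fun l hl => hl.1)
  by_cases hv : Sg.valid j
  · have hE : Exc B ψ a := ⟨h.one, fun j => M.alg_mono _ Set.subset_union_left (h.mem j),
      h.nonneg, h.le_one, h.tend, IH⟩
    have hT : TII B M.p M.φ (Sg.u j) := by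
      refine Sg.TII_at (isClosed_Alg _ _ _) (M.cs_base_le_alg _ _) hv ?_ ?_ (hSt j hjL hjK hv) ?_
      · refine M.alg_mono _ ?_
        exact fun l hl => Or.inr ⟨hL j hjL hl, Sg.ch_lt j l hl⟩
      · intro b hb
        exact hN0 b (M.alg_mono _ hsub hb)
      · refine Sg.disj hcl hv ?_
        rintro (h | h)
        · exact hjK h
        · exact lt_irrefl _ h.2
    exact (hT.exc_ext hE).exc x hx'
  · rcases Sg.not_valid j hv with ⟨y, rfl⟩ | h1
    · exact absurd (hgen y hjL) hjK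
    · refine IH x ?_
      refine cs_le' (isClosed_Alg _ _ _) ?_ hx'
      rintro y (hy | hy)
      · exact hy
      · rw [Set.mem_singleton_iff] at hy
        rw [hy, h1]
        exact one_mem _

/-- the excising sequence of a valid index belongs to the algebras containing its support. -/
theorem Sys.e_mem {j : I} (hv : Sg.valid j) {L : Set I} (hch : Sg.ch j ⊆ L) (n : ℕ) :
    Sg.u j * M.p n * star (Sg.u j) ∈ Sg.A L := by
  have hV := Sg.valid_at j hv
  have h1 : Sg.u j * (1 - M.p n) ∈ Sg.A L := M.alg_mono _ hch (hV.a n)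
  have h2 : Sg.u j * M.p n * star (Sg.u j)
      = 1 - (Sg.u j * (1 - M.p n)) * star (Sg.u j * (1 - M.p n)) := by
    have h3 : Sg.u j * star (Sg.u j) = 1 := Unitary.mul_star_self_of_mem hV.uni
    have h4 := M.p_dec.idemT n
    simp only [star_mul, star_sub, star_one, M.p_dec.starT_eq]
    calc Sg.u j * M.p n * star (Sg.u j)
        = Sg.u j * star (Sg.u j) - (Sg.u j * (1 - M.p n)) * star (Sg.u j) := by noncomm_ring
      _ = 1 - (Sg.u j * ((1 - M.p n) * (1 - M.p n))) * star (Sg.u j) := by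
          rw [h3]
          have : (1 - M.p n) * (1 - M.p n) = 1 - M.p n := by
            simp only [sub_mul, mul_sub, one_mul, mul_one, h4, sub_self, sub_zero]
          rw [this]
      _ = _ := by noncomm_ring
  rw [h2]
  exact sub_mem (one_mem _) (mul_mem h1 (star_mem h1))

/-- Lemma B. -/
theorem Sys.starB {L : Set I} (hL : IsCl Sg.ch L) (hS : ∀ j ∈ L, Sg.valid j → Sg.Star j)
    {i : I} (hv : Sg.valid i) (hSi : Sg.Star i) (hiL : i ∉ L) (hch : Sg.ch i ⊆ L) :
    ∀ b ∈ Sg.A L, star (Sg.u i) * b * Sg.u i ∈ N0 M.p M.φ := by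
  have hch1 : Sg.ch i ⊆ {l ∈ L | l < i} := fun l hl => ⟨hch hl, Sg.ch_lt i l hl⟩
  have h1 := hSi _ (Sg.isCl_lt hL i) (fun l hl => hl.2) hch1
  have h2 : Exc (Sg.A {l ∈ L | l < i}) (conj M.φ (Sg.u i))
      (fun n => Sg.u i * M.p n * star (Sg.u i)) :=
    exc_of_N0 M.p_dec M.φ_one M.φ_p (Sg.valid_at i hv).uni (Sg.e_mem hv hch1) h1
  refine N0_of_exc M.p_dec (Sg.valid_at i hv).uni ?_
  refine Sg.exc_chain (Sg.isCl_lt hL i) hL (fun l hl => hl.1) ?_ (Sg.N0_of_star hL hS) ?_ h2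
  · intro x hx
    exact ⟨hx, Sg.gen_lt_valid hv x⟩
  · intro j hjL hjK hvj
    have hij : i < j := by
      rcases lt_trichotomy j i with h | h | h
      · exact absurd ⟨hjL, h⟩ hjK
      · exact absurd (h ▸ hjL) hiL
      · exact h
    refine hS j hjL hvj _ ((Sg.isCl_lt hL i).union (Sg.isCl_lt hL j)) ?_ ?_
    · rintro l (hl | hl)
      · exact hl.2.trans hij
      · exact hl.2
    · exact fun l hl => Or.inr ⟨hL j hjL hl, Sg.ch_lt j l hl⟩

/-- Lemma C. -/
theorem Sys.R1_of_star {K L : Set I} (hK : IsCl Sg.ch K) (hL : IsCl Sg.ch L) (hKL : K ⊆ L)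
    (hS : ∀ j ∈ L, Sg.valid j → Sg.Star j)
    {ψ : 𝔹 →ₚ[ℂ] ℂ} {a : ℕ → 𝔹} (h : Exc (Sg.A K) ψ a) : Exc (Sg.A L) ψ a := by
  -- add the generators
  set N : Set X := Sg.X' L \ Sg.X' K with hN
  set K' : Set I := K ∪ Sg.gen '' N with hK'
  have hgencl : IsCl Sg.ch (Sg.gen '' N) := by
    rintro i ⟨x, hx, rfl⟩
    rw [Sg.ch_gen]
    exact Set.empty_subset _
  have hK'cl : IsCl Sg.ch K' := hK.union hgencl
  have hK'L : K' ⊆ L := by
    refine Set.union_subset hKL ?_
    rintro l ⟨x, hx, rfl⟩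
    exact hx.1
  have h1 := M.typeI (Y := Sg.X' K) (N := N) (Set.disjoint_sdiff_right) (M.isClosed_alg _ _)
    (Sg.A_le_U hK) (M.cs_base_le_alg _ _) h
  have hle : Sg.A K' ≤ cs ((Sg.A K : Set 𝔹) ∪ M.G '' N) := by
    refine Alg_le (isClosed_cs' _) ?_ ?_
    · intro b hb
      exact subset_cs' _ (Or.inl (base_mem_Alg hb))
    · rintro i (hi | ⟨x, hx, rfl⟩)
      · exact subset_cs' _ (Or.inl (u_mem_Alg hi))
      · rw [Sg.u_gen]
        exact subset_cs' _ (Or.inr ⟨x, hx, rfl⟩)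
  have h2 : Exc (Sg.A K') ψ a :=
    ⟨h.one, fun j => M.alg_mono _ Set.subset_union_left (h.mem j), h.nonneg, h.le_one, h.tend,
      fun b hb => h1.exc b (hle hb)⟩
  refine Sg.exc_chain hK'cl hL hK'L ?_ (Sg.N0_of_star hL hS) ?_ h2
  · intro x hx
    by_cases hxK : Sg.gen x ∈ K
    · exact Or.inl hxK
    · exact Or.inr ⟨x, ⟨hx, hxK⟩, rfl⟩
  · intro j hjL hjK hvj
    refine Sg.starB (hK'cl.union (Sg.isCl_lt hL j)) ?_ hvj (hS j hjL hvj) ?_ ?_
    · rintro l (hl | hl) hvl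
      · exact hS l (hK'L hl) hvl
      · exact hS l hl.1 hvl
    · rintro (h | h)
      · exact hjK h
      · exact lt_irrefl _ h.2
    · exact fun l hl => Or.inr ⟨hL j hjL hl, Sg.ch_lt j l hl⟩

/-- Lemma D. -/
theorem Sys.star_all (j : I) (hv : Sg.valid j) : Sg.Star j := by
  induction j using WellFoundedLT.induction with
  | ind j IH =>
    intro L hL hlt hch
    have hV := Sg.valid_at j hv
    have h2 : Exc (Sg.A (Sg.ch j)) (conj M.φ (Sg.u j))
        (fun n => Sg.u j * M.p n * star (Sg.u j)) :=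
      exc_of_N0 M.p_dec M.φ_one M.φ_p hV.uni (Sg.e_mem hv le_rfl) hV.b
    have h3 := Sg.R1_of_star hV.cl hL hch (fun l hl hvl => IH l (hlt l hl) hvl) h2
    exact N0_of_exc M.p_dec hV.uni h3

/-- `p` excises every `A_L`, `L` closed. -/
theorem Sys.A_N0 {L : Set I} (hL : IsCl Sg.ch L) : ∀ c ∈ Sg.A L, c ∈ N0 M.p M.φ :=
  Sg.N0_of_star hL (fun j _ hv => Sg.star_all j hv)

/-- R1 -/
theorem Sys.R1 {K L : Set I} (hK : IsCl Sg.ch K) (hL : IsCl Sg.ch L) (hKL : K ⊆ L)
    {ψ : 𝔹 →ₚ[ℂ] ℂ} {a : ℕ → 𝔹} (h : Exc (Sg.A K) ψ a) : Exc (Sg.A L) ψ a :=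
  Sg.R1_of_star hK hL hKL (fun j _ hv => Sg.star_all j hv) h

end Crest.Agent.R120
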