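import Crest.Agent.R120.ExcBasic

/-!
# Type I extensions (blueprint section 2) and the diffuse trace property (D)
-/

set_option autoImplicit false

namespace Crest.Agent.R120

open scoped ComplexOrder
open Filter Topology

variable {𝔹 : Type} [CStarAlgebra 𝔹] [PartialOrder 𝔹] [StarOrderedRing 𝔹] {X : Type}
variable (M : PP 𝔹 X)

omit [PartialOrder 𝔹] [StarOrderedRing 𝔹] in
theorem norm_proj_le {z : 𝔹} (hz : IsStarProjection z) : ‖z‖ ≤ 1 := by
  have h1 : ‖z‖ * ‖z‖ = ‖z‖ := by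
    rw [← CStarRing.norm_star_mul_self (x := z), hz.isSelfAdjoint.star_eq, hz.isIdempotentElem.eq]
  by_contra h
  push Not at h
  nlinarith

omit [PartialOrder 𝔹] [StarOrderedRing 𝔹] in
theorem norm_proj_eq_one {z : 𝔹} (hz : IsStarProjection z) (h0 : z ≠ 0) : ‖z‖ = 1 := by
  have h1 : ‖z‖ * ‖z‖ = ‖z‖ := by
    rw [← CStarRing.norm_star_mul_self (x := z), hz.isSelfAdjoint.star_eq, hz.isIdempotentElem.eq]
  have h2 : ‖z‖ ≠ 0 := norm_ne_zero_iff.mpr h0
  exact mul_left_cancel₀ h2 (by rw [h1, mul_one])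

theorem apply_star_mul_self_nonneg (ψ : 𝔹 →ₚ[ℂ] ℂ) (T : 𝔹) : 0 ≤ ψ (star T * T) := by
  have := OrderHomClass.mono ψ (star_mul_self_nonneg T)
  simpa using this

theorem PP.sn_star {T : 𝔹} (hT : T ∈ M.U Set.univ) : sn M.τ (star T) = sn M.τ T := by
  have h : (sn M.τ (star T)) ^ 2 = (sn M.τ T) ^ 2 := by
    rw [sn_sq, sn_sq, star_star, M.τ_comm T (star T) hT (star_mem hT)]
  exact (sq_eq_sq₀ (sn_nonneg _ _) (sn_nonneg _ _)).mp h

/-- PP2 consequence: `‖P_x T‖ = ‖T‖₂` -/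
theorem PP.norm_mul_P {Y : Set X} {x : X} (hx : x ∉ Y) {T : 𝔹} (hT : T ∈ M.U Y) :
    ‖T * M.P x‖ = sn M.τ T := by
  have h1 : ‖T * M.P x‖ ^ 2 = (sn M.τ T) ^ 2 := by
    rw [sq, ← CStarRing.norm_star_mul_self, star_mul, (M.P_proj x).isSelfAdjoint.star_eq,
      ← mul_assoc, mul_assoc (M.P x) (star T) T,
      M.PTP_same Y x (star T * T) hx (mul_mem (star_mem hT) hT), norm_smul,
      norm_proj_eq_one (M.P_proj x) (M.P_ne x), mul_one, norm_apply_star_mul_self]
  exact (sq_eq_sq₀ (norm_nonneg _) (sn_nonneg _ _)).mp h1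

theorem PP.norm_P_mul {Y : Set X} {x : X} (hx : x ∉ Y) {T : 𝔹} (hT : T ∈ M.U Y) :
    ‖M.P x * T‖ = sn M.τ T := by
  rw [← norm_star (M.P x * T), star_mul, (M.P_proj x).isSelfAdjoint.star_eq,
    M.norm_mul_P hx (star_mem hT), M.sn_star (M.U_mono Y _ (Set.subset_univ _) hT)]

/-- trace estimate: `‖ST‖₂ ≤ ‖S‖₂ ‖T‖` -/
theorem PP.sn_mul_le' {S T : 𝔹} (hS : S ∈ M.U Set.univ) (hT : T ∈ M.U Set.univ) :
    sn M.τ (S * T) ≤ sn M.τ S * ‖T‖ := by
  rw [← M.sn_star (mul_mem hS hT), star_mul, ← M.sn_star hS, mul_comm, ← norm_star T]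
  exact sn_mul_le _ _ _

/-- (D) -/
theorem PP.diffuse {B : StarSubalgebra ℂ 𝔹} (hBU : B ≤ M.U Set.univ)
    (hbase : cs M.base ≤ B) {ψ : 𝔹 →ₚ[ℂ] ℂ} {a : ℕ → 𝔹} (h : Exc B ψ a) :
    Tendsto (fun j => sn M.τ (a j)) atTop (𝓝 0) := by
  suffices hsq : Tendsto (fun j => (sn M.τ (a j)) ^ 2) atTop (𝓝 0) by
    have := hsq.sqrt
    simpa [Real.sqrt_sq (sn_nonneg _ _)] using this
  rw [Metric.tendsto_atTop]
  intro ε hε
  obtain ⟨n, hn⟩ := exists_pow_lt_of_lt_one (half_pos hε) (show (1 / 2 : ℝ) < 1 by norm_num)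
  obtain ⟨z, hz, hzp, hψz, hτz⟩ := M.halving ψ h.one n
  have hzB : z ∈ B := hbase hz
  have hzU : z ∈ M.U Set.univ := hBU hzB
  -- positivity of `ψ z`
  have hzz : star z * z = z := by rw [hzp.isSelfAdjoint.star_eq, hzp.isIdempotentElem.eq]
  have hψ0 : 0 ≤ ψ z := by
    have := apply_star_mul_self_nonneg ψ z
    rwa [hzz] at this
  have hs_eq : ψ z = ((ψ z).re : ℂ) := by
    apply Complex.ext
    · simp
    · simpa using (Complex.le_def.mp hψ0).2.symm
  set s : ℝ := (ψ z).re with hs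
  have hs0 : 0 < s := by
    have h1 : 0 ≤ s := (Complex.le_def.mp hψ0).1
    rcases h1.lt_or_eq with h2 | h2
    · exact h2
    · exact absurd (by rw [hs_eq, ← h2]; simp) hψz
  have hsnz : (sn M.τ z) ^ 2 = (1 / 2 : ℝ) ^ n := by
    rw [sn_sq, hzz, hτz]
    have : ((1 / 2 : ℂ) ^ n) = (((1 / 2 : ℝ) ^ n : ℝ) : ℂ) := by push_cast; ring
    rw [this, Complex.ofReal_re]
  have hδ := h.exc z hzB
  -- main estimate
  have key : ∀ j, s * (sn M.τ (a j)) ^ 2 ≤
      (s + ‖a j * z * a j - ψ z • (a j * a j)‖) * (1 / 2) ^ n +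
        ‖a j * z * a j - ψ z • (a j * a j)‖ := by
    intro j
    set δ := ‖a j * z * a j - ψ z • (a j * a j)‖ with hδdef
    have haU : a j ∈ M.U Set.univ := hBU (h.mem j)
    have hasa : star (a j) = a j := (IsSelfAdjoint.of_nonneg (h.nonneg j)).star_eq
    have hzsa : star z = z := hzp.isSelfAdjoint.star_eq
    -- `‖a z‖² ≤ s + δ`
    have e1 : ‖a j * z‖ ^ 2 ≤ s + δ := by
      have : ‖a j * z‖ ^ 2 = ‖a j * z * a j‖ := by
        rw [sq, ← CStarRing.norm_self_mul_star, star_mul, hasa, hzsa]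
        congr 1
        rw [mul_assoc (a j) z, ← mul_assoc z z, hzp.isIdempotentElem.eq, mul_assoc]
      rw [this]
      calc ‖a j * z * a j‖ = ‖ψ z • (a j * a j) + (a j * z * a j - ψ z • (a j * a j))‖ := by
            congr 1; abel
        _ ≤ ‖ψ z • (a j * a j)‖ + δ := norm_add_le _ _
        _ ≤ s + δ := by
            gcongr
            rw [norm_smul, hs_eq, Complex.norm_of_nonneg hs0.le]
            have h1 := h.norm_le_one j
            calc s * ‖a j * a j‖ ≤ s * (‖a j‖ * ‖a j‖) := by gcongr; exact norm_mul_le _ _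
              _ ≤ s * (1 * 1) := by gcongr
              _ = s := by ring
    have e2 : (sn M.τ (a j * z)) ^ 2 ≤ (s + δ) * (1 / 2) ^ n := by
      have e3 : sn M.τ (a j * z) ≤ ‖a j * z‖ * sn M.τ z := by
        calc sn M.τ (a j * z) = sn M.τ (a j * z * z) := by
              rw [mul_assoc, hzp.isIdempotentElem.eq]
          _ ≤ ‖a j * z‖ * sn M.τ z := sn_mul_le _ _ _
      calc (sn M.τ (a j * z)) ^ 2 ≤ (‖a j * z‖ * sn M.τ z) ^ 2 := by
            gcongr; exact sn_nonneg _ _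
        _ = ‖a j * z‖ ^ 2 * (1 / 2) ^ n := by rw [mul_pow, hsnz]
        _ ≤ (s + δ) * (1 / 2) ^ n := by gcongr
    have e4 : (M.τ (a j * z * a j)).re = (sn M.τ (a j * z)) ^ 2 := by
      rw [← M.sn_star (mul_mem haU hzU), sn_sq, star_star, star_mul, hasa, hzsa]
      have e : a j * z * (z * a j) = a j * z * a j := by
        rw [← mul_assoc, mul_assoc (a j) z z, hzp.isIdempotentElem.eq]
      rw [e]
    have e5 : s * (sn M.τ (a j)) ^ 2 = (M.τ (ψ z • (a j * a j))).re := by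
      rw [sn_sq, hasa, map_smul, smul_eq_mul, hs_eq, Complex.re_ofReal_mul]
    have e6 : (M.τ (ψ z • (a j * a j))).re - (M.τ (a j * z * a j)).re ≤ δ := by
      rw [← Complex.sub_re, ← map_sub]
      calc (M.τ (ψ z • (a j * a j) - a j * z * a j)).re
          ≤ ‖M.τ (ψ z • (a j * a j) - a j * z * a j)‖ := Complex.re_le_norm _
        _ ≤ ‖ψ z • (a j * a j) - a j * z * a j‖ := norm_apply_le _ M.τ_one _
        _ = δ := norm_sub_rev _ _
    rw [e5]
    linarith [e2, e4, e6]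
  -- pass to the limit
  have hlim : Tendsto (fun j => (s + ‖a j * z * a j - ψ z • (a j * a j)‖) * (1 / 2) ^ n +
        ‖a j * z * a j - ψ z • (a j * a j)‖) atTop (𝓝 ((s + 0) * (1 / 2) ^ n + 0)) :=
    ((tendsto_const_nhds.add hδ).mul_const _).add hδ
  have hlt : (s + 0) * (1 / 2 : ℝ) ^ n + 0 < s * ε := by
    rw [add_zero, add_zero]
    apply mul_lt_mul_of_pos_left _ hs0
    linarith
  obtain ⟨N, hN⟩ := (eventually_atTop.mp (hlim.eventually_lt_const hlt))
  refine ⟨N, fun j hj => ?_⟩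
  have h1 := hN j hj
  have h2 := key j
  rw [Real.dist_eq, sub_zero, abs_of_nonneg (sq_nonneg _)]
  exact lt_of_mul_lt_mul_left (lt_of_le_of_lt h2 h1) hs0.le

/-- `‖P_x b a_j‖ → 0` -/
theorem PP.P_mul_tendsto {Y : Set X} {x : X} (hx : x ∉ Y) {B : StarSubalgebra ℂ 𝔹}
    (hBU : B ≤ M.U Y) (hbase : cs M.base ≤ B) {ψ : 𝔹 →ₚ[ℂ] ℂ} {a : ℕ → 𝔹} (h : Exc B ψ a)
    {b : 𝔹} (hb : b ∈ B) : Tendsto (fun j => ‖M.P x * b * a j‖) atTop (𝓝 0) := by
  have hU : M.U Y ≤ M.U Set.univ := M.U_mono Y _ (Set.subset_univ _)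
  have hd := M.diffuse (hBU.trans hU) hbase h
  have hd' : Tendsto (fun j => ‖b‖ * sn M.τ (a j)) atTop (𝓝 0) := by
    simpa using hd.const_mul ‖b‖
  refine squeeze_zero (fun j => norm_nonneg _) (fun j => ?_) hd'
  rw [mul_assoc, M.norm_P_mul hx (mul_mem (hBU hb) (hBU (h.mem j)))]
  exact sn_mul_le _ _ _

/-- elements `b` of `B`: `P_x b` is killed by `ψ`. -/
theorem PP.sn_mul_P_mul {Y : Set X} {x : X} (hx : x ∉ Y) {B : StarSubalgebra ℂ 𝔹}
    (hBU : B ≤ M.U Y) (hbase : cs M.base ≤ B) {ψ : 𝔹 →ₚ[ℂ] ℂ} {a : ℕ → 𝔹} (h : Exc B ψ a)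
    {b : 𝔹} (hb : b ∈ B) (Z : 𝔹) : sn ψ (Z * (M.P x * b)) = 0 := by
  apply le_antisymm _ (sn_nonneg _ _)
  calc sn ψ (Z * (M.P x * b)) ≤ ‖Z‖ * sn ψ (M.P x * b) := sn_mul_le _ _ _
    _ = 0 := by rw [h.sn_eq_zero (M.P_mul_tendsto hx hBU hbase h hb), mul_zero]

/-- admissible words -/
inductive PP.Adm (B : StarSubalgebra ℂ 𝔹) (N : Set X) : X → 𝔹 → Prop
  | base (x : X) (b : 𝔹) (hb : b ∈ B) : PP.Adm B N x b
  | step (x x' : X) (b w : 𝔹) (hb : b ∈ B) (hx' : x' ∈ N) (hw : PP.Adm B N x' w)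
      (h : x ≠ x' ∨ M.τ b = 0) : PP.Adm B N x (b * M.G x' * w)

theorem PP.Adm.tendsto {M : PP 𝔹 X} {Y N : Set X} (hYN : Disjoint Y N) {B : StarSubalgebra ℂ 𝔹}
    (hBU : B ≤ M.U Y) (hbase : cs M.base ≤ B) {ψ : 𝔹 →ₚ[ℂ] ℂ} {a : ℕ → 𝔹} (h : Exc B ψ a)
    {x : X} {w : 𝔹} (hw : M.Adm B N x w) : x ∉ Y →
    Tendsto (fun j => ‖M.P x * w * a j‖) atTop (𝓝 0) := by
  induction hw with
  | base x b hb => intro hx; exact M.P_mul_tendsto hx hBU hbase h hb
  | step x x' b w hb hx' hw hxx ih =>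
    intro hx
    have hx'Y : x' ∉ Y := fun hY => Set.disjoint_left.mp hYN hY hx'
    have ih' := ih hx'Y
    have h0 : M.P x * b * M.P x' = 0 := by
      rcases hxx with hne | hτ
      · exact M.PTP_ne Y x x' b hx hx'Y hne (hBU hb)
      · by_cases hne : x = x'
        · subst hne
          rw [M.PTP_same Y x b hx (hBU hb), hτ, zero_smul]
        · exact M.PTP_ne Y x x' b hx hx'Y hne (hBU hb)
    have hlim : Tendsto (fun j => ‖M.P x * b * M.G x'‖ * ‖M.P x' * w * a j‖) atTop (𝓝 0) := by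
      simpa using ih'.const_mul ‖M.P x * b * M.G x'‖
    refine squeeze_zero (fun j => norm_nonneg _) (fun j => ?_) hlim
    have e : M.P x * (b * M.G x' * w) * a j = M.P x * b * M.G x' * (M.P x' * w * a j) := by
      calc M.P x * (b * M.G x' * w) * a j
          = M.P x * b * M.G x' * (w * a j) := by simp only [mul_assoc]
        _ = M.P x * b * (M.P x' * M.G x' + M.G x' * M.P x') * (w * a j) := by rw [← M.G_eq]
        _ = (M.P x * b * M.P x') * M.G x' * (w * a j)
            + M.P x * b * M.G x' * (M.P x' * w * a j) := by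
            simp only [mul_add, add_mul, mul_assoc]
        _ = M.P x * b * M.G x' * (M.P x' * w * a j) := by rw [h0]; simp
    rw [e]
    exact norm_mul_le _ _

/-- the dense subspace -/
noncomputable def PP.W (B : StarSubalgebra ℂ 𝔹) (N : Set X) : Submodule ℂ 𝔹 :=
  Submodule.span ℂ {T | T ∈ B ∨ ∃ x ∈ N, ∃ b ∈ B, ∃ w, M.Adm B N x w ∧ T = b * M.G x * w}

theorem PP.Adm.mem_W {M : PP 𝔹 X} {N : Set X} {B : StarSubalgebra ℂ 𝔹} {x : X} {w : 𝔹}
    (hw : M.Adm B N x w) : w ∈ M.W B N := by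
  apply Submodule.subset_span
  cases hw with
  | base _ _ hb => exact Or.inl hb
  | step _ x' b w hb hx' hw _ => exact Or.inr ⟨x', hx', b, hb, w, hw, rfl⟩

theorem PP.W_mul_left {N : Set X} {B : StarSubalgebra ℂ 𝔹} {b : 𝔹} (hb : b ∈ B) :
    ∀ T ∈ M.W B N, b * T ∈ M.W B N := by
  intro T hT
  induction hT using Submodule.span_induction with
  | mem T hT =>
    apply Submodule.subset_span
    rcases hT with hT | ⟨x, hx, b', hb', w, hw, rfl⟩
    · exact Or.inl (mul_mem hb hT)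
    · exact Or.inr ⟨x, hx, b * b', mul_mem hb hb', w, hw, by simp only [mul_assoc]⟩
  | zero => simp
  | add S T _ _ hS hT => rw [mul_add]; exact add_mem hS hT
  | smul c T _ hT => rw [mul_smul_comm]; exact Submodule.smul_mem _ _ hT

theorem PP.W_G_mul_left {N : Set X} {B : StarSubalgebra ℂ 𝔹} {y : X} (hy : y ∈ N) :
    ∀ T ∈ M.W B N, M.G y * T ∈ M.W B N := by
  intro T hT
  induction hT using Submodule.span_induction with
  | mem T hT =>
    rcases hT with hT | ⟨x, hx, b, hb, w, hw, rfl⟩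
    · apply Submodule.subset_span
      exact Or.inr ⟨y, hy, 1, one_mem _, T, .base y T hT, by rw [one_mul]⟩
    · by_cases hxy : y = x
      · subst hxy
        have e : M.G y * (b * M.G y * w) =
            1 * M.G y * ((b - M.τ b • 1) * M.G y * w) + M.τ b • w := by
          have : M.G y * M.G y = 1 := M.G_sq y
          calc M.G y * (b * M.G y * w)
              = M.G y * ((b - M.τ b • 1) * M.G y * w) + M.τ b • ((M.G y * M.G y) * w) := by
                simp only [sub_mul, mul_sub, smul_mul_assoc, mul_smul_comm, one_mul, mul_assoc]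
                abel
            _ = _ := by rw [this, one_mul, one_mul]
        rw [e]
        apply add_mem
        · apply Submodule.subset_span
          have hb' : b - M.τ b • (1 : 𝔹) ∈ B := sub_mem hb (B.smul_mem (one_mem _) _)
          refine Or.inr ⟨y, hy, 1, one_mem _, _, .step y y _ w hb' hy hw (Or.inr ?_), rfl⟩
          rw [map_sub, map_smul, M.τ_one]
          simp
        · exact Submodule.smul_mem _ _ hw.mem_W
      · apply Submodule.subset_span
        exact Or.inr ⟨y, hy, 1, one_mem _, _, .step y x b w hb hx hw (Or.inl hxy),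
          by rw [one_mul]⟩
  | zero => simp
  | add S T _ _ hS hT => rw [mul_add]; exact add_mem hS hT
  | smul c T _ hT => rw [mul_smul_comm]; exact Submodule.smul_mem _ _ hT

theorem PP.W_dense {N : Set X} {B : StarSubalgebra ℂ 𝔹} :
    ∀ x ∈ cs ((B : Set 𝔹) ∪ M.G '' N), ∀ ε > 0, ∃ w ∈ M.W B N, ‖x - w‖ < ε := by
  apply exists_near_of_left_stable (W := (M.W B N : Set 𝔹))
  · intro x hx y hy; exact add_mem hx hy
  · intro c x hx; exact Submodule.smul_mem _ _ hx
  · exact Submodule.subset_span (Or.inl (one_mem _))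
  · rintro s (hs | ⟨y, hy, rfl⟩) x hx
    · exact M.W_mul_left hs x hx
    · exact M.W_G_mul_left hy x hx
  · rintro s (hs | ⟨y, hy, rfl⟩) x hx
    · exact M.W_mul_left (star_mem hs) x hx
    · rw [M.G_sa]; exact M.W_G_mul_left hy x hx

theorem PP.W_closure {N : Set X} {B : StarSubalgebra ℂ 𝔹} {C : Set 𝔹} (hC : IsClosed C)
    (h : ∀ x ∈ M.W B N, x ∈ C) : ∀ x ∈ cs ((B : Set 𝔹) ∪ M.G '' N), x ∈ C := by
  intro x hx
  rw [← hC.closure_eq, Metric.mem_closure_iff]
  intro ε hε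
  obtain ⟨w, hw, hxw⟩ := M.W_dense x hx ε hε
  exact ⟨w, h w hw, by rwa [dist_eq_norm]⟩

/-- THEOREM TI -/
theorem PP.typeI {Y N : Set X} (hYN : Disjoint Y N) {B : StarSubalgebra ℂ 𝔹}
    (hB : IsClosed (B : Set 𝔹)) (hBU : B ≤ M.U Y) (hbase : cs M.base ≤ B)
    {ψ : 𝔹 →ₚ[ℂ] ℂ} {a : ℕ → 𝔹} (h : Exc B ψ a) :
    Exc (cs ((B : Set 𝔹) ∪ M.G '' N)) ψ a := by
  refine ⟨h.one, fun j => subset_cs _ (Or.inl (h.mem j)), h.nonneg, h.le_one, h.tend, ?_⟩
  refine M.W_closure (Exc.isClosed_set h.one h.norm_le_one) ?_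
  intro T hT
  induction hT using Submodule.span_induction with
  | mem T hT =>
    rcases hT with hT | ⟨x, hx, b, hb, w, hw, rfl⟩
    · exact h.exc T hT
    · have hxY : x ∉ Y := fun hY => Set.disjoint_left.mp hYN hY hx
      have h1 := hw.tendsto hYN hBU hbase h hxY
      have h2 := M.P_mul_tendsto hxY hBU hbase h (star_mem hb)
      -- `ψ (b G w) = 0`
      have eG : b * M.G x * w = b * M.P x * (M.G x * w) + b * M.G x * (M.P x * w) := by
        calc b * M.G x * w = b * (M.P x * M.G x + M.G x * M.P x) * w := by rw [← M.G_eq]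
          _ = _ := by simp only [mul_add, add_mul, mul_assoc]
      have hP : star (M.P x) = M.P x := (M.P_proj x).isSelfAdjoint.star_eq
      have z1 : ψ (b * M.G x * (M.P x * w)) = 0 := by
        have : sn ψ (b * M.G x * (M.P x * w)) ≤ 0 := by
          calc _ ≤ ‖b * M.G x‖ * sn ψ (M.P x * w) := sn_mul_le _ _ _
            _ = 0 := by rw [h.sn_eq_zero h1, mul_zero]
        have h3 := norm_apply_le_sn ψ h.one (b * M.G x * (M.P x * w))
        exact norm_le_zero_iff.mp (h3.trans this)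
      have z2 : ψ (b * M.P x * (M.G x * w)) = 0 := by
        have e : b * M.P x * (M.G x * w) = star (star (M.G x * w) * (M.P x * star b)) := by
          simp only [star_mul, star_star, hP, mul_assoc]
        rw [e, apply_star]
        have : sn ψ (star (M.G x * w) * (M.P x * star b)) ≤ 0 := by
          rw [M.sn_mul_P_mul hxY hBU hbase h (star_mem hb)]
        have h3 := norm_apply_le_sn ψ h.one (star (M.G x * w) * (M.P x * star b))
        rw [norm_le_zero_iff.mp (h3.trans this), star_zero]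
      have z3 : ψ (b * M.G x * w) = 0 := by rw [eG, map_add, z1, z2, add_zero]
      show Tendsto (fun j => ‖a j * (b * M.G x * w) * a j
        - ψ (b * M.G x * w) • (a j * a j)‖) atTop (𝓝 0)
      simp only [z3, zero_smul, sub_zero]
      have hlim : Tendsto (fun j => ‖M.P x * star b * a j‖ * ‖M.G x * w‖
          + ‖b * M.G x‖ * ‖M.P x * w * a j‖) atTop (𝓝 0) := by
        simpa using (h2.mul_const ‖M.G x * w‖).add (h1.const_mul ‖b * M.G x‖)
      refine squeeze_zero (fun j => norm_nonneg _) (fun j => ?_) hlim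
      have hasa : star (a j) = a j := (IsSelfAdjoint.of_nonneg (h.nonneg j)).star_eq
      have ha1 := h.norm_le_one j
      have e : a j * (b * M.G x * w) * a j =
          star (M.P x * star b * a j) * (M.G x * w) * a j
            + a j * (b * M.G x) * (M.P x * w * a j) := by
        rw [eG]
        simp only [star_mul, star_star, hP, hasa, mul_add, add_mul, mul_assoc]
      rw [e]
      refine (norm_add_le _ _).trans (add_le_add ?_ ?_)
      · calc ‖star (M.P x * star b * a j) * (M.G x * w) * a j‖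
            ≤ ‖star (M.P x * star b * a j) * (M.G x * w)‖ * ‖a j‖ := norm_mul_le _ _
          _ ≤ ‖star (M.P x * star b * a j) * (M.G x * w)‖ * 1 := by gcongr
          _ ≤ ‖star (M.P x * star b * a j)‖ * ‖M.G x * w‖ := by
              rw [mul_one]; exact norm_mul_le _ _
          _ = _ := by rw [norm_star]
      · calc ‖a j * (b * M.G x) * (M.P x * w * a j)‖
            ≤ ‖a j * (b * M.G x)‖ * ‖M.P x * w * a j‖ := norm_mul_le _ _
          _ ≤ (‖a j‖ * ‖b * M.G x‖) * ‖M.P x * w * a j‖ := by gcongr; exact norm_mul_le _ _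
          _ ≤ (1 * ‖b * M.G x‖) * ‖M.P x * w * a j‖ := by gcongr
          _ = _ := by rw [one_mul]
  | zero =>
    show Tendsto (fun j => ‖a j * 0 * a j - ψ 0 • (a j * a j)‖) atTop (𝓝 0)
    simp
  | add S T _ _ hS hT =>
    have hS' : Tendsto (fun j => ‖a j * S * a j - ψ S • (a j * a j)‖) atTop (𝓝 0) := hS
    have hT' : Tendsto (fun j => ‖a j * T * a j - ψ T • (a j * a j)‖) atTop (𝓝 0) := hT
    have hlim := hS'.add hT'
    rw [add_zero] at hlim
    refine squeeze_zero (fun j => norm_nonneg _) (fun j => ?_) hlim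
    refine le_trans (le_of_eq ?_) (norm_add_le _ _)
    congr 1
    rw [map_add, add_smul, mul_add, add_mul]
    abel
  | smul c T _ hT =>
    have hT' : Tendsto (fun j => ‖a j * T * a j - ψ T • (a j * a j)‖) atTop (𝓝 0) := hT
    have hlim := hT'.const_mul ‖c‖
    rw [mul_zero] at hlim
    refine squeeze_zero (fun j => norm_nonneg _) (fun j => le_of_eq ?_) hlim
    rw [← norm_smul]
    congr 1
    rw [map_smul, smul_sub, mul_smul_comm, smul_mul_assoc, smul_assoc]

/-- THEOREM TI' -/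
theorem PP.typeI_perp {Y N : Set X} (hYN : Disjoint Y N) {B : StarSubalgebra ℂ 𝔹}
    (hB : IsClosed (B : Set 𝔹)) (hBU : B ≤ M.U Y) (hbase : cs M.base ≤ B)
    {ψ : 𝔹 →ₚ[ℂ] ℂ} {a : ℕ → 𝔹} (h : Exc B ψ a)
    (hperp : ∀ c ∈ B, Tendsto (fun n => sn ψ (M.p n * c)) atTop (𝓝 0)) :
    ∀ c ∈ cs ((B : Set 𝔹) ∪ M.G '' N), Tendsto (fun n => sn ψ (M.p n * c)) atTop (𝓝 0) := by
  have hU : M.U Y ≤ M.U Set.univ := M.U_mono Y _ (Set.subset_univ _)
  have hpB : ∀ n, M.p n ∈ B := fun n => hbase (M.p_mem n)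
  have hτp : Tendsto (fun n => sn M.τ (M.p n)) atTop (𝓝 0) := by
    have h1 : Tendsto (fun n => Real.sqrt ((sn M.τ (M.p n)) ^ 2)) atTop (𝓝 0) := by
      have h2 : ∀ n, (sn M.τ (M.p n)) ^ 2 = (1 / 2 : ℝ) ^ n := by
        intro n
        rw [sn_proj_sq _ (M.p_dec.proj n), M.τ_p n]
        have : ((1 / 2 : ℂ) ^ n) = (((1 / 2 : ℝ) ^ n : ℝ) : ℂ) := by push_cast; ring
        rw [this, Complex.ofReal_re]
      simp only [h2]
      have h3 : Tendsto (fun n : ℕ => (1 / 2 : ℝ) ^ n) atTop (𝓝 0) :=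
        tendsto_pow_atTop_nhds_zero_of_lt_one (by norm_num) (by norm_num)
      simpa using h3.sqrt
    simpa [Real.sqrt_sq (sn_nonneg _ _)] using h1
  have hclosed : IsClosed {c : 𝔹 | Tendsto (fun n => sn ψ (M.p n * c)) atTop (𝓝 0)} := by
    rw [← isSeqClosed_iff_isClosed]
    intro c c₀ hc hcc
    show Tendsto (fun n => sn ψ (M.p n * c₀)) atTop (𝓝 0)
    rw [Metric.tendsto_atTop]
    intro ε hε
    obtain ⟨m, hm⟩ := (Metric.tendsto_atTop.mp hcc) (ε / 2) (half_pos hε)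
    have hm' : ‖c₀ - c m‖ < ε / 2 := by
      rw [norm_sub_rev, ← dist_eq_norm]; exact hm m le_rfl
    obtain ⟨N', hN'⟩ := (Metric.tendsto_atTop.mp (hc m)) (ε / 2) (half_pos hε)
    refine ⟨N', fun n hn => ?_⟩
    have h1 := hN' n hn
    rw [Real.dist_eq, sub_zero, abs_of_nonneg (sn_nonneg _ _)] at h1 ⊢
    calc sn ψ (M.p n * c₀) = sn ψ (M.p n * (c₀ - c m) + M.p n * c m) := by
          rw [← mul_add]; congr 2; abel
      _ ≤ sn ψ (M.p n * (c₀ - c m)) + sn ψ (M.p n * c m) := sn_add_le _ _ _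
      _ ≤ ‖M.p n * (c₀ - c m)‖ + sn ψ (M.p n * c m) := by
          gcongr; exact sn_le_norm _ h.one _
      _ ≤ ‖M.p n‖ * ‖c₀ - c m‖ + sn ψ (M.p n * c m) := by
          gcongr; exact norm_mul_le _ _
      _ ≤ 1 * ‖c₀ - c m‖ + sn ψ (M.p n * c m) := by
          gcongr; exact norm_proj_le (M.p_dec.proj n)
      _ < ε / 2 + ε / 2 := by rw [one_mul]; exact add_lt_add hm' h1
      _ = ε := by ring
  refine M.W_closure hclosed ?_
  intro T hT
  induction hT using Submodule.span_induction with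
  | mem T hT =>
    rcases hT with hT | ⟨x, hx, b, hb, w, hw, rfl⟩
    · exact hperp T hT
    · have hxY : x ∉ Y := fun hY => Set.disjoint_left.mp hYN hY hx
      have h1 := hw.tendsto hYN hBU hbase h hxY
      have hlim : Tendsto (fun n => sn M.τ (M.p n) * ‖b‖ * sn ψ (M.G x * w)) atTop (𝓝 0) := by
        simpa using (hτp.mul_const ‖b‖).mul_const (sn ψ (M.G x * w))
      show Tendsto (fun n => sn ψ (M.p n * (b * M.G x * w))) atTop (𝓝 0)
      refine squeeze_zero (fun j => sn_nonneg _ _) (fun n => ?_) hlim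
      have eG : M.p n * (b * M.G x * w) =
          (M.p n * b * M.P x) * (M.G x * w) + (M.p n * b * M.G x) * (M.P x * w) := by
        calc M.p n * (b * M.G x * w)
            = M.p n * (b * (M.P x * M.G x + M.G x * M.P x) * w) := by rw [← M.G_eq]
          _ = _ := by simp only [mul_add, add_mul, mul_assoc]
      rw [eG]
      calc sn ψ ((M.p n * b * M.P x) * (M.G x * w) + (M.p n * b * M.G x) * (M.P x * w))
          ≤ sn ψ ((M.p n * b * M.P x) * (M.G x * w))
            + sn ψ ((M.p n * b * M.G x) * (M.P x * w)) := sn_add_le _ _ _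
        _ ≤ ‖M.p n * b * M.P x‖ * sn ψ (M.G x * w)
            + ‖M.p n * b * M.G x‖ * sn ψ (M.P x * w) :=
            add_le_add (sn_mul_le _ _ _) (sn_mul_le _ _ _)
        _ = ‖M.p n * b * M.P x‖ * sn ψ (M.G x * w) := by
            rw [h.sn_eq_zero h1, mul_zero, add_zero]
        _ = sn M.τ (M.p n * b) * sn ψ (M.G x * w) := by
            rw [M.norm_mul_P hxY (mul_mem (hBU (hpB n)) (hBU hb))]
        _ ≤ sn M.τ (M.p n) * ‖b‖ * sn ψ (M.G x * w) := by
            gcongr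
            · exact sn_nonneg _ _
            · exact M.sn_mul_le' (hU (hBU (hpB n))) (hU (hBU hb))
  | zero =>
    show Tendsto (fun n => sn ψ (M.p n * 0)) atTop (𝓝 0)
    simp [sn_zero]
  | add S T _ _ hS hT =>
    have hS' : Tendsto (fun n => sn ψ (M.p n * S)) atTop (𝓝 0) := hS
    have hT' : Tendsto (fun n => sn ψ (M.p n * T)) atTop (𝓝 0) := hT
    have hlim := hS'.add hT'
    rw [add_zero] at hlim
    show Tendsto (fun n => sn ψ (M.p n * (S + T))) atTop (𝓝 0)
    refine squeeze_zero (fun j => sn_nonneg _ _) (fun n => ?_) hlim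
    rw [mul_add]
    exact sn_add_le _ _ _
  | smul c T _ hT =>
    have hT' : Tendsto (fun n => sn ψ (M.p n * T)) atTop (𝓝 0) := hT
    have hlim := hT'.const_mul ‖c‖
    rw [mul_zero] at hlim
    show Tendsto (fun n => sn ψ (M.p n * (c • T))) atTop (𝓝 0)
    simp only [mul_smul_comm, sn_smul]
    exact hlim

end Crest.Agent.R120
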